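import Crest.Agent.N346.Id.Defs

/-!
Row 346, Part 1: the coupled Jang / conformal system, FROZEN definitions and the list of sub-parts
(team notes 132, 145, 150, 168).  Small parameter `e`: `δ = e²`, `τ = e³`, penalty `e⁻⁶`.
Levels of `z`: `z0 = -θ`, `z1 = -3θ/4`, `z2 = -θ/2`, `z5 = -θ/4`.
-/

set_option autoImplicit false

open MeasureTheory Filter Topology
open scoped ContDiff
open Crest.GeometryTopology.CoordMetric Crest.MathPhysics.ExteriorData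
open Crest.Agent.R202.Tens Crest.Agent.R247.Bo84 Crest.Agent.N346.Id

noncomputable section

namespace Crest.Agent.N346.P1

variable {n : ℕ}

/-- `α = (n-2)/(n-1)`. -/
def al (n : ℕ) : ℝ := ((n : ℝ) - 2) / ((n : ℝ) - 1)

/-- Smooth monotone step: `0` for `t ≤ a`, `1` for `b ≤ t` (when `a < b`). -/
def cut (a b t : ℝ) : ℝ := Real.smoothTransition ((t - a) / (b - a))

/-- Real parameters of the system. -/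
structure Par where
  θ : ℝ
  t0 : ℝ
  t1 : ℝ
  e : ℝ
  M : ℝ
  z3 : ℝ

/-- The `x`-dependent coefficients of the system. -/
structure Coef (n : ℕ) where
  g : MetricField n
  K : MetricField n
  EE : VectorField n
  a1 : E n → ℝ
  a2 : E n → ℝ
  b1 : E n → ℝ
  b2 : E n → ℝ
  cw : E n → ℝ
  mw : E n → ℝ
  an : E n → ℝ

namespace Par
variable (P : Par)

def δ : ℝ := P.e ^ 2
def τ : ℝ := P.e ^ 3
/-- `s(z)`: `1` for `z ≤ z0`, `0` for `z1 ≤ z`. -/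
def sz (z : ℝ) : ℝ := 1 - cut (-P.θ) (-3 * P.θ / 4) z
/-- `Φ̂(z)`: `0` for `z ≤ z2`, `1` for `z5 ≤ z`. -/
def Ph (z : ℝ) : ℝ := cut (-P.θ / 2) (-P.θ / 4) z
/-- the truncation term. -/
def vt (z : ℝ) : ℝ := -P.M * (1 - cut (-P.θ - 2) (-P.θ - 1) z) + P.M * cut P.z3 (P.z3 + 1) z
/-- `χ_in` as a function of `a1, a2` and `t = τ f`. -/
def chi (a1 a2 t : ℝ) : ℝ := a1 * (1 - a2 * (1 - cut (-P.t1) (-P.t1 / 2) t))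
/-- the penalty profile as a function of `b1, b2` and `t = τ f`. -/
def dd (b1 b2 t : ℝ) : ℝ := 1 - b1 * (1 - cut (P.t0 ^ 2) (4 * P.t0 ^ 2) (t ^ 2) * b2)
/-- the warping factor at homotopy time `t` as a function of `a1, a2, f, z`. -/
def phiF (t a1 a2 f z : ℝ) : ℝ :=
  1 + t * (P.δ + (1 - P.δ) * P.chi a1 a2 (P.τ * f) * P.Ph z - 1)

/-- Admissible `e`-free parameters. -/
structure OK : Prop where
  θ_pos : 0 < P.θ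
  θ_le : P.θ ≤ 1
  t0_pos : 0 < P.t0
  t01 : 4 * P.t0 ≤ P.t1
  t1_le : P.t1 ≤ 1

end Par

namespace Coef
variable (c : Coef n)

/-- `g_t = (1-t) δ + t g`. -/
def gt (t : ℝ) : MetricField n := fun x => (1 - t) • (1 : Matrix (Fin n) (Fin n) ℝ) + t • c.g x
/-- `K_t = t K`. -/
def Kt (t : ℝ) : MetricField n := fun x => t • c.K x

/-- Precomposition of all coefficients with a map (used with a smooth periodic map). -/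
def comp (π : E n → E n) : Coef n :=
  ⟨c.g ∘ π, c.K ∘ π, c.EE ∘ π, c.a1 ∘ π, c.a2 ∘ π, c.b1 ∘ π, c.b2 ∘ π, c.cw ∘ π, c.mw ∘ π, c.an ∘ π⟩

/-- All scalar components of the coefficients. -/
def comps : Set (E n → ℝ) :=
  {u | (∃ i j, u = fun x => c.g x i j) ∨ (∃ i j, u = fun x => c.K x i j) ∨
    (∃ i, u = fun x => c.EE x i) ∨ u = c.a1 ∨ u = c.a2 ∨ u = c.b1 ∨ u = c.b2 ∨ u = c.cw ∨
    u = c.mw ∨ u = c.an}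

end Coef

/-- `u` is smooth with `‖D^k u‖ ≤ B k`. -/
def Bdd (B : ℕ → ℝ) (u : E n → ℝ) : Prop :=
  ContDiff ℝ ∞ u ∧ ∀ k x, ‖iteratedFDeriv ℝ k u x‖ ≤ B k

/-- `u` is `L`-periodic in every coordinate. -/
def Per (L : ℝ) (u : E n → ℝ) : Prop := ∀ i x, u (x + EuclideanSpace.single i L) = u x

/-- Uniformly bounded coefficients. -/
structure Coef.Unif (c : Coef n) (lam : ℝ) (B : ℕ → ℝ) : Prop where
  lam_pos : 0 < lam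
  lam_le : lam ≤ 1
  riem : IsRiemannianOn c.g Set.univ
  g_lo : ∀ x v, lam * ‖v‖ ^ 2 ≤ quadForm c.g x v
  K_symm : ∀ x i j, c.K x i j = c.K x j i
  bdd : ∀ u ∈ c.comps, Bdd B u
  a1_mem : ∀ x, c.a1 x ∈ Set.Icc (0 : ℝ) 1
  a2_mem : ∀ x, c.a2 x ∈ Set.Icc (0 : ℝ) 1
  b1_mem : ∀ x, c.b1 x ∈ Set.Icc (0 : ℝ) 1
  b2_mem : ∀ x, c.b2 x ∈ Set.Icc (0 : ℝ) 1
  an_mem : ∀ x, c.an x ∈ Set.Icc (0 : ℝ) 1
  cw_nonneg : ∀ x, 0 ≤ c.cw x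
  mw_nonneg : ∀ x, 0 ≤ c.mw x

section
variable (P : Par) (c : Coef n) (t : ℝ) (f z : E n → ℝ)

/-- the warping factor `φ` of the pair `(f, z)`. -/
def phi : E n → ℝ := fun x => P.phiF t (c.a1 x) (c.a2 x) (f x) (z x)

/-- the Jang metric `ḡ` of the pair `(f, z)`. -/
def gbar : MetricField n := gb (c.gt t) (phi P c t f z) f

/-- `T = Θ² + τ p + 2 m0 + 2 |Ē|²` with `Θ = τ f`. -/
def TT (x : E n) : ℝ :=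
  (P.τ * f x) ^ 2 + P.τ * pp (c.gt t) (phi P c t f z) f x + 2 * c.mw x
    + 2 * eSq (gbar P c t f z) c.EE x

/-- the zeroth-order right-hand side of (U). -/
def GG (x : E n) : ℝ :=
  t * (-TT P c t f z x - P.sz (z x) * c.cw x
      + (1 - P.sz (z x)) * ((P.e ^ 6)⁻¹ * P.dd (c.b1 x) (c.b2 x) (P.τ * f x)) + c.an x * z x)
    + (1 - t) * z x + P.vt (z x)

/-- The system at homotopy time `t`. -/
structure Sys : Prop where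
  f_smooth : ContDiff ℝ ∞ f
  z_smooth : ContDiff ℝ ∞ z
  jang : ∀ x, Th (c.gt t) (phi P c t f z) f (c.Kt t) x = P.τ * f x
  conf : ∀ x, 2 * laplaceBeltrami (gbar P c t f z) z x + al n * gam (gbar P c t f z) z z x
    = scalarCurv (gbar P c t f z) x + GG P c t f z x

end

/-- Good data together with the `e`-free design constants and the inner barrier family `y`. -/
structure Setup (n : ℕ) where
  m : ℝ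
  A : ℝ
  Q : ℝ
  g : MetricField n
  K : MetricField n
  EE : VectorField n
  ψ : E n → ℝ
  s : E n → ℝ
  R0 : ℝ
  C : ℝ
  c0 : ℝ
  e0 : ℝ
  θ0 : ℝ
  r1 : ℝ
  θ : ℝ
  t0 : ℝ
  t1 : ℝ
  ra : ℝ
  rb : ℝ
  C0 : ℝ
  c1 : ℝ
  Cy : ℝ
  y : ℝ → E n → ℝ

namespace Setup
variable (S : Setup n)

def par (e M z3 : ℝ) : Par := ⟨S.θ, S.t0, S.t1, e, M, z3⟩
/-- `C0(x)`. -/
def cw (x : E n) : ℝ := S.C0 * (1 + ‖x‖ ^ 2) ^ (-(n : ℝ) / 2)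
/-- the margin `m0(x)`. -/
def mw (x : E n) : ℝ := S.c1 * (1 + ‖x‖ ^ 2) ^ (-((n : ℝ) + S.e0) / 2)

/-- The coefficients with anchor `an` (`an = 1 - eta L`, or `0` in the limit). -/
def coef (an : E n → ℝ) : Coef n where
  g := S.g
  K := S.K
  EE := fun x i => eta S.R0 x * S.EE x i
  a1 := fun x => cut (1 / 4) (1 / 2) (S.s x)
  a2 := fun x => 1 - cut S.ra S.rb (S.s x)
  b1 := fun x => cut 1 S.ra (S.s x)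
  b2 := eta S.R0
  cw := S.cw
  mw := S.mw
  an := an

structure OK : Prop where
  good : Good n S.m S.A S.Q S.g S.K S.EE S.ψ S.s S.R0 S.C S.c0 S.e0 S.θ0 S.r1
  par_ok : (S.par 0 0 0).OK
  ra_gt : 1 < S.ra
  rab : S.ra < S.rb
  rb_lt : S.rb < 2
  c1_pos : 0 < S.c1
  margin : ∀ x, 2 * S.mw x ≤ S.c0 * (1 + ‖x‖) ^ (-(n : ℝ) - S.e0)
  t0_small : ∀ x, 4 * S.t0 * |traceK S.g S.K x| ≤ S.mw x
  E_far : ∀ x, S.R0 ≤ ‖x‖ → 2 * eSq S.g S.EE x ≤ S.mw x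
  C0_big : ∀ x w, quadForm S.g x w ≤ 1 →
    |scalarCurv S.g x| + 2 * |bil (ricM S.g x) w w|
      + ((n : ℝ) - 1) * (traceK S.g S.K x - bil (S.K x) w w) ^ 2 ≤ S.cw x
  y_cont : ContinuousOn (fun p : ℝ × E n => S.y p.1 p.2)
    {p | p.1 ∈ Set.Icc (3 / 16 : ℝ) S.ra ∧ S.s p.2 ≤ p.1}
  y_smooth : ∀ ρ ∈ Set.Icc (3 / 16 : ℝ) S.ra, ContDiffOn ℝ ∞ (S.y ρ) {x | S.s x < ρ}
  y_mem : ∀ ρ ∈ Set.Icc (3 / 16 : ℝ) S.ra, ∀ x, S.s x ≤ ρ → S.y ρ x ∈ Set.Icc (-S.Cy) 0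
  y_steep : ∀ ρ ∈ Set.Icc (3 / 16 : ℝ) S.ra, ∀ x, S.s x = ρ → ∀ L : ℝ,
    ∃ x', S.s x' < ρ ∧ S.y ρ x' + L * ‖x' - x‖ < S.y ρ x
  y_super : ∀ ρ ∈ Set.Icc (3 / 16 : ℝ) S.ra, ∀ x, S.s x < ρ →
    Th S.g (fun _ => 1) (S.y ρ) S.K x ≤ -2 * S.t1

/-- A solution of the system at `t = 1` on `ℝⁿ`. -/
def Sol (e M z3 : ℝ) (an f z : E n → ℝ) : Prop := Sys (S.par e M z3) (S.coef an) 1 f z

/-- The pointwise estimates, uniform in `M`, `z3` and the anchor. -/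
structure Est (e M z3 Λ : ℝ) (an f z : E n → ℝ) : Prop where
  z_lo : ∀ x, -S.θ ≤ z x
  z_hi : ∀ x, Real.exp (z x) ≤ Λ
  gm_hi : ∀ x, gm S.g (phi (S.par e M z3) (S.coef an) 1 f z) f x ≤ Λ
  inner : ∀ x, S.s x ≤ S.ra → e ^ 3 * f x ≤ -S.t1
  far_z5 : ∀ x, Λ ≤ ‖x‖ → -S.θ / 4 ≤ z x
  far_f : ∀ x, Λ ≤ ‖x‖ → |f x| ≤ Λ * Real.exp (-e ^ 2 * (‖x‖ - Λ))
  far_z : ∀ x, Λ ≤ ‖x‖ → |z x| ≤ Λ * ‖x‖ ^ (-(3 * ((n : ℝ) - 2) / 4))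

end Setup

/-! ### The sub-parts of Part 1 -/

/-- Modification `K ↦ K + κ(s) g`, enlargement of `R0`, choice of constants, inner barrier family. -/
def SetupStmt : Prop := ∀ (n : ℕ), 3 ≤ n → ∀ (m A Q : ℝ) (g K : MetricField n)
  (EE : VectorField n) (ψ s : E n → ℝ) (R0 C c0 e0 θ0 r1 : ℝ),
  Good n m A Q g K EE ψ s R0 C c0 e0 θ0 r1 → ∀ θ > 0, θ ≤ 1 →
  ∃ S : Setup n, S.OK ∧ S.m = m ∧ S.A = A ∧ S.Q = Q ∧ S.EE = EE ∧ S.θ = θ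

/-- The coefficients are uniformly bounded, uniformly in the anchor radius `L ≥ 1`. -/
def UnifStmt : Prop := ∀ (n : ℕ), 3 ≤ n → ∀ S : Setup n, S.OK → ∃ (lam : ℝ) (B : ℕ → ℝ),
  ∀ L ≥ (1 : ℝ), (S.coef fun x => 1 - eta L x).Unif lam B

/-- 1.1: a priori sup bounds along the homotopy (maximum principle). -/
def APStmt : Prop := ∀ (n : ℕ), 3 ≤ n → ∀ (θ t0 t1 lam : ℝ) (B : ℕ → ℝ),
  (⟨θ, t0, t1, 0, 0, 0⟩ : Par).OK → ∃ (N : ℕ) (e1 : ℝ), 0 < e1 ∧ ∀ e, 0 < e → e ≤ e1 →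
  ∀ M ≥ (e ^ N)⁻¹, ∀ z3 ≥ (0 : ℝ), ∃ B0 : ℝ, ∀ c : Coef n, c.Unif lam B →
  ∀ t ∈ Set.Icc (0 : ℝ) 1, ∀ (L : ℝ) (f z : E n → ℝ), 0 < L → (∀ u ∈ c.comps, Per L u) →
  Per L f → Per L z → Sys ⟨θ, t0, t1, e, M, z3⟩ c t f z →
  ∀ x, |f x| ≤ B0 ∧ |z x| ≤ B0 ∧ ‖fderiv ℝ f x‖ ≤ B0

/-- 1.2: regularity, uniform in the period and the homotopy time. -/
def RegStmt : Prop := ∀ (n : ℕ), 3 ≤ n → ∀ (P : Par), P.OK → 0 < P.e → P.e < 1 →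
  ∀ (lam B0 : ℝ) (B : ℕ → ℝ), ∃ B' : ℕ → ℝ, ∀ c : Coef n, c.Unif lam B →
  ∀ t ∈ Set.Icc (0 : ℝ) 1, ∀ (L : ℝ) (f z : E n → ℝ), 1 ≤ L → (∀ u ∈ c.comps, Per L u) →
  Per L f → Per L z → Sys P c t f z →
  (∀ x, |f x| ≤ B0 ∧ |z x| ≤ B0 ∧ ‖fderiv ℝ f x‖ ≤ B0) → Bdd B' f ∧ Bdd B' z

/-- Leray–Schauder on the torus: a priori bounds along the homotopy give a solution at `t = 1`. -/
def TorStmt : Prop := ∀ (n : ℕ), 3 ≤ n → ∀ (P : Par), P.OK → 0 < P.e → P.e < 1 → 0 ≤ P.M →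
  0 ≤ P.z3 → ∀ (lam : ℝ) (B : ℕ → ℝ) (c : Coef n), c.Unif lam B → ∀ L ≥ (1 : ℝ),
  (∀ u ∈ c.comps, Per L u) →
  (∃ B' : ℕ → ℝ, ∀ t ∈ Set.Icc (0 : ℝ) 1, ∀ f z : E n → ℝ, Per L f → Per L z → Sys P c t f z →
    Bdd B' f ∧ Bdd B' z) →
  ∃ f z : E n → ℝ, Per L f ∧ Per L z ∧ Sys P c 1 f z


/-- 1.1–1.3: bounded solutions on `ℝⁿ` (periodise by `Coef.comp`, let the period tend to `∞`). -/
def ExStmt : Prop := ∀ (n : ℕ), 3 ≤ n → ∀ (θ t0 t1 lam : ℝ) (B : ℕ → ℝ),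
  (⟨θ, t0, t1, 0, 0, 0⟩ : Par).OK → ∃ (N : ℕ) (e1 : ℝ), 0 < e1 ∧ ∀ e, 0 < e → e ≤ e1 →
  ∀ M ≥ (e ^ N)⁻¹, ∀ z3 ≥ (0 : ℝ), ∃ B' : ℕ → ℝ, ∀ c : Coef n, c.Unif lam B →
  ∃ f z : E n → ℝ, Sys ⟨θ, t0, t1, e, M, z3⟩ c 1 f z ∧ Bdd B' f ∧ Bdd B' z

/-- 1.3–1.7: decay, barriers, energy, De Giorgi. -/
def EstStmt : Prop := ∀ (n : ℕ), 3 ≤ n → ∀ S : Setup n, S.OK → ∃ (N : ℕ) (e1 : ℝ), 0 < e1 ∧
  ∀ e, 0 < e → e ≤ e1 → ∀ M ≥ (0 : ℝ), ∀ z3 ≥ (0 : ℝ), ∀ L ≥ (e ^ N)⁻¹, ∀ (B : ℕ → ℝ)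
  (f z : E n → ℝ), S.Sol e M z3 (fun x => 1 - eta L x) f z → Bdd B f → Bdd B z →
  S.Est e M z3 (e ^ N)⁻¹ (fun x => 1 - eta L x) f z

/-- 1.8, removal of the anchor (`L → ∞`). -/
def LimStmt : Prop := ∀ (n : ℕ), 3 ≤ n → ∀ S : Setup n, S.OK → ∀ (e M z3 Λ L0 : ℝ) (B : ℕ → ℝ),
  0 < e → e < 1 →
  (∀ L ≥ L0, ∃ f z : E n → ℝ, S.Sol e M z3 (fun x => 1 - eta L x) f z ∧ Bdd B f ∧ Bdd B z ∧
    S.Est e M z3 Λ (fun x => 1 - eta L x) f z) →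
  ∃ f z : E n → ℝ, S.Sol e M z3 (fun _ => 0) f z ∧ Bdd B f ∧ Bdd B z ∧
    S.Est e M z3 Λ (fun _ => 0) f z

/-- 1.6 + 1.8 for the limit solution: finite energy and small flux of `u = exp(α z / 2)`. -/
def EnStmt : Prop := ∀ (n : ℕ), 3 ≤ n → ∀ S : Setup n, S.OK → ∀ ε > 0, ∀ N : ℕ, ∃ e1 > (0 : ℝ),
  ∀ e, 0 < e → e ≤ e1 → ∀ M ≥ (0 : ℝ), ∀ z3 ≥ (0 : ℝ), ∀ (B : ℕ → ℝ) (f z : E n → ℝ),
  S.Sol e M z3 (fun _ => 0) f z → Bdd B f → Bdd B z → S.Est e M z3 (e ^ N)⁻¹ (fun _ => 0) f z →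
  Integrable (fun x => ∑ i, pderiv i z x ^ 2) ∧ FluxLE (fun x => Real.exp (al n * z x / 2)) ε

/-- 1.8: the neck. -/
def OutStmt : Prop := ∀ (n : ℕ), 3 ≤ n → ∀ S : Setup n, S.OK → 0 ≤ S.A → ∀ η > 0, 2 * S.θ ≤ η →
  ∀ N : ℕ, ∃ N' : ℕ, ∀ ℓ0 : ℝ, ∃ e1 > (0 : ℝ), ∀ e, 0 < e → e ≤ e1 → ∀ (M z3 : ℝ),
  (e ^ N)⁻¹ ≤ z3 → ∀ (B : ℕ → ℝ) (f z : E n → ℝ),
  S.Sol e M z3 (fun _ => 0) f z → Bdd B f → Bdd B z → S.Est e M z3 (e ^ N)⁻¹ (fun _ => 0) f z →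
  Integrable (fun x => ∑ i, pderiv i z x ^ 2) →
  FluxLE (fun x => Real.exp (al n * z x / 2)) (((n : ℝ) - 2) * unitSphereArea n * η / 2) →
  ∃ ℓ ≥ ℓ0, ∃ (g' : MetricField n) (d U : E n → ℝ),
    Neck n η (ℓ ^ N') ℓ (S.m + η) ((1 - η) * S.A) S.Q g' d U S.EE

end Crest.Agent.N346.P1

end
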