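import Crest.Agent.N346.Defs
import Crest.Agent.N346.Basic2
import Crest.Agent.N346.Id.Frame
import Crest.Agent.N346.P1.Defs

-- ▼ part N346/P0/Apos
section

/-!
Row 346, Part 0.0(b): the minimum enclosing area of an asymptotically flat metric is positive.
-/

set_option autoImplicit false
open MeasureTheory Filter Topology
open scoped ContDiff ENNReal
open Crest.GeometryTopology.CoordMetric
open Crest.MathPhysics.ExteriorData

noncomputable section

namespace Crest.Agent.N346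

namespace Apos

variable {n : ℕ}

/-- The quadratic form of the adjugate. -/
def adjForm (M : Matrix (Fin n) (Fin n) ℝ) (ξ : E n) : ℝ :=
  ∑ i, ∑ j, M.adjugate i j * ξ i * ξ j

lemma continuous_adjForm :
    Continuous fun p : Matrix (Fin n) (Fin n) ℝ × E n => adjForm p.1 p.2 := by
  unfold adjForm
  refine continuous_finsetSum _ fun i _ => continuous_finsetSum _ fun j _ => ?_
  have h : Continuous fun p : Matrix (Fin n) (Fin n) ℝ × E n => p.1.adjugate :=
    continuous_fst.matrix_adjugate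
  exact ((h.matrix_elem i j).mul (by fun_prop)).mul (by fun_prop)

lemma adjForm_eq {M : Matrix (Fin n) (Fin n) ℝ} (hM : M.PosDef) (ξ : E n) :
    adjForm M ξ = M.det * ∑ i, ∑ j, M⁻¹ i j * ξ i * ξ j := by
  have hd : M.det ≠ 0 := hM.det_pos.ne'
  unfold adjForm
  rw [Finset.mul_sum]
  refine Finset.sum_congr rfl fun i _ => ?_
  rw [Finset.mul_sum]
  refine Finset.sum_congr rfl fun j _ => ?_
  rw [Matrix.inv_def, Ring.inverse_eq_inv', Matrix.smul_apply, smul_eq_mul]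
  field_simp

lemma invForm_pos {M : Matrix (Fin n) (Fin n) ℝ} (hM : M.PosDef) {ξ : E n} (hξ : ξ ≠ 0) :
    0 < ∑ i, ∑ j, M⁻¹ i j * ξ i * ξ j := by
  have hξ' : (fun i => ξ i) ≠ 0 := by
    intro h
    apply hξ
    ext i
    exact congrFun h i
  have h := hM.inv.dotProduct_mulVec_pos hξ'
  simp only [dotProduct, Matrix.mulVec, star_trivial, Finset.mul_sum] at h
  refine h.trans_eq (Finset.sum_congr rfl fun i _ => Finset.sum_congr rfl fun j _ => ?_)
  ring

lemma adjForm_smul (M : Matrix (Fin n) (Fin n) ℝ) (t : ℝ) (ξ : E n) :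
    adjForm M (t • ξ) = t ^ 2 * adjForm M ξ := by
  unfold adjForm
  rw [Finset.mul_sum]
  refine Finset.sum_congr rfl fun i _ => ?_
  rw [Finset.mul_sum]
  refine Finset.sum_congr rfl fun j _ => ?_
  simp only [PiLp.smul_apply, smul_eq_mul]
  ring

lemma tendsto_one {q : ℝ} (hq : 0 < q) {g : MetricField n}
    (hd : ∀ i j, DecaysAt 0 q fun x => g x i j - (1 : Matrix (Fin n) (Fin n) ℝ) i j) :
    Tendsto g (cocompact (E n)) (𝓝 1) := by
  refine tendsto_pi_nhds.2 fun i => tendsto_pi_nhds.2 fun j => ?_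
  obtain ⟨C, hC⟩ := hd i j 0 le_rfl
  have hn : Tendsto (fun x : E n => ‖x‖) (cocompact (E n)) atTop := tendsto_norm_cocompact_atTop
  have h0 : Tendsto (fun x : E n => C * ‖x‖ ^ (-q)) (cocompact (E n)) (𝓝 0) := by
    simpa using ((tendsto_rpow_neg_atTop hq).comp hn).const_mul C
  rw [← tendsto_sub_nhds_zero_iff]
  refine squeeze_zero_norm' ?_ h0
  filter_upwards [hn.eventually_ge_atTop 1] with x hx
  simpa using hC x hx

/-- Uniform lower bound `√det g · |ξ|_{g⁻¹} ≥ c |ξ|`. -/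
lemma exists_lower {q : ℝ} (hq : 0 < q) {g : MetricField n} (hg : IsRiemannianOn g Set.univ)
    (hd : ∀ i j, DecaysAt 0 q fun x => g x i j - (1 : Matrix (Fin n) (Fin n) ℝ) i j) :
    ∃ c > 0, ∀ x, ∀ ξ : E n, ξ ≠ 0 →
      c ≤ volDensity g x * Real.sqrt (∑ i, ∑ j, inverseField g x i j * ξ i * ξ j) / ‖ξ‖ := by
  have hc : Continuous g := by
    refine continuous_pi fun i => continuous_pi fun j => ?_
    exact (contDiffOn_univ.1 (hg.contDiffOn i j)).continuous
  have hK : IsCompact (insert 1 (Set.range g)) :=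
    (tendsto_one hq hd).isCompact_insert_range_of_cocompact hc
  have hPD : ∀ M ∈ insert 1 (Set.range g), M.PosDef := by
    rintro M (rfl | ⟨x, rfl⟩)
    · exact Matrix.PosDef.one
    · exact hg.posDef x trivial
  obtain ⟨c, hc0, hc⟩ := (hK.prod (isCompact_sphere (0 : E n) 1)).exists_forall_le'
    (continuous_adjForm (n := n)).continuousOn (a := 0) (by
      rintro ⟨M, ξ⟩ ⟨hM, hξ⟩
      have hξ0 : ξ ≠ 0 := by
        rintro rfl
        simp at hξ
      have hM' := hPD M hM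
      show 0 < adjForm M ξ
      rw [adjForm_eq hM']
      exact mul_pos hM'.det_pos (invForm_pos hM' hξ0))
  refine ⟨Real.sqrt c, Real.sqrt_pos.2 hc0, fun x ξ hξ => ?_⟩
  have hn : 0 < ‖ξ‖ := norm_pos_iff.2 hξ
  have hx := hg.posDef x trivial
  have h1 : c ≤ adjForm (g x) (‖ξ‖⁻¹ • ξ) :=
    hc (g x, ‖ξ‖⁻¹ • ξ) ⟨Or.inr ⟨x, rfl⟩, by simp [norm_smul, hn.ne']⟩
  rw [adjForm_smul, adjForm_eq hx] at h1
  rw [le_div_iff₀ hn, volDensity, ← Real.sqrt_mul hx.det_pos.le]
  apply Real.le_sqrt_of_sq_le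
  rw [mul_pow, Real.sq_sqrt hc0.le]
  have h2 := mul_le_mul_of_nonneg_right h1 (sq_nonneg ‖ξ‖)
  have h3 : ∀ a : ℝ, ‖ξ‖⁻¹ ^ 2 * a * ‖ξ‖ ^ 2 = a := fun a => by field_simp
  rw [h3] at h2
  exact h2

/-- Dropping the first coordinate. -/
def tl {m : ℕ} (x : E (m + 1)) : E m := WithLp.toLp 2 fun i => x i.succ

/-- Prepending a coordinate. -/
def cs {m : ℕ} (t : ℝ) (y : E m) : E (m + 1) := WithLp.toLp 2 (Fin.cons t fun i => y i)

lemma tl_cs {m : ℕ} (t : ℝ) (y : E m) : tl (cs t y) = y := by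
  ext i
  simp [tl, cs]

lemma norm_cs_sq {m : ℕ} (t : ℝ) (y : E m) : ‖cs t y‖ ^ 2 = t ^ 2 + ‖y‖ ^ 2 := by
  simp [EuclideanSpace.real_norm_sq_eq, cs, Fin.sum_univ_succ]

lemma continuous_cs {m : ℕ} (y : E m) : Continuous fun t => cs t y := by
  unfold cs
  refine (PiLp.continuous_toLp 2 _).comp (continuous_pi fun i => ?_)
  refine Fin.cases ?_ (fun i => ?_) i
  · simpa using continuous_id'
  · simpa using continuous_const

lemma lipschitz_tl {m : ℕ} : LipschitzWith 1 (tl : E (m + 1) → E m) := by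
  refine LipschitzWith.of_dist_le_mul fun x y => ?_
  simp only [NNReal.coe_one, one_mul, EuclideanSpace.dist_eq]
  apply Real.sqrt_le_sqrt
  rw [Fin.sum_univ_succ]
  simp only [tl]
  have := sq_nonneg (dist (x 0) (y 0))
  linarith

lemma ball_subset {m : ℕ} {u : E (m + 1) → ℝ} (hu : IsEnclosingCut u) :
    Metric.ball (0 : E m) 1 ⊆ tl '' {x | u x = 0} := by
  obtain ⟨hs, -, hin, R, hout⟩ := hu
  intro y hy
  have hy' : ‖y‖ < 1 := by simpa using hy
  have h0 : u (cs 0 y) < 0 := by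
    apply hin
    have := norm_cs_sq 0 y
    have h2 : ‖cs 0 y‖ ^ 2 < 1 ^ 2 := by nlinarith [norm_nonneg y]
    exact lt_of_pow_lt_pow_left₀ 2 zero_le_one h2
  have h1 : 0 < u (cs |R| y) := by
    apply hout
    have := norm_cs_sq |R| y
    have h2 : |R| ^ 2 ≤ ‖cs |R| y‖ ^ 2 := by nlinarith [sq_nonneg ‖y‖]
    exact (le_abs_self R).trans (le_of_pow_le_pow_left₀ two_ne_zero (norm_nonneg _) h2)
  have hc : Continuous fun t => u (cs t y) := hs.continuous.comp (continuous_cs y)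
  obtain ⟨t, -, ht⟩ := intermediate_value_Icc (abs_nonneg R) hc.continuousOn
    (show (0 : ℝ) ∈ Set.Icc (u (cs 0 y)) (u (cs |R| y)) from ⟨h0.le, h1.le⟩)
  exact ⟨cs t y, ht, tl_cs t y⟩

lemma measure_ge {m : ℕ} {u : E (m + 1) → ℝ} (hu : IsEnclosingCut u) :
    volume (Metric.ball (0 : E m) 1) ≤ μHE[m] {x | u x = 0} := by
  rw [← EuclideanSpace.euclideanHausdorffMeasure_eq_volume m]
  refine (measure_mono (ball_subset hu)).trans ?_
  simp only [Measure.euclideanHausdorffMeasure_def, Measure.smul_apply]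
  have h := (lipschitz_tl (m := m)).hausdorffMeasure_image_le (d := (m : ℝ)) (Nat.cast_nonneg m)
    {x | u x = 0}
  simp only [ENNReal.coe_one, ENNReal.one_rpow, one_mul] at h
  exact smul_le_smul_left _ h

end Apos

/-- Part 0.0(b). -/
theorem apos : AposStmt := by
  intro n hn q hq g hg hd
  obtain ⟨m, rfl⟩ : ∃ m, n = m + 1 := ⟨n - 1, by omega⟩
  obtain ⟨c, hc0, hc⟩ := Apos.exists_lower hq hg hd
  have hb : 0 < volume (Metric.ball (0 : E m) 1) := Metric.measure_ball_pos _ _ one_pos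
  have hpos : 0 < ENNReal.ofReal c * volume (Metric.ball (0 : E m) 1) :=
    ENNReal.mul_pos (ENNReal.ofReal_pos.2 hc0).ne' hb.ne'
  refine hpos.trans_le (le_iInf fun u => ?_)
  obtain ⟨u, hu⟩ := u
  have hm : MeasurableSet {x | u x = 0} :=
    (isClosed_eq hu.1.continuous continuous_const).measurableSet
  calc ENNReal.ofReal c * volume (Metric.ball (0 : E m) 1)
      ≤ ENNReal.ofReal c * μHE[m] {x | u x = 0} := by gcongr; exact Apos.measure_ge hu
    _ = ∫⁻ _ in {x | u x = 0}, ENNReal.ofReal c ∂μHE[m] := by rw [setLIntegral_const]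
    _ ≤ levelSetArea g u := by
      unfold levelSetArea
      refine setLIntegral_mono' hm fun x hx => ?_
      exact ENNReal.ofReal_le_ofReal (hc x _ (hu.2.1 x hx))

end Crest.Agent.N346

end
end

-- ▼ part N346/P1/OutB
section

/-!
Row 346, Part 1.8 (helper90), file B: the conformal factor `U = exp (y₁ + c ψ)` at infinity
(limit, Dirichlet energy, Hardy integral, flux).
-/

set_option autoImplicit false

open scoped ContDiff Topology
open Filter Set MeasureTheory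
open Crest.GeometryTopology.CoordMetric Crest.MathPhysics.ExteriorData

noncomputable section

namespace Crest.Agent.N346.P1.Out

variable {n : ℕ} {a : ℝ} {y y' : E n → ℝ}

/-- smooth, decaying like `r^{-a}`, with finite Dirichlet energy -/
structure Hd (a : ℝ) (y : E n → ℝ) : Prop where
  smooth : ContDiff ℝ ∞ y
  dec : ∃ D : ℝ, 0 ≤ D ∧ ∀ x, |y x| ≤ D * (1 + ‖x‖) ^ (-a)
  grad : ∀ i, Integrable fun x => pderiv i y x ^ 2

theorem integrable_pd_sq (hy : ContDiff ℝ ∞ y) (h : Integrable fun x => ∑ i, pderiv i y x ^ 2)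
    (i : Fin n) : Integrable fun x => pderiv i y x ^ 2 :=
  h.mono' ((Bs.contDiff_pd hy i).continuous.pow 2).aestronglyMeasurable (.of_forall fun x => by
    rw [Real.norm_of_nonneg (sq_nonneg _)]
    exact Finset.single_le_sum (f := fun i => pderiv i y x ^ 2) (fun _ _ => sq_nonneg _)
      (Finset.mem_univ i))

theorem Hd.add (h : Hd a y) (h' : Hd a y') : Hd a fun x => y x + y' x := by
  obtain ⟨D, hD, hd⟩ := h.dec
  obtain ⟨D', hD', hd'⟩ := h'.dec
  refine ⟨h.smooth.add h'.smooth, ⟨D + D', by positivity, fun x => ?_⟩, fun i => ?_⟩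
  · exact (abs_add_le _ _).trans (by linarith [hd x, hd' x])
  · refine (((h.grad i).add (h'.grad i)).const_mul 2).mono'
      ((Bs.contDiff_pd (h.smooth.add h'.smooth) i).continuous.pow 2).aestronglyMeasurable
      (.of_forall fun x => ?_)
    rw [Real.norm_of_nonneg (sq_nonneg _),
      Bs.pd_add (Bs.smooth_diff h.smooth x) (Bs.smooth_diff h'.smooth x)]
    simp only [Pi.add_apply]
    nlinarith [sq_nonneg (pderiv i y x - pderiv i y' x)]

theorem Hd.const_mul (h : Hd a y) (c : ℝ) : Hd a fun x => c * y x := by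
  obtain ⟨D, hD, hd⟩ := h.dec
  refine ⟨contDiff_const.mul h.smooth, ⟨|c| * D, by positivity, fun x => ?_⟩, fun i => ?_⟩
  · rw [abs_mul, mul_assoc]
    gcongr
    exact hd x
  · simp only [Bs.pd_const_mul, mul_pow]
    exact (h.grad i).const_mul _

theorem Hd.bdd (h : Hd a y) (ha : 0 ≤ a) : ∃ D : ℝ, ∀ x, |y x| ≤ D := by
  obtain ⟨D, hD, hd⟩ := h.dec
  exact ⟨D, fun x => (hd x).trans (mul_le_of_le_one_right hD
    (Real.rpow_le_one_of_one_le_of_nonpos (by linarith [norm_nonneg x]) (by linarith)))⟩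

theorem pd_exp (hy : ContDiff ℝ ∞ y) (i : Fin n) (x : E n) :
    pderiv i (fun x => Real.exp (y x)) x = Real.exp (y x) * pderiv i y x :=
  Bs.pd_comp (Real.hasDerivAt_exp _) (Bs.smooth_diff hy x) i

theorem abs_exp_sub_one_le {t D : ℝ} (h : |t| ≤ D) : |Real.exp t - 1| ≤ Real.exp D * |t| := by
  have h1 : 1 ≤ Real.exp D := Real.one_le_exp ((abs_nonneg t).trans h)
  rcases le_total 0 t with ht | ht
  · rw [abs_of_nonneg ht] at h ⊢
    rw [abs_of_nonneg (by linarith [Real.one_le_exp ht])]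
    have h2 := Real.add_one_le_exp (-t)
    have h3 : Real.exp t * Real.exp (-t) = 1 := by rw [← Real.exp_add]; simp
    have h4 : Real.exp t ≤ Real.exp D := Real.exp_le_exp.2 h
    nlinarith [Real.exp_pos t]
  · rw [abs_of_nonpos ht, abs_of_nonpos (by linarith [Real.exp_le_one_iff.2 ht])]
    nlinarith [Real.add_one_le_exp t]

theorem Hd.exp_sub_one (h : Hd a y) (ha : 0 ≤ a) : Hd a fun x => Real.exp (y x) - 1 := by
  obtain ⟨D, hD, hd⟩ := h.dec
  obtain ⟨D', hd'⟩ := h.bdd ha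
  refine ⟨h.smooth.exp.sub contDiff_const, ⟨Real.exp D' * D, by positivity, fun x => ?_⟩,
    fun i => ?_⟩
  · refine (abs_exp_sub_one_le (hd' x)).trans ?_
    rw [mul_assoc]
    gcongr
    exact hd x
  · refine ((h.grad i).const_mul (Real.exp D' ^ 2)).mono'
      ((Bs.contDiff_pd (h.smooth.exp.sub contDiff_const) i).continuous.pow 2).aestronglyMeasurable
      (.of_forall fun x => ?_)
    rw [Real.norm_of_nonneg (sq_nonneg _), Bs.pd_sub_const, pd_exp h.smooth, mul_pow]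
    gcongr
    exact (le_abs_self _).trans (hd' x)

theorem Hd.tendsto (h : Hd a y) (ha : 0 < a) : Tendsto y (cocompact (E n)) (𝓝 0) := by
  obtain ⟨D, hD, hd⟩ := h.dec
  have h1 : Tendsto (fun x : E n => 1 + ‖x‖) (cocompact (E n)) atTop :=
    tendsto_atTop_add_const_left _ _ (tendsto_norm_cocompact_atTop (E := E n))
  have h2 := ((tendsto_rpow_neg_atTop ha).comp h1).const_mul D
  rw [mul_zero] at h2
  exact squeeze_zero_norm (fun x => hd x) h2

theorem Hd.hardy' (h : Hd a y) (ha : (n : ℝ) < 2 * a + 2) :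
    Integrable fun x => (y x / (1 + ‖x‖)) ^ 2 := by
  obtain ⟨D, hD, hd⟩ := h.dec
  have h1 : Integrable fun x : E n => (1 + ‖x‖) ^ (-(2 * a + 2)) :=
    integrable_one_add_norm (by simpa using ha)
  refine (h1.const_mul (D ^ 2)).mono'
    ((h.smooth.continuous.div (by fun_prop) fun x => by positivity).pow 2).aestronglyMeasurable
    (.of_forall fun x => ?_)
  have h2 : (0:ℝ) < 1 + ‖x‖ := by positivity
  have h3 : (1 + ‖x‖) ^ (-(2 * a + 2)) = ((1 + ‖x‖) ^ (-a) / (1 + ‖x‖)) ^ 2 := by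
    rw [← Real.rpow_sub_one h2.ne', ← Real.rpow_natCast, ← Real.rpow_mul h2.le]
    congr 1
    push_cast
    ring
  rw [Real.norm_of_nonneg (sq_nonneg _), h3, ← mul_pow, ← sq_abs, abs_div, abs_of_pos h2,
    ← mul_div_assoc]
  gcongr
  exact hd x

theorem Hd.hardy (h : Hd a y) (ha : (n : ℝ) < 2 * a + 2) :
    Integrable fun x => y x ^ 2 / (1 + ‖x‖ ^ 2) := by
  refine ((h.hardy' ha).const_mul 2).mono'
    ((h.smooth.continuous.pow 2).div (by fun_prop) fun x => by positivity).aestronglyMeasurable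
    (.of_forall fun x => ?_)
  rw [Real.norm_of_nonneg (by positivity), div_pow, ← mul_div_assoc,
    div_le_div_iff₀ (by positivity) (by positivity)]
  nlinarith [mul_nonneg (sq_nonneg (y x)) (sq_nonneg (1 - ‖x‖))]

theorem Hd.cross (h : Hd a y) (ha : (n : ℝ) < 2 * a + 2) {v : E n → ℝ} (hv : ContDiff ℝ ∞ v)
    (hg : ∀ i, Integrable fun x => pderiv i v x ^ 2) :
    Tendsto (fun R => ∑ i, ∫ x, pderiv i (eta R) x * (y x * pderiv i v x)) atTop (𝓝 0) := by
  have key : ∀ i, Tendsto (fun R => ∫ x, pderiv i (eta R) x * (y x * pderiv i v x)) atTop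
      (𝓝 0) := fun i => by
    have hc : Continuous fun x => y x * pderiv i v x :=
      h.smooth.continuous.mul (Bs.contDiff_pd hv i).continuous
    refine Bs.tendsto_integral_pd_eta hc.aestronglyMeasurable ?_ i
    refine ((h.hardy' ha).add (hg i)).mono'
      (hc.div (by fun_prop) fun x => by positivity).aestronglyMeasurable (.of_forall fun x => ?_)
    rw [mul_div_right_comm, Real.norm_eq_abs, abs_le]
    simp only [Pi.add_apply]
    constructor <;> nlinarith [sq_nonneg (y x / (1 + ‖x‖) - pderiv i v x),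
      sq_nonneg (y x / (1 + ‖x‖) + pderiv i v x)]
  simpa using tendsto_finsetSum Finset.univ fun i _ => key i

theorem flux_exp_add {ψ : E n → ℝ} (h : Hd a y) (hψ : Hd a ψ) (ha0 : 0 ≤ a)
    (ha : (n : ℝ) < 2 * a + 2) {c ε b : ℝ} (hc : 0 ≤ c) (hl : Integrable (lap ψ))
    (hb : -∫ x, lap ψ x ≤ b) (hf : FluxLE (fun x => Real.exp (y x)) ε) :
    FluxLE (fun x => Real.exp (y x + c * ψ x)) (ε + c * b) := by
  have hV := (hψ.const_mul c).exp_sub_one ha0
  have hU := (h.add (hψ.const_mul c)).exp_sub_one ha0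
  have hu := h.exp_sub_one ha0
  have hug : ∀ i, Integrable fun x => pderiv i (fun x => Real.exp (y x)) x ^ 2 := fun i => by
    simpa only [Bs.pd_sub_const] using hu.grad i
  have c1 := hV.cross ha h.smooth.exp hug
  have c2 := (hU.cross ha hψ.smooth hψ.grad).const_mul c
  have c3 := (Bs.tendsto_flux (hψ.smooth.of_le (by norm_cast)) hl).const_mul c
  have c4 := (c3.add c1).add c2
  rw [add_zero, mul_zero, add_zero] at c4
  have hsplit : ∀ R, 0 < R → flux (fun x => Real.exp (y x + c * ψ x)) R =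
      flux (fun x => Real.exp (y x)) R + (c * flux ψ R
        + (∑ i, ∫ x, pderiv i (eta R) x *
          ((Real.exp (c * ψ x) - 1) * pderiv i (fun x => Real.exp (y x)) x))
        + c * ∑ i, ∫ x, pderiv i (eta R) x *
          ((Real.exp (y x + c * ψ x) - 1) * pderiv i ψ x)) := by
    intro R hR
    have hI : ∀ (i : Fin n) {F : E n → ℝ}, Continuous F →
        Integrable fun x => pderiv i (eta R) x * F x := fun i F hF =>
      ((Bs.contDiff_pd (Bs.contDiff_eta R) i).continuous.mul hF).integrable_of_hasCompactSupport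
        (Bs.hasCompactSupport_pd (Bs.hasCompactSupport_eta hR) i).mul_right
    have hF : ∀ {F : E n → ℝ}, ContDiff ℝ ∞ F →
        flux F R = ∑ i, ∫ x, pderiv i (eta R) x * pderiv i F x := fun {F} hF => by
      rw [flux, ← integral_finsetSum _ fun i _ => hI i (Bs.contDiff_pd hF i).continuous]
      simp only [mul_comm]
    rw [hF (h.add (hψ.const_mul c)).smooth.exp, hF h.smooth.exp, hF hψ.smooth, Finset.mul_sum,
      Finset.mul_sum, ← Finset.sum_add_distrib, ← Finset.sum_add_distrib, ← Finset.sum_add_distrib]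
    refine Finset.sum_congr rfl fun i _ => ?_
    have i1 := hI i (Bs.contDiff_pd h.smooth.exp i).continuous
    have i2 := (hI i (Bs.contDiff_pd hψ.smooth i).continuous).const_mul c
    have i3 := hI i (hV.smooth.mul (Bs.contDiff_pd h.smooth.exp i)).continuous
    have i4 := (hI i (hU.smooth.mul (Bs.contDiff_pd hψ.smooth i)).continuous).const_mul c
    rw [← integral_const_mul, ← integral_const_mul, ← integral_add' i2 i3,
      ← integral_add' (i2.add i3) i4, ← integral_add' i1 ((i2.add i3).add i4)]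
    refine integral_congr_ae (.of_forall fun x => ?_)
    simp only [Pi.add_apply]
    rw [pd_exp (h.add (hψ.const_mul c)).smooth, pd_exp h.smooth,
      Bs.pd_add (Bs.smooth_diff h.smooth x) (Bs.smooth_diff (hψ.const_mul c).smooth x),
      Bs.pd_const_mul, Real.exp_add]
    ring
  intro δ hδ
  obtain ⟨R0, hR0⟩ := hf (δ / 2) (half_pos hδ)
  have h5 : c * -∫ x, lap ψ x < c * b + δ / 2 := by
    have := mul_le_mul_of_nonneg_left hb hc
    linarith
  obtain ⟨R1, hR1⟩ := eventually_atTop.1 ((c4.eventually (gt_mem_nhds h5)).and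
    (eventually_gt_atTop 0))
  refine ⟨max R0 R1, fun R hR => ?_⟩
  have h6 := hR0 R ((le_max_left _ _).trans hR)
  obtain ⟨h7, h8⟩ := hR1 R ((le_max_right _ _).trans hR)
  rw [hsplit R h8]
  linarith

/-- the background conformal factor. -/
theorem hd_psi (hn : 3 ≤ n) {ψ : E n → ℝ} (hψ : ContDiff ℝ ∞ ψ) {C : ℝ} (hC : 0 ≤ C)
    (h : ∀ k : ℕ, k ≤ 2 → ∀ x,
      ‖iteratedFDeriv ℝ k ψ x‖ ≤ C * (1 + ‖x‖) ^ (2 - (n : ℝ) - (k : ℝ))) :
    Hd (3 * ((n : ℝ) - 2) / 4) ψ := by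
  have h3 : (3 : ℝ) ≤ n := by exact_mod_cast hn
  refine ⟨hψ, ⟨C, hC, fun x => ?_⟩, fun i => ?_⟩
  · have := h 0 (by norm_num) x
    rw [norm_iteratedFDeriv_zero, Real.norm_eq_abs] at this
    refine this.trans (mul_le_mul_of_nonneg_left
      (Real.rpow_le_rpow_of_exponent_le (by linarith [norm_nonneg x]) ?_) hC)
    push_cast
    linarith
  · have h1 : Integrable fun x : E n => (1 + ‖x‖) ^ (-(2 * (n : ℝ) - 2)) :=
      integrable_one_add_norm (by simp; linarith)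
    refine (h1.const_mul (C ^ 2)).mono'
      ((Bs.contDiff_pd hψ i).continuous.pow 2).aestronglyMeasurable (.of_forall fun x => ?_)
    have h2 := h 1 (by norm_num) x
    rw [norm_iteratedFDeriv_one] at h2
    have h4 : (1 + ‖x‖) ^ (-(2 * (n : ℝ) - 2)) = ((1 + ‖x‖) ^ (2 - (n : ℝ) - ((1 : ℕ) : ℝ))) ^ 2 := by
      rw [← Real.rpow_natCast, ← Real.rpow_mul (by positivity)]
      congr 1
      push_cast
      ring
    rw [Real.norm_of_nonneg (sq_nonneg _), h4, ← mul_pow, ← sq_abs]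
    gcongr
    exact (Bs.abs_pd_le i ψ x).trans h2

/-- the solution `z`. -/
theorem hd_z {z : E n → ℝ} (hz : ContDiff ℝ ∞ z) {B Λ : ℝ} (ha : 0 ≤ a) (hΛ : 1 ≤ Λ)
    (hB : ∀ x, |z x| ≤ B) (hfar : ∀ x, Λ ≤ ‖x‖ → |z x| ≤ Λ * ‖x‖ ^ (-a))
    (hg : Integrable fun x => ∑ i, pderiv i z x ^ 2) : Hd a z := by
  have hB0 : 0 ≤ B := (abs_nonneg _).trans (hB 0)
  refine ⟨hz, ⟨(B + Λ) * (1 + Λ) ^ a, by positivity, fun x => ?_⟩, integrable_pd_sq hz hg⟩
  have h0 : (0:ℝ) < 1 + ‖x‖ := by positivity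
  rw [Real.rpow_neg h0.le, ← div_eq_mul_inv, le_div_iff₀ (by positivity)]
  rcases le_total Λ ‖x‖ with hx | hx
  · have h1 : 0 < ‖x‖ := by linarith
    have h2 : (1 + ‖x‖) ^ a ≤ (1 + Λ) ^ a * ‖x‖ ^ a := by
      rw [← Real.mul_rpow (by positivity) h1.le]
      gcongr
      nlinarith
    have h3 := hfar x hx
    rw [Real.rpow_neg h1.le, ← div_eq_mul_inv, le_div_iff₀ (by positivity)] at h3
    calc |z x| * (1 + ‖x‖) ^ a ≤ |z x| * ((1 + Λ) ^ a * ‖x‖ ^ a) := by gcongr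
      _ = |z x| * ‖x‖ ^ a * (1 + Λ) ^ a := by ring
      _ ≤ (B + Λ) * (1 + Λ) ^ a := by gcongr; linarith
  · have := hB x
    gcongr
    linarith

end Crest.Agent.N346.P1.Out

end
end

-- ▼ part N346/P1/OutA
section

/-!
Row 346, Part 1.8 (helper90), file A: exponential decay of derivatives and the far estimate for
`R̄ - 2 Δ̄ z - α |dz|²` where `φ = 1`.
-/

set_option autoImplicit false

open scoped ContDiff Topology
open Filter Set Metric
open Crest.GeometryTopology.CoordMetric Crest.MathPhysics.ExteriorData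
open Crest.Agent.R202.Tens Crest.Agent.R247.Bo84 Crest.Agent.N346.Id

noncomputable section

namespace Crest.Agent.N346.P1.Out

variable {n : ℕ}

theorem landau {F : Type} [NormedAddCommGroup F] [NormedSpace ℝ F] {z : E n → F} {x : E n}
    {r M0 M2 : ℝ} (hr : 0 < r) (hz : ContDiff ℝ 2 z) (h0 : ∀ y ∈ closedBall x r, ‖z y‖ ≤ M0)
    (h2 : ∀ y, ‖fderiv ℝ (fderiv ℝ z) y‖ ≤ M2) : ‖fderiv ℝ z x‖ ≤ 2 * M0 / r + M2 * r := by
  have hx : x ∈ closedBall x r := mem_closedBall_self hr.le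
  have hM0 : 0 ≤ M0 := (norm_nonneg _).trans (h0 x hx)
  have hM2 : 0 ≤ M2 := le_trans (norm_nonneg (fderiv ℝ (fderiv ℝ z) x)) (h2 x)
  have hL : ∀ y ∈ closedBall x r, ‖fderiv ℝ z y - fderiv ℝ z x‖ ≤ M2 * r := fun y hy =>
    ((convex_closedBall x r).norm_image_sub_le_of_norm_fderiv_le (f := fderiv ℝ z)
      (fun w _ => (hz.contDiffAt.fderiv_right (m := 1) (by norm_num)).differentiableAt one_ne_zero)
      (fun y _ => h2 y) hx hy).trans
      (mul_le_mul_of_nonneg_left (by rwa [mem_closedBall, dist_eq_norm] at hy) hM2)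
  have key : ∀ e : E n, ‖e‖ = r → ‖fderiv ℝ z x e‖ ≤ 2 * M0 + M2 * r * r := fun e he => by
    have hy : x + e ∈ closedBall x r := by simp [he]
    have h3 := (convex_closedBall x r).norm_image_sub_le_of_norm_fderiv_le'
      (fun w _ => hz.contDiffAt.differentiableAt (by norm_num)) hL hx hy
    rw [add_sub_cancel_left, he] at h3
    have h4 := (norm_sub_le (z (x + e)) (z x)).trans (add_le_add (h0 _ hy) (h0 _ hx))
    have h5 := norm_sub_norm_le (fderiv ℝ z x e) (z (x + e) - z x)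
    rw [norm_sub_rev (fderiv ℝ z x e)] at h5
    linarith
  refine (fderiv ℝ z x).opNorm_le_bound (by positivity) fun v => ?_
  by_cases hv : v = 0
  · simp [hv]
  · have hv' : 0 < ‖v‖ := norm_pos_iff.2 hv
    have h1 := key ((r / ‖v‖) • v) (by
      rw [norm_smul, Real.norm_of_nonneg (by positivity)]; field_simp)
    rw [map_smul, norm_smul, Real.norm_of_nonneg (by positivity)] at h1
    have : ‖fderiv ℝ z x v‖ = (‖v‖ / r) * (r / ‖v‖ * ‖fderiv ℝ z x v‖) := by field_simp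
    rw [this]
    calc (‖v‖ / r) * (r / ‖v‖ * ‖fderiv ℝ z x v‖) ≤ (‖v‖ / r) * (2 * M0 + M2 * r * r) := by gcongr
      _ = (2 * M0 / r + M2 * r) * ‖v‖ := by field_simp

/-- exponential decay at infinity -/
def ExpD {F : Type} [NormedAddCommGroup F] (u : E n → F) : Prop :=
  ∃ a D R : ℝ, 0 < a ∧ 0 ≤ D ∧ ∀ x, R ≤ ‖x‖ → ‖u x‖ ≤ D * Real.exp (-a * ‖x‖)

theorem ExpD.fderiv {F : Type} [NormedAddCommGroup F] [NormedSpace ℝ F] {u : E n → F}
    (h : ExpD u) (hu : ContDiff ℝ 2 u) {B : ℝ} (hB : ∀ y, ‖fderiv ℝ (fderiv ℝ u) y‖ ≤ B) :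
    ExpD (fderiv ℝ u) := by
  obtain ⟨a, D, R, ha, hD, h⟩ := h
  have hB0 : 0 ≤ B := le_trans (norm_nonneg (_root_.fderiv ℝ (_root_.fderiv ℝ u) 0)) (hB 0)
  refine ⟨a / 2, 2 * (D * Real.exp a) + B, R + 1, half_pos ha, by positivity, fun x hx => ?_⟩
  have hr : 0 < Real.exp (-(a / 2) * ‖x‖) := Real.exp_pos _
  have hr1 : Real.exp (-(a / 2) * ‖x‖) ≤ 1 :=
    Real.exp_le_one_iff.2 (by nlinarith [norm_nonneg x])
  have h1 := landau (M0 := D * Real.exp a * Real.exp (-a * ‖x‖)) hr hu (x := x)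
    (fun y hy => by
      rw [mem_closedBall, dist_eq_norm] at hy
      have h2 := norm_sub_norm_le x y
      rw [norm_sub_rev] at h2
      refine (h y (by linarith)).trans ?_
      rw [mul_assoc, ← Real.exp_add]
      gcongr
      nlinarith) hB
  refine h1.trans (le_of_eq ?_)
  have e : Real.exp (-a * ‖x‖) = Real.exp (-(a / 2) * ‖x‖) * Real.exp (-(a / 2) * ‖x‖) := by
    rw [← Real.exp_add]; congr 1; ring
  rw [e]
  field_simp

theorem norm_fderiv_two {F : Type} [NormedAddCommGroup F] [NormedSpace ℝ F] (u : E n → F)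
    (x : E n) : ‖fderiv ℝ (fderiv ℝ u) x‖ = ‖iteratedFDeriv ℝ 2 u x‖ := by
  rw [← norm_iteratedFDeriv_one, norm_iteratedFDeriv_fderiv]

/-- a bounded smooth function that decays exponentially does so with two derivatives; the bound
is below any negative power. -/
theorem decay_two {f : E n → ℝ} {B : ℕ → ℝ} (hf : Bdd B f) (h : ExpD f) (k ε : ℝ) (hε : 0 < ε) :
    ∃ R : ℝ, ∀ x : E n, R ≤ ‖x‖ → ∀ j ≤ 2,
      ‖iteratedFDeriv ℝ j f x‖ ≤ ε * (1 + ‖x‖ ^ 2) ^ (-k) := by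
  have h1 : ExpD (fderiv ℝ f) := h.fderiv (hf.1.of_le (by norm_cast)) (B := B 2) fun y => by
    rw [norm_fderiv_two]; exact hf.2 2 y
  have h2 : ExpD (fderiv ℝ (fderiv ℝ f)) :=
    h1.fderiv (hf.1.fderiv_right (by norm_cast)) (B := B 3) fun y => by
      rw [norm_fderiv_two, norm_iteratedFDeriv_fderiv]; exact hf.2 3 y
  have key : ∀ a D : ℝ, 0 < a → 0 ≤ D → ∃ R : ℝ, ∀ r, R ≤ r →
      D * Real.exp (-a * r) ≤ ε * (1 + r ^ 2) ^ (-k) := by
    intro a D ha hD
    have h3 := (tendsto_rpow_mul_exp_neg_mul_atTop_nhds_zero (2 * |k|) a ha).const_mul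
      (D * 2 ^ |k|)
    rw [mul_zero] at h3
    obtain ⟨R, hR⟩ := eventually_atTop.1 ((h3.eventually (gt_mem_nhds hε)).and
      (eventually_ge_atTop 1))
    refine ⟨R, fun r hr => ?_⟩
    obtain ⟨h4, h5⟩ := hR r hr
    have h6 : (1 + r ^ 2) ^ k ≤ 2 ^ |k| * r ^ (2 * |k|) := by
      have h7 : (1:ℝ) ≤ 1 + r ^ 2 := by nlinarith
      refine (Real.rpow_le_rpow_of_exponent_le h7 (le_abs_self k)).trans ?_
      rw [Real.rpow_mul (by linarith), ← Real.mul_rpow (by norm_num) (by positivity)]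
      gcongr
      rw [Real.rpow_two]
      nlinarith
    rw [Real.rpow_neg (by positivity), ← div_eq_mul_inv, le_div_iff₀ (by positivity)]
    calc D * Real.exp (-a * r) * (1 + r ^ 2) ^ k
        ≤ D * Real.exp (-a * r) * (2 ^ |k| * r ^ (2 * |k|)) := by gcongr
      _ = D * 2 ^ |k| * (r ^ (2 * |k|) * Real.exp (-a * r)) := by ring
      _ ≤ ε := h4.le
  obtain ⟨a0, D0, R0, ha0, hD0, h0⟩ := h
  obtain ⟨a1, D1, R1, ha1, hD1, h1⟩ := h1
  obtain ⟨a2, D2, R2, ha2, hD2, h2⟩ := h2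
  obtain ⟨S0, k0⟩ := key a0 D0 ha0 hD0
  obtain ⟨S1, k1⟩ := key a1 D1 ha1 hD1
  obtain ⟨S2, k2⟩ := key a2 D2 ha2 hD2
  refine ⟨max (max (max R0 S0) (max R1 S1)) (max R2 S2), fun x hx j hj => ?_⟩
  simp only [max_le_iff] at hx
  interval_cases j
  · rw [norm_iteratedFDeriv_zero]
    exact (h0 x hx.1.1.1).trans (k0 _ hx.1.1.2)
  · rw [norm_iteratedFDeriv_one]
    exact (h1 x hx.1.2.1).trans (k1 _ hx.1.2.2)
  · rw [← norm_fderiv_two]
    exact (h2 x hx.2.1).trans (k2 _ hx.2.2)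

/-- cutting off by `η_R`, `R ≥ 1`, changes two-jets by a bounded factor. -/
theorem exists_cut_bound (n : ℕ) : ∃ c : ℝ, 1 ≤ c ∧ ∀ R : ℝ, 1 ≤ R → ∀ (f : E n → ℝ) (x : E n)
    (σ : ℝ), ContDiff ℝ ∞ f → (∀ j ≤ 2, ‖iteratedFDeriv ℝ j f x‖ ≤ σ) →
    ∀ j ≤ 2, ‖iteratedFDeriv ℝ j (fun y => eta R y * f y) x‖ ≤ c * σ := by
  obtain ⟨C0, h0, k0⟩ := Bs.exists_eta_bound n 0
  obtain ⟨C1, h1, k1⟩ := Bs.exists_eta_bound n 1
  obtain ⟨C2, h2, k2⟩ := Bs.exists_eta_bound n 2
  refine ⟨1 + 4 * (C0 + C1 + C2), by linarith, fun R hR f x σ hf hσ j hj => ?_⟩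
  have hR0 : 0 < R := by linarith
  have hσ0 : 0 ≤ σ := (norm_nonneg _).trans (hσ 0 (by norm_num))
  have hη : ∀ i ≤ 2, ‖iteratedFDeriv ℝ i (eta R) x‖ ≤ C0 + C1 + C2 := by
    intro i hi
    interval_cases i
    · exact ((k0 R hR0 x).trans (div_le_self h0 (one_le_pow₀ hR))).trans (by linarith)
    · exact ((k1 R hR0 x).trans (div_le_self h1 (one_le_pow₀ hR))).trans (by linarith)
    · exact ((k2 R hR0 x).trans (div_le_self h2 (one_le_pow₀ hR))).trans (by linarith)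
  refine (norm_iteratedFDeriv_mul_le (Bs.contDiff_eta R) hf x (by exact_mod_cast le_top)).trans ?_
  have h3 : ∑ i ∈ Finset.range (j + 1), (j.choose i : ℝ) * ‖iteratedFDeriv ℝ i (eta R) x‖ *
      ‖iteratedFDeriv ℝ (j - i) f x‖ ≤
      ∑ i ∈ Finset.range (j + 1), (j.choose i : ℝ) * ((C0 + C1 + C2) * σ) := by
    refine Finset.sum_le_sum fun i hi => ?_
    rw [Finset.mem_range] at hi
    rw [mul_assoc]
    gcongr
    · exact hη i (by omega)
    · exact hσ _ (by omega)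
  refine h3.trans ?_
  rw [← Finset.sum_mul, ← Nat.cast_sum, Nat.sum_range_choose]
  have h4 : ((2 ^ j : ℕ) : ℝ) ≤ 4 := by
    have : 2 ^ j ≤ 2 ^ 2 := Nat.pow_le_pow_right (by norm_num) hj
    exact_mod_cast this
  have h5 : 0 ≤ (C0 + C1 + C2) * σ := by positivity
  nlinarith

/-- the Hessian of a conformally flat metric. -/
theorem abs_hess_le {g : MetricField n} {ψ u : E n → ℝ} {U : Set (E n)} {x : E n}
    (h : Conf (fun _ => 1) g ψ U) (hx : x ∈ U) {c σ : ℝ} (hψ : ‖fderiv ℝ ψ x‖ ≤ c)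
    (h1 : ‖iteratedFDeriv ℝ 1 u x‖ ≤ σ) (h2 : ‖iteratedFDeriv ℝ 2 u x‖ ≤ σ) (Y Z : E n) :
    |hess g u x Y Z| ≤ (1 + 3 * c) * σ * ‖Y‖ * ‖Z‖ := by
  rw [norm_iteratedFDeriv_one] at h1
  rw [← norm_fderiv_two] at h2
  have hc : 0 ≤ c := (norm_nonneg _).trans hψ
  have hσ : 0 ≤ σ := (norm_nonneg _).trans h1
  have hone : IsRiemannianOn (fun _ : E n => (1 : Matrix (Fin n) (Fin n) ℝ)) univ :=
    riem_const Matrix.PosDef.one
  have b1 : ∀ A : E n, bil (1 : Matrix (Fin n) (Fin n) ℝ) A A = ‖A‖ ^ 2 := fun A => by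
    rw [bil_eq_mat, mat_one, Bs.norm_sq_eq]
  have e1 : |bil (1 : Matrix (Fin n) (Fin n) ℝ) Y Z| ≤ ‖Y‖ * ‖Z‖ := by
    have := bil_sq_le hone (mem_univ x) Y Z
    rw [b1, b1, ← mul_pow] at this
    exact abs_le_of_sq_le_sq' this (by positivity) |>.elim fun a b => abs_le.2 ⟨a, b⟩
  have e2 : |gam (fun _ : E n => (1 : Matrix (Fin n) (Fin n) ℝ)) u ψ x| ≤ σ * c := by
    have h3 := gam_sq_le hone (mem_univ x) u ψ
    have h4 : ∀ v : E n → ℝ, gam (fun _ : E n => (1 : Matrix (Fin n) (Fin n) ℝ)) v v x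
        ≤ ‖fderiv ℝ v x‖ ^ 2 := fun v => by
      have := Bs.gradSq_le hone (x := x) one_pos (fun w => by rw [quadForm_eq, b1, one_mul]) v
      rw [← gradSq_eq_gam]
      simpa using this
    have h5 : gam (fun _ : E n => (1 : Matrix (Fin n) (Fin n) ℝ)) u ψ x ^ 2 ≤ (σ * c) ^ 2 := by
      refine h3.trans ?_
      rw [mul_pow]
      exact mul_le_mul ((h4 u).trans (by gcongr)) ((h4 ψ).trans (by gcongr))
        (gam_self_nonneg hone (mem_univ x) ψ) (by positivity)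
    exact abs_le_of_sq_le_sq' h5 (by positivity) |>.elim fun a b => abs_le.2 ⟨a, b⟩
  have e3 : |fderiv ℝ (fderiv ℝ u) x Y Z| ≤ σ * ‖Y‖ * ‖Z‖ :=
    ((fderiv ℝ (fderiv ℝ u) x).le_opNorm₂ Y Z).trans (by gcongr)
  have e4 : ∀ A B : E n, |fderiv ℝ ψ x A * fderiv ℝ u x B| ≤ c * ‖A‖ * (σ * ‖B‖) := fun A B => by
    rw [abs_mul]
    exact mul_le_mul (((fderiv ℝ ψ x).le_opNorm A).trans (by gcongr))
      (((fderiv ℝ u x).le_opNorm B).trans (by gcongr)) (abs_nonneg _) (by positivity)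
  have e5 : |bil (1 : Matrix (Fin n) (Fin n) ℝ) Y Z *
      gam (fun _ : E n => (1 : Matrix (Fin n) (Fin n) ℝ)) u ψ x| ≤ ‖Y‖ * ‖Z‖ * (σ * c) := by
    rw [abs_mul]
    exact mul_le_mul e1 e2 (abs_nonneg _) (by positivity)
  rw [h.hess_eq hx, hess_const]
  have e6 := e4 Y Z
  have e7 := e4 Z Y
  rw [abs_le] at e3 e5 e6 e7 ⊢
  constructor <;> nlinarith [e3.1, e3.2, e5.1, e5.2, e6.1, e6.2, e7.1, e7.2]

/-- **far estimate**: where `φ = 1`, the conformal operator of `ḡ` is close to that of `g`. -/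
theorem far_est (n : ℕ) (C C0 Bz : ℝ) (hC : 1 ≤ C) (hC0 : 0 ≤ C0) (hBz : 0 ≤ Bz) :
    ∃ K : ℝ, 0 ≤ K ∧ ∀ (g : MetricField n) (φ f z : E n → ℝ) (x : E n) (σ α : ℝ),
    Jd g φ f univ → ContDiffAt ℝ 2 z x → (φ =ᶠ[𝓝 x] fun _ => 1) → 0 < σ → |α| ≤ 1 →
    (∀ v, C⁻¹ * ‖v‖ ^ 2 ≤ quadForm g x v) →
    (∀ w, quadForm g x w ≤ 1 → |bil (ricM g x) w w| ≤ C0) →
    ‖fderiv ℝ f x‖ ≤ σ → (∀ Y Z, |hess g f x Y Z| ≤ σ * ‖Y‖ * ‖Z‖) →
    ‖fderiv ℝ z x‖ ≤ Bz → (∀ Y Z, |hess g z x Y Z| ≤ Bz * ‖Y‖ * ‖Z‖) →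
    sq g φ f x ≤ C * σ ^ 2 ∧
    |(scalarCurv (gb g φ f) x - 2 * laplaceBeltrami (gb g φ f) z x - α * gam (gb g φ f) z z x)
      - (scalarCurv g x - 2 * laplaceBeltrami g z x - α * gam g z z x)| ≤ K * σ ^ 2 := by
  refine ⟨2 * C0 * C + (2 * n + 1) * (n * C) ^ 2 + 2 * Bz * C ^ 2 + 2 * Bz ^ 2 * C ^ 2,
    by positivity, fun g φ f z x σ α hd hz hφ hσ hα hlo hric hf1 hf2 hz1 hz2 => ?_⟩
  have hx := mem_univ x
  have hC0' : 0 < C := by linarith
  have hφ0 : φ x = 1 := hφ.self_of_nhds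
  have hφ1 : fderiv ℝ φ x = 0 := by rw [hφ.fderiv_eq, fderiv_fun_const, Pi.zero_apply]
  have ha : aa g φ f x = 0 := by rw [aa, hd.fderiv_lv hx, hφ1]; simp
  have hV : gam (gb g φ f) z (lv φ) x = 0 := by
    rw [gam_eq_fderiv_grad' hd.riemb hx, hd.fderiv_lv hx, hφ1]; simp
  have hlap : laplaceBeltrami g φ x = 0 := by rw [lap_congr hφ, lap_const]
  have hhess : ∀ A B, hess g φ x A B = 0 := fun A B => by
    rw [hess_congr hφ, hess_apply]; simp
  set w := wv g φ f x with hw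
  have hs : sq g φ f x ≤ C * σ ^ 2 := by
    have := Bs.gradSq_le hd.riem (x := x) (inv_pos.2 hC0') hlo f
    rw [Id.sq, hφ0, one_pow, one_mul, ← gradSq_eq_gam]
    refine this.trans ?_
    rw [inv_inv]
    gcongr
  refine ⟨hs, ?_⟩
  have hp : bil (g x) w w ≤ C * σ ^ 2 := by
    rw [hw, hd.bil_wv_wv hx]; exact (hd.pp_le_sq hx).trans hs
  have hwn : ‖w‖ ^ 2 ≤ C ^ 2 * σ ^ 2 := by
    have := hlo w
    rw [quadForm_eq, inv_mul_le_iff₀ hC0'] at this
    nlinarith
  have hR : |bil (ricM g x) w w| ≤ C0 * (C * σ ^ 2) := by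
    set t := Real.sqrt (C * σ ^ 2) with ht
    have ht0 : 0 < t := Real.sqrt_pos.2 (by positivity)
    have ht2 : t ^ 2 = C * σ ^ 2 := Real.sq_sqrt (by positivity)
    have h1 := hric (t⁻¹ • w) (by
      rw [quadForm_eq, map_smul, map_smul, smul_apply, smul_eq_mul, smul_eq_mul, ← mul_assoc,
        ← _root_.sq, inv_pow, ht2, inv_mul_le_iff₀ (by positivity)]
      linarith)
    rw [map_smul, map_smul, smul_apply, smul_eq_mul, smul_eq_mul, ← mul_assoc, ← _root_.sq,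
      inv_pow, ht2, abs_mul, abs_of_pos (by positivity), inv_mul_le_iff₀ (by positivity)] at h1
    linarith
  have hh1 : ∀ Y Z, |bil (hh g φ f x) Y Z| ≤ σ * ‖Y‖ * ‖Z‖ := fun Y Z => by
    rw [bil_hh, hφ0, hφ1, abs_div, abs_of_pos (hd.gm_pos hx)]
    simp only [one_mul, zero_apply, zero_mul, add_zero]
    exact (div_le_self (abs_nonneg _) (hd.one_le_gm hx)).trans (hf2 Y Z)
  have hsym := hd.symT_hh.symm x hx
  have hN : normSqK (gb g φ f) (hh g φ f) x ≤ (n * C * σ) ^ 2 :=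
    (hd.normSqK_gb_le hx hsym).trans (normSqK_le_of_bound hd.riem hx hsym hC0' hlo hh1)
  have hN0 := normSqK_nonneg hd.riemb hx hsym
  have hH : H0 g φ f x ^ 2 ≤ n * (n * C * σ) ^ 2 :=
    (traceK_sq_le hd.riemb hx hsym).trans (by gcongr)
  have hzw : fderiv ℝ z x w ^ 2 ≤ Bz ^ 2 * (C ^ 2 * σ ^ 2) := by
    have h1 : |fderiv ℝ z x w| ≤ Bz * ‖w‖ := ((fderiv ℝ z x).le_opNorm w).trans (by gcongr)
    have h2 := pow_le_pow_left₀ (abs_nonneg _) h1 2
    rw [sq_abs, mul_pow] at h2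
    exact h2.trans (by gcongr)
  have hzz : |hess g z x w w| ≤ Bz * (C ^ 2 * σ ^ 2) := by
    refine (hz2 w w).trans ?_
    rw [mul_assoc, ← _root_.sq]
    gcongr
  have hαz : |α * fderiv ℝ z x w ^ 2| ≤ Bz ^ 2 * (C ^ 2 * σ ^ 2) := by
    rw [abs_mul, abs_of_nonneg (sq_nonneg (fderiv ℝ z x w))]
    exact (mul_le_of_le_one_left (sq_nonneg _) hα).trans hzw
  rw [hd.id_G' hx, hd.lap_gb hx hz, hd.traceK_gb hx, ← lap_eq_traceK hd.riem hx hz, bil_hessM,
    hV, hd.gam_gb hx, ha, hlap, hhess, ← hw]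
  simp only [mul_zero, zero_mul, sub_zero, add_zero, zero_div]
  rw [abs_le] at hR hzz hαz ⊢
  have hn0 : (0:ℝ) ≤ n := Nat.cast_nonneg n
  constructor <;>
    nlinarith [hR.1, hR.2, hzz.1, hzz.2, hαz.1, hαz.2, sq_nonneg (H0 g φ f x + fderiv ℝ z x w),
      sq_nonneg (H0 g φ f x - fderiv ℝ z x w), sq_nonneg (H0 g φ f x),
      mul_nonneg hn0 (sq_nonneg (n * C * σ))]

end Crest.Agent.N346.P1.Out

end
end

-- ▼ part N346/P1/OutC
section

/-!
Row 346, Part 1.8 (helper90), file C: pointwise facts about a solution of the limit system and the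
curvature of the cut metric.
-/

set_option autoImplicit false

open scoped ContDiff Topology
open Filter Set Metric
open Crest.GeometryTopology.CoordMetric Crest.MathPhysics.ExteriorData
open Crest.Agent.R202.Tens Crest.Agent.R247.Bo84 Crest.Agent.N346.Id

noncomputable section

namespace Crest.Agent.N346.P1.Out

variable {n : ℕ}

theorem cut_smooth (a b : ℝ) : ContDiff ℝ ∞ (cut a b) :=
  Real.smoothTransition.contDiff.comp ((contDiff_id.sub contDiff_const).div_const _)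

theorem cut_nonneg (a b t : ℝ) : 0 ≤ cut a b t := Real.smoothTransition.nonneg _

theorem cut_le_one (a b t : ℝ) : cut a b t ≤ 1 := Real.smoothTransition.le_one _

theorem cut_eq_one {a b t : ℝ} (hab : a < b) (h : b ≤ t) : cut a b t = 1 :=
  Real.smoothTransition.one_of_one_le ((one_le_div (by linarith)).2 (by linarith))

theorem cut_eq_zero {a b t : ℝ} (hab : a < b) (h : t ≤ a) : cut a b t = 0 :=
  Real.smoothTransition.zero_of_nonpos (div_nonpos_of_nonpos_of_nonneg (by linarith) (by linarith))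

/-- the neck profile -/
def be (t0 t : ℝ) : ℝ := cut ((t0 / 2) ^ 2) (t0 ^ 2) (t ^ 2)

theorem be_smooth (t0 : ℝ) : ContDiff ℝ ∞ (be t0) := (cut_smooth _ _).comp (contDiff_id.pow 2)

theorem be_one {t0 t : ℝ} (h0 : 0 < t0) (h : t0 ≤ |t|) : be t0 t = 1 :=
  cut_eq_one (by nlinarith) (by rw [← sq_abs t]; gcongr)

theorem be_zero {t0 t : ℝ} (h0 : 0 < t0) (h : |t| ≤ t0 / 2) : be t0 t = 0 :=
  cut_eq_zero (by nlinarith) (by rw [← sq_abs t]; gcongr)

theorem deriv_be_zero {t0 t : ℝ} (h0 : 0 < t0) (h : |t| ≤ t0 / 2) : deriv (be t0) t = 0 :=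
  IsLocalMin.deriv_eq_zero (.of_forall fun s => by rw [be_zero h0 h]; exact cut_nonneg _ _ _)

theorem exists_be_bound {t0 : ℝ} (h0 : 0 < t0) : ∃ c : ℝ, 0 < c ∧ ∀ t, |deriv (be t0) t| ≤ c := by
  have h1 : HasCompactSupport (deriv (be t0)) :=
    HasCompactSupport.intro (isCompact_Icc (a := -t0) (b := t0)) fun t ht => by
      have h2 : t0 ≤ |t| := by
        rw [mem_Icc, ← abs_le, not_le] at ht
        exact ht.le
      exact IsLocalMax.deriv_eq_zero (.of_forall fun s => by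
        rw [be_one h0 h2]; exact cut_le_one _ _ _)
  obtain ⟨c, hc⟩ := ((be_smooth t0).continuous_deriv (by simp)).bounded_above_of_compact_support h1
  exact ⟨c + 1, by linarith [norm_nonneg (deriv (be t0) 0), hc 0], fun t => by
    linarith [hc t, Real.norm_eq_abs (deriv (be t0) t)]⟩

/-- `R - 2 Δ z - α |dz|²`. -/
def FF (g : MetricField n) (z : E n → ℝ) (x : E n) : ℝ :=
  scalarCurv g x - 2 * laplaceBeltrami g z x - al n * gam g z z x

theorem FF_congr {g g' : MetricField n} {x : E n} (h : g =ᶠ[𝓝 x] g') (z : E n → ℝ) :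
    FF g z x = FF g' z x := by
  rw [FF, FF, scalarCurv_congr h, lap_congr_metric h, gam, gam, inverseField, inverseField,
    h.self_of_nhds]

theorem gb_cut {R : ℝ} (hR : 0 < R) (g : MetricField n) (φ f : E n → ℝ) {x : E n} (hx : ‖x‖ < R) :
    gb g φ (fun y => eta R y * f y) =ᶠ[𝓝 x] gb g φ f := by
  have ho : IsOpen {y : E n | ‖y‖ < R} := isOpen_lt continuous_norm continuous_const
  filter_upwards [ho.mem_nhds hx] with y hy
  have h1 : (fun y => eta R y * f y) =ᶠ[𝓝 y] f := by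
    filter_upwards [ho.mem_nhds hy] with v hv
    rw [Bs.eta_eq_one hR (le_of_lt hv), one_mul]
  simp only [gb, XX, Bs.pd_congr h1]

theorem gb_cut_far {R : ℝ} (hR : 0 < R) (g : MetricField n) (φ f : E n → ℝ) {x : E n}
    (hx : 2 * R < ‖x‖) : gb g φ (fun y => eta R y * f y) x = g x := by
  have h1 := Bs.pd_of_far (u := fun y => eta R y * f y) (c := 0) (R := 2 * R)
    (fun y hy => by rw [Bs.eta_eq_zero hR hy, zero_mul]) hx
  ext i j
  simp [gb, XX, h1]

theorem abs_al_le (hn : 3 ≤ n) : |al n| ≤ 1 := by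
  have h3 : (3 : ℝ) ≤ n := by exact_mod_cast hn
  rw [al, abs_of_nonneg (div_nonneg (by linarith) (by linarith)), div_le_one (by linarith)]
  linarith

/-- the hypotheses of `OutStmt`, bundled. -/
structure Ctx (S : Setup n) (e M z3 Λ : ℝ) (B : ℕ → ℝ) (f z : E n → ℝ) : Prop where
  hn : 3 ≤ n
  ok : S.OK
  e_pos : 0 < e
  e_lt : e < 1
  Λ_ge : 1 ≤ Λ
  Λ_le : Λ ≤ z3
  sol : S.Sol e M z3 (fun _ => 0) f z
  bf : Bdd B f
  bz : Bdd B z
  est : S.Est e M z3 Λ (fun _ => 0) f z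

/-- the warping factor of the limit solution -/
abbrev ph0 (S : Setup n) (e M z3 : ℝ) (f z : E n → ℝ) : E n → ℝ :=
  phi (S.par e M z3) (S.coef fun _ => 0) 1 f z

namespace Ctx

variable {S : Setup n} {e M z3 Λ : ℝ} {B : ℕ → ℝ} {f z : E n → ℝ}

local notation "φ" => ph0 S e M z3 f z
local notation "P" => S.par e M z3

theorem gt_one (S : Setup n) (an : E n → ℝ) : (S.coef an).gt 1 = S.g := by
  funext x
  simp [Coef.gt, Setup.coef]

theorem phi_eq (x : E n) : φ x = e ^ 2 + (1 - e ^ 2) *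
    (cut (1 / 4) (1 / 2) (S.s x) * (1 - (1 - cut S.ra S.rb (S.s x)) *
      (1 - cut (-S.t1) (-S.t1 / 2) (e ^ 3 * f x)))) * cut (-S.θ / 2) (-S.θ / 4) (z x) := by
  simp only [ph0, phi, Par.phiF, Par.chi, Par.Ph, Par.δ, Par.τ, Setup.par, Setup.coef]
  ring

theorem phi_smooth (h : Ctx S e M z3 Λ B f z) : ContDiff ℝ ∞ φ := by
  have hs := h.ok.good.s_smooth
  rw [funext phi_eq]
  exact contDiff_const.add ((contDiff_const.mul (((cut_smooth _ _).comp hs).mul
    (contDiff_const.sub ((contDiff_const.sub ((cut_smooth _ _).comp hs)).mul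
      (contDiff_const.sub ((cut_smooth _ _).comp (contDiff_const.mul h.bf.1))))))).mul
    ((cut_smooth _ _).comp h.bz.1))

theorem phi_ge (h : Ctx S e M z3 Λ B f z) (x : E n) : e ^ 2 ≤ φ x := by
  have h1 : 0 ≤ 1 - e ^ 2 := by nlinarith [h.e_pos, h.e_lt]
  have h2 : 0 ≤ 1 - (1 - cut S.ra S.rb (S.s x)) * (1 - cut (-S.t1) (-S.t1 / 2) (e ^ 3 * f x)) := by
    have := mul_le_one₀ (a := 1 - cut S.ra S.rb (S.s x))
      (b := 1 - cut (-S.t1) (-S.t1 / 2) (e ^ 3 * f x)) (by linarith [cut_nonneg S.ra S.rb (S.s x)])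
      (by linarith [cut_le_one (-S.t1) (-S.t1 / 2) (e ^ 3 * f x)])
      (by linarith [cut_nonneg (-S.t1) (-S.t1 / 2) (e ^ 3 * f x)])
    linarith
  rw [phi_eq]
  have := mul_nonneg (mul_nonneg h1 (mul_nonneg (cut_nonneg (1 / 4) (1 / 2) (S.s x)) h2))
    (cut_nonneg (-S.θ / 2) (-S.θ / 4) (z x))
  linarith

theorem phi_far (h : Ctx S e M z3 Λ B f z) {x : E n} (h1 : Λ ≤ ‖x‖) (h2 : S.R0 ≤ ‖x‖) :
    φ x = 1 := by
  have hs := h.ok.good.s_far x h2
  have hθ : 0 < S.θ := h.ok.par_ok.θ_pos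
  rw [phi_eq, cut_eq_one (by norm_num) (by linarith : 1 / 2 ≤ S.s x),
    cut_eq_one h.ok.rab (by linarith [h.ok.rb_lt]),
    cut_eq_one (by linarith) (h.est.far_z5 x h1)]
  ring

theorem jd (h : Ctx S e M z3 Λ B f z) {f' : E n → ℝ} (hf : ContDiff ℝ ∞ f') :
    Jd S.g φ f' univ :=
  ⟨h.ok.good.riem, h.phi_smooth.contDiffOn, hf.contDiffOn,
    fun x _ => (pow_pos h.e_pos 2).trans_le (h.phi_ge x)⟩

theorem mw_pos (h : Ctx S e M z3 Λ B f z) (x : E n) : 0 < S.mw x := by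
  have := h.ok.c1_pos
  rw [Setup.mw]
  positivity

theorem ra_lt (h : Ctx S e M z3 Λ B f z) {x : E n} (hx : |e ^ 3 * f x| < S.t0) : S.ra < S.s x := by
  by_contra h1
  have h2 := h.est.inner x (not_lt.1 h1)
  have h3 : 4 * S.t0 ≤ S.t1 := h.ok.par_ok.t01
  have h4 : 0 < S.t0 := h.ok.par_ok.t0_pos
  linarith [(abs_lt.1 hx).1]

/-- outside the penalised region the conformal operator is bounded below. -/
theorem FF_ge (h : Ctx S e M z3 Λ B f z) {x : E n} (hx : |e ^ 3 * f x| < S.t0) :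
    2 * S.mw x ≤ FF (gb S.g φ f) z x ∧
      (e ^ 3 * f x) ^ 2 + 2 * eSq (gb S.g φ f) S.EE x ≤ FF (gb S.g φ f) z x := by
  have hd := h.jd h.bf.1
  have hθ : 0 < S.θ := h.ok.par_ok.θ_pos
  have ht0 : 0 < S.t0 := h.ok.par_ok.t0_pos
  have h1 := h.sol.conf x
  have hz : z x ≤ z3 := by linarith [Real.add_one_le_exp (z x), h.est.z_hi x, h.Λ_le]
  have hvt : (P).vt (z x) = 0 := by
    simp only [Par.vt, Setup.par]
    rw [cut_eq_one (by linarith) (by linarith [h.est.z_lo x]), cut_eq_zero (by linarith) hz]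
    ring
  have hdd : (P).dd ((S.coef fun _ => 0).b1 x) ((S.coef fun _ => 0).b2 x) ((P).τ * f x) = 0 := by
    simp only [Par.dd, Par.τ, Setup.par, Setup.coef]
    rw [cut_eq_one h.ok.ra_gt (h.ra_lt hx).le, cut_eq_zero (by nlinarith)
      (by rw [← sq_abs (e ^ 3 * f x)]; gcongr)]
    ring
  have hcw : 0 ≤ S.cw x := by
    refine le_trans ?_ (h.ok.C0_big x 0 (by simp [quadForm]))
    have h3 : (3 : ℝ) ≤ n := by exact_mod_cast h.hn
    have : (0:ℝ) ≤ (n : ℝ) - 1 := by linarith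
    positivity
  have hsz : 0 ≤ (P).sz (z x) := by
    simp only [Par.sz]
    linarith [cut_le_one (-(P).θ) (-3 * (P).θ / 4) (z x)]
  have hT : TT P (S.coef fun _ => 0) 1 f z x ≤ FF (gb S.g φ f) z x := by
    rw [GG, hvt, hdd, gbar, gt_one] at h1
    have h2 : (S.coef fun _ => 0).an x = 0 := rfl
    have h3 : (S.coef fun _ => 0).cw x = S.cw x := rfl
    rw [h2, h3] at h1
    rw [FF]
    nlinarith [mul_nonneg hsz hcw]
  have hp : 0 ≤ (P).τ * pp S.g φ f x :=
    mul_nonneg (pow_pos h.e_pos 3).le (hd.pp_nonneg (mem_univ x))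
  have hE := eSq_nonneg hd.riemb (mem_univ x) (S.coef fun _ => 0).EE
  have hm := h.mw_pos x
  rw [TT, gbar, gt_one] at hT
  have h4 : (S.coef fun _ => 0).mw x = S.mw x := rfl
  have h5 : (P).τ = e ^ 3 := rfl
  rw [h4] at hT
  refine ⟨by nlinarith [sq_nonneg ((P).τ * f x)], ?_⟩
  rw [← h5]
  rcases le_total ‖x‖ S.R0 with hr | hr
  · have h6 : eSq (gb S.g φ f) (S.coef fun _ => 0).EE x = eSq (gb S.g φ f) S.EE x := by
      simp only [eSq, vecNormSq, Setup.coef,
        Bs.eta_eq_one (by linarith [h.ok.good.R0_ge] : 0 < S.R0) hr, one_mul]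
    linarith
  · linarith [h.ok.E_far x hr, hd.eSq_gb_le (mem_univ x) S.EE]

/-- the far region: cutting `f` off at a large radius keeps the conformal operator positive. -/
theorem far (h : Ctx S e M z3 Λ B f z) (R1 : ℝ) : ∃ R : ℝ, R1 ≤ R ∧ 1 ≤ R ∧ S.R0 ≤ R ∧
    ∀ x, R ≤ ‖x‖ → Id.sq S.g φ (fun y => eta R y * f y) x ≤ 1 ∧ (|e ^ 3 * f x| < S.t0 →
      2 * eSq (gb S.g φ fun y => eta R y * f y) S.EE x
        ≤ FF (gb S.g φ fun y => eta R y * f y) z x) := by
  have hG := h.ok.good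
  have hC := hG.C_ge
  have h3 : (3 : ℝ) ≤ n := by exact_mod_cast h.hn
  set Bz := max (B 1) (B 2) with hBz
  have hBz0 : 0 ≤ Bz := ((norm_nonneg _).trans (h.bz.2 1 0)).trans (le_max_left _ _)
  obtain ⟨K, hK, hfar⟩ := far_est n S.C |S.C0| ((1 + 3 * S.C) * Bz) hC (abs_nonneg _)
    (by positivity)
  obtain ⟨c, hc, hcut⟩ := exists_cut_bound n
  set ρ := min 1 (min (S.c1 / (2 * K + 1)) (1 / S.C)) with hρ
  have hc1 := h.ok.c1_pos
  have hρ0 : 0 < ρ := by positivity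
  have hρ1 : ρ ≤ 1 := min_le_left _ _
  have hρ2 : ρ * (2 * K + 1) ≤ S.c1 :=
    (le_div_iff₀ (by positivity)).1 ((min_le_right _ _).trans (min_le_left _ _))
  have hρ3 : ρ * S.C ≤ 1 :=
    (le_div_iff₀ (by positivity)).1 ((min_le_right _ _).trans (min_le_right _ _))
  have hexp : ExpD f := ⟨e ^ 2, Λ * Real.exp (e ^ 2 * Λ), Λ, pow_pos h.e_pos 2,
    by have := h.Λ_ge; positivity, fun x hx => by
      refine (h.est.far_f x hx).trans (le_of_eq ?_)
      rw [mul_assoc, ← Real.exp_add]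
      congr 2
      ring⟩
  obtain ⟨R2, hR2⟩ := decay_two h.bf hexp (((n : ℝ) + S.e0) / 2) (ρ / ((1 + 3 * S.C) * c))
    (by positivity)
  refine ⟨max (max R1 R2) (max Λ S.R0 + 1), (le_max_left _ _).trans (le_max_left _ _),
    le_trans (by linarith [le_max_left Λ S.R0, h.Λ_ge]) (le_max_right _ _),
    le_trans (by linarith [le_max_right Λ S.R0]) (le_max_right _ _), fun x hx => ?_⟩
  set R := max (max R1 R2) (max Λ S.R0 + 1) with hR
  have hR1 : 1 ≤ R := le_trans (by linarith [le_max_left Λ S.R0, h.Λ_ge]) (le_max_right _ _)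
  have hx2 : R2 ≤ ‖x‖ := ((le_max_right _ _).trans (le_max_left _ _)).trans hx
  have hx3 : max Λ S.R0 < ‖x‖ := by linarith [le_max_right (max R1 R2) (max Λ S.R0 + 1)]
  have ho : IsOpen {y : E n | max Λ S.R0 < ‖y‖} := isOpen_lt continuous_const continuous_norm
  have hφ : φ =ᶠ[𝓝 x] fun _ => 1 := by
    filter_upwards [ho.mem_nhds hx3] with y hy
    exact h.phi_far ((le_max_left _ _).trans (le_of_lt hy)) ((le_max_right _ _).trans (le_of_lt hy))
  have hconf : Conf (fun _ => 1) S.g S.ψ {y : E n | max Λ S.R0 < ‖y‖} :=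
    ⟨⟨ho, fun _ _ => contDiffOn_const, fun _ _ => Matrix.PosDef.one⟩, hG.ψ_smooth.contDiffOn,
      fun y hy => hG.g_far y ((le_max_right _ _).trans (le_of_lt hy))⟩
  have hψ : ‖fderiv ℝ S.ψ x‖ ≤ S.C := by
    have := hG.ψ_decay 1 (by norm_num) x
    rw [norm_iteratedFDeriv_one] at this
    exact this.trans (mul_le_of_le_one_right (by linarith)
      (Real.rpow_le_one_of_one_le_of_nonpos (by linarith [norm_nonneg x])
        (by push_cast; linarith)))
  set j := (1 + ‖x‖ ^ 2) ^ (-(((n : ℝ) + S.e0) / 2)) with hj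
  have hj0 : 0 < j := by positivity
  have hj1 : j ≤ 1 := Real.rpow_le_one_of_one_le_of_nonpos (by nlinarith [sq_nonneg ‖x‖])
    (by linarith [hG.e0_pos])
  have hmw : S.mw x = S.c1 * j := by rw [Setup.mw, hj, neg_div]
  set σ0 := ρ / ((1 + 3 * S.C) * c) * j with hσ0
  have hσ00 : 0 < σ0 := by positivity
  have hσ : (1 + 3 * S.C) * (c * σ0) = ρ * j := by rw [hσ0]; field_simp
  have hric : ∀ w, quadForm S.g x w ≤ 1 → |bil (ricM S.g x) w w| ≤ |S.C0| := fun w hw => by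
    have h4 := h.ok.C0_big x w hw
    have h5 : S.cw x ≤ |S.C0| := by
      rw [Setup.cw]
      refine (mul_le_mul_of_nonneg_right (le_abs_self _) (by positivity)).trans ?_
      exact mul_le_of_le_one_right (abs_nonneg _)
        (Real.rpow_le_one_of_one_le_of_nonpos (by nlinarith [sq_nonneg ‖x‖]) (by linarith))
    have h6 : 0 ≤ ((n : ℝ) - 1) * (traceK S.g S.K x - bil (S.K x) w w) ^ 2 :=
      mul_nonneg (by linarith) (sq_nonneg _)
    linarith [abs_nonneg (scalarCurv S.g x), abs_nonneg (bil (ricM S.g x) w w)]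
  have key : ∀ f' : E n → ℝ, ContDiff ℝ ∞ f' → (∀ i ≤ 2, ‖iteratedFDeriv ℝ i f' x‖ ≤ c * σ0) →
      Id.sq S.g φ f' x ≤ S.C * (ρ * j) ^ 2 ∧
      |FF (gb S.g φ f') z x - FF S.g z x| ≤ K * (ρ * j) ^ 2 := by
    intro f' hf' hb
    refine hfar S.g φ f' z x (ρ * j) (al n) (h.jd hf') (h.bz.1.contDiffAt.of_le (by norm_cast)) hφ
      (by positivity) (abs_al_le h.hn) (hG.g_lo x) hric ?_ (fun Y Z => ?_) ?_ (fun Y Z => ?_)
    · rw [← norm_iteratedFDeriv_one, ← hσ]
      exact (hb 1 (by norm_num)).trans (le_mul_of_one_le_left (by positivity) (by linarith))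
    · rw [← hσ]
      exact abs_hess_le hconf hx3 hψ (hb 1 (by norm_num)) (hb 2 le_rfl) Y Z
    · rw [← norm_iteratedFDeriv_one]
      exact ((h.bz.2 1 x).trans (le_max_left _ _)).trans
        (le_mul_of_one_le_left hBz0 (by linarith))
    · exact abs_hess_le hconf hx3 hψ ((h.bz.2 1 x).trans (le_max_left _ _))
        ((h.bz.2 2 x).trans (le_max_right _ _)) Y Z
  have hsm : ContDiff ℝ ∞ fun y => eta R y * f y := (Bs.contDiff_eta R).mul h.bf.1
  have k1 := key f h.bf.1 fun i hi =>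
    (hR2 x hx2 i hi).trans (le_mul_of_one_le_left hσ00.le hc)
  have k2 := key _ hsm (hcut R hR1 f x σ0 h.bf.1 (hR2 x hx2))
  have hq : (ρ * j) ^ 2 ≤ ρ * j := by
    rw [_root_.sq]
    exact mul_le_of_le_one_left (by positivity) (mul_le_one₀ hρ1 hj0.le hj1)
  refine ⟨k2.1.trans ?_, fun hx' => ?_⟩
  · nlinarith [mul_le_mul_of_nonneg_left hq (by linarith : 0 ≤ S.C)]
  · have h4 := (h.FF_ge hx').1
    have h5 := h.ok.E_far x ((le_max_right _ _).trans hx3.le)
    have h6 := (h.jd hsm).eSq_gb_le (mem_univ x) S.EE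
    have h7 : K * (ρ * j) ^ 2 ≤ K * (ρ * j) := mul_le_mul_of_nonneg_left hq hK
    have h8 : 2 * (K * (ρ * j)) ≤ S.mw x := by
      rw [hmw]
      nlinarith [mul_le_mul_of_nonneg_right hρ2 hj0.le, mul_pos hρ0 hj0]
    linarith [(abs_le.1 k1.2).2, (abs_le.1 k2.2).1]

end Ctx

end Crest.Agent.N346.P1.Out

end
end

-- ▼ part N346/P1/Out

/-!
Row 346, Part 1.8 (helper90): `out : OutStmt`, the neck built from the limit solution.
-/

set_option autoImplicit false

open scoped ContDiff Topology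
open Filter Set Metric MeasureTheory
open Crest.GeometryTopology.CoordMetric Crest.MathPhysics.ExteriorData
open Crest.Agent.R202.Tens Crest.Agent.R247.Bo84 Crest.Agent.N346.Id

noncomputable section

namespace Crest.Agent.N346.P1.Out

variable {n : ℕ} {S : Setup n} {e M z3 Λ : ℝ} {B : ℕ → ℝ} {f z : E n → ℝ}

local notation "φ" => ph0 S e M z3 f z

theorem conf_FF (hn : 3 ≤ n) {g g' : MetricField n} {z : E n → ℝ} (hz : ContDiff ℝ ∞ z)
    (h : Conf g g' (fun y => ((n : ℝ) - 1)⁻¹ * z y) univ) (x : E n) :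
    scalarCurv g' x = Real.exp (-(2 * (((n : ℝ) - 1)⁻¹ * z x))) * FF g z x := by
  have h3 : (3 : ℝ) ≤ n := by exact_mod_cast hn
  have h1 : (n : ℝ) - 1 ≠ 0 := by linarith
  have hz2 : ContDiffAt ℝ 2 z x := hz.contDiffAt.of_le (by norm_cast)
  have hzd : DifferentiableAt ℝ z x := hz2.differentiableAt (by norm_num)
  rw [h.scalar_eq (mem_univ x), lap_const_mul h.riem₁ (mem_univ x) _ hz2,
    gam_const_mul_left _ hzd, gam_const_mul_right _ hzd, FF, al]
  congr 1
  field_simp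

theorem neck_core (h : Ctx S e M z3 Λ B f z) (hA : 0 ≤ S.A) {η : ℝ} (hη : 2 * S.θ ≤ η)
    (hgrad : Integrable fun x => ∑ i, pderiv i z x ^ 2)
    (hflux : FluxLE (fun x => Real.exp (al n * z x / 2)) (((n : ℝ) - 2) * unitSphereArea n * η / 2))
    {κ cβ Λ' : ℝ} (hκ : 0 < κ) (hcβ : ∀ t, |deriv (be S.t0) t| ≤ cβ)
    (hκ2 : (κ * cβ) ^ 2 ≤ S.t0 ^ 2 / 8) (h2 : 3 * S.C * Λ ^ 3 ≤ Λ') (h3 : 8 * Λ / S.t0 ^ 2 ≤ Λ')
    (h4 : Λ + 2 * Λ / (S.t0 * e ^ 2) ≤ Λ') :
    ∃ (g' : MetricField n) (d U : E n → ℝ),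
      Neck n η Λ' (κ / e) (S.m + η) ((1 - η) * S.A) S.Q g' d U S.EE := by
  have hG := h.ok.good
  have hC := hG.C_ge
  have hn3 : (3 : ℝ) ≤ n := by exact_mod_cast h.hn
  have hθ : 0 < S.θ := h.ok.par_ok.θ_pos
  have hθ1 : S.θ ≤ 1 := h.ok.par_ok.θ_le
  have ht0 : 0 < S.t0 := h.ok.par_ok.t0_pos
  have ht01 : 4 * S.t0 ≤ S.t1 := h.ok.par_ok.t01
  have ht1 : S.t1 ≤ 1 := h.ok.par_ok.t1_le
  have he := h.e_pos
  have he1 := h.e_lt
  have hΛ := h.Λ_ge
  have hΛ3 : Λ ≤ Λ ^ 3 := le_self_pow₀ hΛ (by norm_num)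
  obtain ⟨R, hRΛ, hR1, hR0, hfar⟩ := h.far Λ'
  have hRpos : 0 < R := by linarith
  set ft : E n → ℝ := fun y => eta R y * f y with hft
  have hftc : ContDiff ℝ ∞ ft := (Bs.contDiff_eta R).mul h.bf.1
  have hd := h.jd h.bf.1
  have hdt := h.jd hftc
  set gt := gb S.g φ ft with hgt
  set c : ℝ := ((n : ℝ) - 1)⁻¹ with hc
  have hc0 : 0 < c := inv_pos.2 (by linarith)
  have hc2 : 2 * c ≤ 1 := by
    rw [hc, ← div_eq_mul_inv, div_le_one (by linarith)]; linarith
  have hcn : ((n : ℝ) - 1) * c = 1 := mul_inv_cancel₀ (by linarith)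
  set g' : MetricField n := fun y => Real.exp (2 * (c * z y)) • gt y with hg'
  have hconf : Conf gt g' (fun y => c * z y) univ :=
    ⟨hdt.riemb, (contDiff_const.mul h.bz.1).contDiffOn, fun _ _ => rfl⟩
  set ε : E n → ℝ := fun x => Real.exp (-(2 * (c * z x))) with hε
  have hε0 : ∀ x, 0 < ε x := fun x => Real.exp_pos _
  have hεhi : ∀ x, ε x ≤ 3 := fun x => by
    have h1 : -(2 * (c * z x)) ≤ 1 := by nlinarith [h.est.z_lo x]
    exact (Real.exp_le_exp.2 h1).trans (by linarith [Real.exp_one_lt_d9])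
  have hεinv : ∀ x, Real.exp (2 * (c * z x)) ≤ Λ := fun x => by
    rcases le_total 0 (z x) with hz | hz
    · exact (Real.exp_le_exp.2 (by nlinarith)).trans (h.est.z_hi x)
    · exact (Real.exp_le_one_iff.2 (by nlinarith)).trans hΛ
  have hεmul : ∀ x, ε x * Real.exp (2 * (c * z x)) = 1 := fun x => by
    rw [hε, ← Real.exp_add]; simp
  have hsc : ∀ x, scalarCurv g' x = ε x * FF gt z x := conf_FF h.hn h.bz.1 hconf
  have hE : ∀ x, 2 * (1 - η) * eSq g' S.EE x ≤ ε x * (2 * eSq gt S.EE x) := fun x => by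
    have h0 := eSq_nonneg hdt.riemb (mem_univ x) S.EE
    have h1 : Real.exp (-(2 * ((n : ℝ) - 1) * (c * z x))) =
        ε x * Real.exp (-(2 * (1 - c) * z x)) := by
      rw [hε, ← Real.exp_add]
      congr 1
      linear_combination (-2 * z x) * hcn
    have h5 : (1 - η) * Real.exp (-(2 * (1 - c) * z x)) ≤ 1 := by
      have h6 := Real.add_one_le_exp (2 * (1 - c) * z x)
      have h7 : 1 - η ≤ Real.exp (2 * (1 - c) * z x) := by nlinarith [h.est.z_lo x]
      rw [Real.exp_neg, ← div_eq_mul_inv, div_le_one (Real.exp_pos _)]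
      exact h7
    rw [hconf.eSq_eq (mem_univ x), h1]
    have := mul_le_mul_of_nonneg_right h5 (mul_nonneg (hε0 x).le h0)
    nlinarith
  set d : E n → ℝ := fun x => κ / e * be S.t0 (e ^ 3 * f x) with hdd
  have hℓ : 0 < κ / e := by positivity
  have hsmall : ∀ x, Λ' ≤ ‖x‖ → |e ^ 3 * f x| ≤ S.t0 / 2 := fun x hx => by
    have hq : 0 < 2 * Λ / (S.t0 * e ^ 2) := by positivity
    have h5 := h.est.far_f x (by linarith)
    have h6 : 2 * Λ / S.t0 ≤ e ^ 2 * (‖x‖ - Λ) := by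
      have : 2 * Λ / S.t0 = e ^ 2 * (2 * Λ / (S.t0 * e ^ 2)) := by field_simp
      rw [this]
      gcongr
      linarith
    have h7 : 2 * Λ / S.t0 ≤ Real.exp (e ^ 2 * (‖x‖ - Λ)) := by
      linarith [Real.add_one_le_exp (e ^ 2 * (‖x‖ - Λ))]
    rw [neg_mul, Real.exp_neg, ← div_eq_mul_inv] at h5
    have h8 : Λ / Real.exp (e ^ 2 * (‖x‖ - Λ)) ≤ S.t0 / 2 := by
      rw [div_le_iff₀ (Real.exp_pos _)]
      rw [div_le_iff₀ ht0] at h7
      linarith
    rw [abs_mul, abs_of_pos (pow_pos he 3)]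
    exact (mul_le_of_le_one_left (abs_nonneg _) (pow_le_one₀ he.le he1.le)).trans (h5.trans h8)
  have hlt : ∀ x, d x < κ / e → |e ^ 3 * f x| < S.t0 := fun x hx => by
    by_contra h5
    rw [hdd] at hx
    simp only [be_one ht0 (not_lt.1 h5), mul_one] at hx
    exact lt_irrefl _ hx
  have hgr : ∀ x, gradSq g' d x ≤ ε x * (S.t0 ^ 2 / 8) := fun x => by
    have h5 : HasDerivAt (fun t => κ / e * be S.t0 (e ^ 3 * t))
        (κ / e * (deriv (be S.t0) (e ^ 3 * f x) * e ^ 3)) (f x) := by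
      have h6 := ((be_smooth S.t0).differentiable (by simp) (e ^ 3 * f x)).hasDerivAt
      have h7 : HasDerivAt (fun t => e ^ 3 * t) (e ^ 3) (f x) := by
        simpa using (hasDerivAt_id (f x)).const_mul (e ^ 3)
      exact (h6.comp (f x) h7).const_mul _
    have h6 : gradSq g' d x = (κ / e * (deriv (be S.t0) (e ^ 3 * f x) * e ^ 3)) ^ 2 *
        gradSq g' f x := Bs.gradSq_comp h5 (Bs.smooth_diff h.bf.1 x)
    rw [h6]
    rcases le_or_gt R ‖x‖ with hx | hx
    · rw [deriv_be_zero ht0 (hsmall x (hRΛ.trans hx))]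
      have := hε0 x
      simp only [zero_mul, mul_zero, ne_eq, OfNat.ofNat_ne_zero, not_false_eq_true, zero_pow]
      positivity
    · have h7 : gam gt f f x = gam (gb S.g φ f) f f x := by
        rw [gam, gam, inverseField, inverseField, hgt, (gb_cut hRpos S.g φ f hx).self_of_nhds]
      have h8 := hd.gam_gb_f_f (mem_univ x)
      have h9 := gam_self_nonneg hd.riemb (mem_univ x) f
      have h10 : (e ^ 2) ^ 2 * gam (gb S.g φ f) f f x ≤ 1 := by
        refine le_trans ?_ (h8 ▸ (hd.pp_lt_one (mem_univ x)).le)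
        gcongr
        exact h.phi_ge x
      have h11 : (κ * deriv (be S.t0) (e ^ 3 * f x)) ^ 2 ≤ S.t0 ^ 2 / 8 := by
        refine le_trans ?_ hκ2
        rw [← sq_abs, abs_mul, abs_of_pos hκ]
        gcongr
        exact hcβ _
      rw [gradSq_eq_gam, hconf.gam_eq (mem_univ x), h7]
      have h12 : (κ / e * (deriv (be S.t0) (e ^ 3 * f x) * e ^ 3)) ^ 2 *
          (ε x * gam (gb S.g φ f) f f x) = ε x * ((κ * deriv (be S.t0) (e ^ 3 * f x)) ^ 2 *
            ((e ^ 2) ^ 2 * gam (gb S.g φ f) f f x)) := by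
        field_simp
      rw [h12]
      refine mul_le_mul_of_nonneg_left ?_ (hε0 x).le
      exact (mul_le_of_le_one_right (sq_nonneg _) h10).trans h11
  have hq : ∀ x v, quadForm g' x v = Real.exp (2 * (c * z x)) * bil (gt x) v v := fun x v => by
    rw [quadForm_eq, hconf.bil_eq (mem_univ x)]
  have hlo : ∀ x v, Real.exp (-(2 * c * S.θ)) * quadForm S.g x v ≤ quadForm g' x v := fun x v => by
    rw [hq, quadForm_eq]
    exact mul_le_mul (Real.exp_le_exp.2 (by nlinarith [h.est.z_lo x])) (hdt.bil_le_gb (mem_univ x) v)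
      (bil_self_nonneg hG.riem (mem_univ x) v) (Real.exp_pos _).le
  have hz : Hd (3 * ((n : ℝ) - 2) / 4) z :=
    hd_z h.bz.1 (B := B 0) (by linarith) hΛ
      (fun x => by simpa using h.bz.2 0 x) h.est.far_z hgrad
  have hψ : Hd (3 * ((n : ℝ) - 2) / 4) S.ψ := hd_psi h.hn hG.ψ_smooth (by linarith) hG.ψ_decay
  have hy := (hz.const_mul (al n / 2)).add (hψ.const_mul (((n : ℝ) - 2) / 2))
  have hU := hy.exp_sub_one (by linarith)
  have hΛ'3 : 3 * S.C ≤ Λ' := le_trans (by nlinarith) h2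
  have hΛ'0 : 0 < Λ' := by linarith
  refine ⟨g', d, fun x => Real.exp (al n / 2 * z x + ((n : ℝ) - 2) / 2 * S.ψ x),
    { riem := hconf.riem
      g_lo := fun x v => ?_
      g_hi := fun x v => ?_
      d_smooth := contDiff_const.mul ((be_smooth _).comp (contDiff_const.mul h.bf.1))
      d_nonneg := fun x => mul_nonneg hℓ.le (cut_nonneg _ _ _)
      d_lip := fun x => ?_
      d_far := fun x hx => by simp only [hdd, be_zero ht0 (hsmall x hx), mul_zero]
      R_out := fun x hx => ?_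
      R_neck := fun x hx0 hx => ?_
      U_smooth := hy.smooth.exp
      U_pos := fun x => Real.exp_pos _
      g_inf := ⟨2 * R + 1, fun x hx => ?_⟩
      U_lim := ?_
      U_grad := ?_
      U_hardy := hU.hardy (by linarith)
      mass := ?_
      area := ?_
      EE_smooth := hG.EE_smooth
      EE_decay := ⟨S.C, hG.EE_decay⟩
      EE_div := fun x hx => hG.EE_div x (by linarith [h.ra_lt (hlt x hx), h.ok.ra_gt])
      charge := hG.charge }⟩
  · refine le_trans ?_ (hlo x v)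
    have h5 : (1:ℝ) / 3 ≤ Real.exp (-(2 * c * S.θ)) := by
      rw [Real.exp_neg, one_div]
      refine inv_anti₀ (Real.exp_pos _) ?_
      exact (Real.exp_le_exp.2 (by nlinarith : 2 * c * S.θ ≤ 1)).trans
        (by linarith [Real.exp_one_lt_d9])
    calc Λ'⁻¹ * ‖v‖ ^ 2 ≤ (3 * S.C)⁻¹ * ‖v‖ ^ 2 := by gcongr
      _ = 1 / 3 * (S.C⁻¹ * ‖v‖ ^ 2) := by field_simp
      _ ≤ _ := mul_le_mul h5 (hG.g_lo x v) (by positivity) (Real.exp_pos _).le
  · have h5 : bil (S.g x) v v ≤ S.C * ‖v‖ ^ 2 := quadForm_eq S.g x v ▸ hG.g_hi x v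
    have h6 : bil (gt x) v v ≤ 3 * Λ ^ 2 * (S.C * ‖v‖ ^ 2) := by
      have hΛ2 : 1 ≤ Λ ^ 2 := one_le_pow₀ hΛ
      rcases le_or_gt R ‖x‖ with hx | hx
      · refine (hdt.gb_le (mem_univ x) v).trans (mul_le_mul ?_ h5
          (bil_self_nonneg hG.riem (mem_univ x) v) (by positivity))
        rw [hdt.gm_sq (mem_univ x)]
        linarith [(hfar x hx).1]
      · rw [hgt, (gb_cut hRpos S.g φ f hx).self_of_nhds]
        refine (hd.gb_le (mem_univ x) v).trans (mul_le_mul ?_ h5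
          (bil_self_nonneg hG.riem (mem_univ x) v) (by positivity))
        have := pow_le_pow_left₀ (hd.gm_pos (mem_univ x)).le (h.est.gm_hi x) 2
        linarith
    rw [hq]
    calc Real.exp (2 * (c * z x)) * bil (gt x) v v ≤ Λ * (3 * Λ ^ 2 * (S.C * ‖v‖ ^ 2)) :=
          mul_le_mul (hεinv x) h6 (bil_self_nonneg hdt.riemb (mem_univ x) v) (by positivity)
      _ = 3 * S.C * Λ ^ 3 * ‖v‖ ^ 2 := by ring
      _ ≤ _ := by gcongr
  · refine (hgr x).trans ?_
    nlinarith [hεhi x, hε0 x]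
  · refine (hE x).trans ?_
    rw [hsc]
    refine mul_le_mul_of_nonneg_left ?_ (hε0 x).le
    rcases le_or_gt R ‖x‖ with hx' | hx'
    · exact (hfar x hx').2 (hlt x hx)
    · have h5 := gb_cut hRpos S.g φ f hx'
      rw [hgt, FF_congr h5, eSq, vecNormSq, h5.self_of_nhds]
      have := (h.FF_ge (hlt x hx)).2
      rw [eSq, vecNormSq] at this
      linarith [sq_nonneg (e ^ 3 * f x)]
  · have h6 : S.t0 / 2 < |e ^ 3 * f x| := by
      by_contra h7
      simp only [hdd, be_zero ht0 (not_lt.1 h7), mul_zero] at hx0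
      exact lt_irrefl _ hx0
    have hx' : ‖x‖ < R := by
      by_contra h7
      linarith [hsmall x (hRΛ.trans (not_lt.1 h7))]
    have h5 := gb_cut hRpos S.g φ f hx'
    have h7 : S.t0 ^ 2 / 4 + 2 * eSq gt S.EE x ≤ FF gt z x := by
      rw [hgt, FF_congr h5, eSq, vecNormSq, h5.self_of_nhds]
      have := (h.FF_ge (hlt x hx)).2
      rw [eSq, vecNormSq, ← sq_abs (e ^ 3 * f x)] at this
      nlinarith
    have h8 : Λ'⁻¹ ≤ ε x * (S.t0 ^ 2 / 8) := by
      have h9 : Λ'⁻¹ ≤ (8 * Λ / S.t0 ^ 2)⁻¹ := inv_anti₀ (by positivity) h3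
      refine h9.trans ?_
      have h10 : 1 ≤ ε x * Λ := by
        rw [← hεmul x]
        exact mul_le_mul_of_nonneg_left (hεinv x) (hε0 x).le
      rw [inv_div, div_le_iff₀ (by positivity)]
      nlinarith [sq_nonneg S.t0]
    rw [hsc]
    nlinarith [hE x, hgr x, mul_le_mul_of_nonneg_left h7 (hε0 x).le]
  · have h5 : gt x = S.g x := gb_cut_far hRpos S.g φ f (by linarith)
    simp only [hg']
    rw [h5, hG.g_far x (by linarith), smul_smul, ← Real.exp_add, ← Real.exp_mul]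
    congr 2
    have h6 : (n : ℝ) - 2 ≠ 0 := by linarith
    have h7 : (n : ℝ) - 1 ≠ 0 := by linarith
    rw [hc, al]
    field_simp
    ring
  · have := (hU.tendsto (by linarith)).add_const 1
    simpa using this
  · refine integrable_finsetSum _ fun i _ => ?_
    simpa only [Bs.pd_sub_const] using hU.grad i
  · have hl : Integrable (lap S.ψ) := by
      have h1 : Integrable fun x : E n => (1 + ‖x‖) ^ (-((n : ℝ) + S.e0)) :=
        integrable_one_add_norm (by simp; linarith [hG.e0_pos])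
      refine (h1.const_mul S.C).mono' (Bs.contDiff_lap hG.ψ_smooth).continuous.aestronglyMeasurable
        (.of_forall fun x => ?_)
      have := hG.ψ_lap x
      rwa [neg_add, ← sub_eq_add_neg]
    have h5 := flux_exp_add (hz.const_mul (al n / 2)) hψ (by linarith) (by linarith)
      (c := ((n : ℝ) - 2) / 2) (by linarith) hl hG.mass
      (ε := ((n : ℝ) - 2) * unitSphereArea n * η / 2) (by
        simpa only [div_mul_eq_mul_div] using hflux)
    exact h5.mono (le_of_eq (by ring))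
  · have h5 := (hG.area.mono_metric_rpow (by linarith [h.hn]) hG.riem hconf.riem
      (Real.exp_pos _).le fun x _ v => hlo x v)
    refine (h5.mono_set fun x hx => ?_).mono_area (mul_le_mul_of_nonneg_right ?_ hA)
    · have h6 := h.est.inner x (le_trans hx h.ok.ra_gt.le)
      have h7 : S.t0 ≤ |e ^ 3 * f x| := le_abs'.2 (Or.inl (by linarith))
      simp only [mem_setOf_eq, hdd, be_one ht0 h7, mul_one, le_refl]
    · rw [← Real.exp_mul]
      have h6 : -(2 * c * S.θ) * (((n : ℝ) - 1) / 2) = -S.θ := by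
        linear_combination (-S.θ) * hcn
      rw [h6]
      linarith [Real.add_one_le_exp (-S.θ)]

end Crest.Agent.N346.P1.Out

namespace Crest.Agent.N346.P1

open Out

theorem out : OutStmt := by
  intro n hn S hS hA η _ hθη N
  have ht0 : 0 < S.t0 := hS.par_ok.t0_pos
  have hC := hS.good.C_ge
  obtain ⟨cβ, hcβ0, hcβ⟩ := exists_be_bound ht0
  set κ := S.t0 / (3 * cβ) with hκ
  have hκ0 : 0 < κ := by positivity
  set K := 3 * S.C + 8 / S.t0 ^ 2 + 1 + 2 / S.t0 with hK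
  have hK0 : 0 < K := by positivity
  refine ⟨2 * (3 * N + 3), fun ℓ0 => ⟨min (min (κ ^ 2) (1 / K)) (min (κ / max ℓ0 1) (1 / 2)),
    by positivity, fun e he he1 M z3 hz3 B f z hsol hf hz hest hgrad hflux => ?_⟩⟩
  simp only [le_min_iff] at he1
  obtain ⟨⟨h1, h2⟩, h3, h4⟩ := he1
  have he1 : e < 1 := by linarith
  set y := e⁻¹ with hy
  have hy1 : 1 ≤ y := (one_le_inv₀ he).2 he1.le
  have hΛ : (e ^ N)⁻¹ = y ^ N := by rw [hy, inv_pow]
  have hΛ1 : 1 ≤ (e ^ N)⁻¹ := hΛ ▸ one_le_pow₀ hy1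
  have hyK : K ≤ y := by
    rw [hy, le_inv_comm₀ hK0 he, ← one_div]; exact h2
  have hW : K * y ^ (3 * N + 2) ≤ (κ / e) ^ (2 * (3 * N + 3)) := by
    have h5 : y ≤ (κ / e) ^ 2 := by
      rw [div_pow, le_div_iff₀ (by positivity), hy, _root_.sq e, inv_mul_cancel_left₀ he.ne']
      exact h1
    rw [pow_mul]
    calc K * y ^ (3 * N + 2) ≤ y * y ^ (3 * N + 2) := by gcongr
      _ = y ^ (3 * N + 3) := by ring
      _ ≤ _ := by gcongr
  have p1 : (y ^ N) ^ 3 ≤ y ^ (3 * N + 2) := by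
    rw [← pow_mul]; exact pow_le_pow_right₀ hy1 (by omega)
  have p2 : y ^ N ≤ y ^ (3 * N + 2) := pow_le_pow_right₀ hy1 (by omega)
  have p3 : y ^ N * y ^ 2 ≤ y ^ (3 * N + 2) := by
    rw [← pow_add]; exact pow_le_pow_right₀ hy1 (by omega)
  have p0 : 0 < y ^ (3 * N + 2) := by positivity
  have q1 : 0 < 8 / S.t0 ^ 2 := by positivity
  have q2 : 0 < 2 / S.t0 := by positivity
  refine ⟨κ / e, ?_, neck_core ⟨hn, hS, he, he1, hΛ1, hz3, hsol, hf, hz, hest⟩ hA hθη hgrad hflux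
    hκ0 hcβ ?_ (le_trans ?_ hW) (le_trans ?_ hW) (le_trans ?_ hW)⟩
  · rw [ge_iff_le, le_div_iff₀ he]
    rw [le_div_iff₀ (by positivity)] at h3
    nlinarith [le_max_left ℓ0 1]
  · have : κ * cβ = S.t0 / 3 := by rw [hκ]; field_simp
    rw [this]
    nlinarith
  · rw [hΛ]
    exact mul_le_mul (by linarith) p1 (by positivity) hK0.le
  · rw [hΛ, mul_div_right_comm]
    exact mul_le_mul (by linarith) p2 (by positivity) hK0.le
  · have e1 : 2 * y ^ N / (S.t0 * e ^ 2) = 2 / S.t0 * (y ^ N * y ^ 2) := by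
      rw [hy]; field_simp
    rw [hΛ, e1, hK]
    nlinarith [mul_le_mul_of_nonneg_left p3 q2.le]

end Crest.Agent.N346.P1

end
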