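import Crest.Agent.N346.Sp.NormD
import Crest.Agent.N346.P2.Basic
import Crest.Agent.N346.Sp.Cont_Mg
import Crest.Agent.N346.Sp.Defs2
import Crest.Agent.N346.Sp.Kato
import Crest.Agent.N346.P2.ConcB
import Crest.Agent.N346.Sp.Fried_Mg
import Crest.Agent.N346.P2.ConcD
import Crest.Agent.N346.P2.Fields_Mg
import Crest.Agent.N346.P2.Var_Mg
import Crest.Agent.N346.P2.Zero
import Crest.Agent.N346.P2.NeckC_Mg
import Crest.Agent.N346.P1.Defs
import Crest.Agent.N346.Id.Jang2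
import Crest.Agent.N346.Basic2
import Crest.Agent.N346.Id.Conf

-- ▼ part N346/Sp/Uniq
section

/-!
# Row 346, spinor layer (helper85): square integrable weak solutions of the adjoint Callias
equation vanish.
-/

set_option autoImplicit false
open MeasureTheory Filter Topology Metric
open scoped ContDiff InnerProductSpace ENNReal
open Crest.GeometryTopology.CoordMetric
open Crest.MathPhysics.ExteriorData
open Crest.Agent.N346.Bs

noncomputable section

namespace Crest.Agent.N346.Sp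

variable {n : ℕ} {g : MetricField n} {S : Type} [NormedAddCommGroup S] [InnerProductSpace ℝ S]
  {c : Fin n → S →L[ℝ] S} {A : Fin n → E n → S →L[ℝ] S}

theorem int_sq_le3 {X : Type} [MeasurableSpace X] {ν : Measure X} {u v w f : X → S}
    (hu : MemLp u 2 ν) (hv : MemLp v 2 ν) (hw : MemLp w 2 ν) (hf : ∀ x, f x = u x + v x + w x) :
    ∫ x, ‖f x‖ ^ 2 ∂ν ≤ 3 * (∫ x, ‖u x‖ ^ 2 ∂ν + ∫ x, ‖v x‖ ^ 2 ∂ν + ∫ x, ‖w x‖ ^ 2 ∂ν) := by
  have mf : MemLp f 2 ν := by rw [funext hf]; exact (hu.add hv).add hw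
  refine (P2.HI.of (P2.int_normsq mf)).mono ((((P2.HI.of (P2.int_normsq hu)).add
    (.of (P2.int_normsq hv))).add (.of (P2.int_normsq hw))).cmul 3) fun x => ?_
  have h : ‖f x‖ ≤ ‖u x‖ + ‖v x‖ + ‖w x‖ := by rw [hf]; exact norm_add₃_le
  nlinarith [sq_nonneg (‖u x‖ - ‖v x‖), sq_nonneg (‖u x‖ - ‖w x‖), sq_nonneg (‖v x‖ - ‖w x‖),
    pow_le_pow_left₀ (norm_nonneg _) h 2]

theorem int_sq_le_mul {X : Type} [MeasurableSpace X] {ν : Measure X} {u f : X → S} {M : ℝ}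
    (hu : MemLp u 2 ν) (hf : ∀ x, ‖f x‖ ≤ M * ‖u x‖) :
    ∫ x, ‖f x‖ ^ 2 ∂ν ≤ M ^ 2 * ∫ x, ‖u x‖ ^ 2 ∂ν := by
  rw [← integral_const_mul]
  refine integral_mono_of_nonneg (.of_forall fun x => by positivity)
    ((P2.int_normsq hu).const_mul _) (.of_forall fun x => ?_)
  simpa only [mul_pow] using pow_le_pow_left₀ (norm_nonneg _) (hf x) 2

theorem aesm_cv {β : E n → E n} {ψ : E n → S} {ν : Measure (E n)} (hβ : AEStronglyMeasurable β ν)
    (hψ : AEStronglyMeasurable ψ ν) : AEStronglyMeasurable (fun x => cv c (β x) (ψ x)) ν :=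
  Finset.aestronglyMeasurable_fun_sum _ fun a _ =>
    ((EuclideanSpace.proj a : E n →L[ℝ] ℝ).continuous.comp_aestronglyMeasurable hβ).smul
      ((c a).continuous.comp_aestronglyMeasurable hψ)

theorem Tst.memLpN (hg : IsRiemannianOn g Set.univ) {ξ : E n → S} (h : Tst ξ) : MemLp ξ 2 (nu g) :=
  memLp_cs hg h.1.continuous h.2 2

theorem Tst.memLp_dir (hg : IsRiemannianOn g Set.univ) (hs : SpinData g c A) {ξ : E n → S}
    (h : Tst ξ) : MemLp (dir g c A ξ) 2 (nu g) :=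
  memLp_cs hg (hs.contDiff_dir hg h.1).continuous (hasCompactSupport_dir h.2) 2

/-- approximation of a cut off weak solution of `D Θ = s F Θ'` -/
theorem approx_weak [FiniteDimensional ℝ S] (hFr : FriedStmt) (hfr : P2.Fr g (fr g))
    (hs : SpinData g c A) : ∃ K : ℝ, ∀ (Θ h : E n → S), MemLp Θ 2 (nu g) → MemLp h 2 (nu g) →
    (∀ ξ, Tst ξ → ∫ x, ⟪Θ x, dir g c A ξ x⟫_ℝ ∂nu g = ∫ x, ⟪h x, ξ x⟫_ℝ ∂nu g) →
    ∀ r δ : ℝ, 0 ≤ r → 0 < δ → ∃ (ξ w : E n → S), Tst ξ ∧ MemLp w 2 (nu g) ∧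
      ∫ x, ‖ξ x - eta (r + δ⁻¹) x • Θ x‖ ^ 2 ∂nu g ≤ δ ∧
      ∫ x, ‖dir g c A ξ x - (eta (r + δ⁻¹) x • h x + w x)‖ ^ 2 ∂nu g ≤ δ ∧
      ∫ x, ‖w x‖ ^ 2 ∂nu g ≤ (K * δ) ^ 2 * ∫ x, ‖Θ x‖ ^ 2 ∂nu g := by
  obtain ⟨K, hK1, hK⟩ := hfr.exists_grad_bd
  obtain ⟨C, hC0, hC⟩ := exists_eta_grad n
  refine ⟨K * C, fun Θ h mΘ mh hw r δ hr hδ => ?_⟩
  have hR : 0 < r + δ⁻¹ := by positivity
  obtain ⟨ξ, h1, h2, h3⟩ := hFr n g hfr.riem S c A hs Θ h mΘ mh hw _ (contDiff_eta (r + δ⁻¹))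
    (hasCompactSupport_eta hR) δ hδ
  have hb : ∀ x, ‖cv c (P2.fgrad (fr g) (eta (r + δ⁻¹)) x) (Θ x)‖ ≤ K * C * δ * ‖Θ x‖ := fun x => by
    rw [hs.cl.norm_cv]
    refine mul_le_mul_of_nonneg_right ((hK _ x).1.trans ?_) (norm_nonneg _)
    rw [mul_assoc]
    refine mul_le_mul_of_nonneg_left ((hC _ hR x).trans ?_) (by linarith)
    rw [div_le_iff₀ hR, mul_assoc, mul_add, mul_inv_cancel₀ hδ.ne']
    nlinarith [mul_nonneg hC0 (mul_nonneg hδ.le hr)]
  refine ⟨ξ, fun x => cv c (P2.fgrad (fr g) (eta (r + δ⁻¹)) x) (Θ x), h1,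
    mΘ.of_le_mul (aesm_cv (hfr.continuous_fgrad (smooth_one (contDiff_eta _))).aestronglyMeasurable
      mΘ.1) (.of_forall hb), h2, ?_, int_sq_le_mul mΘ hb⟩
  simpa only [cv, fgrad_fr] using h3

theorem weak_zero [FiniteDimensional ℝ S] (hFr : FriedStmt) (hfr : P2.Fr g (fr g))
    (hs : SpinData g c A) {F : E n → ℝ} (bF : P2.Bd F)
    (hco : ∀ r : ℝ, ∃ K : ℝ, 0 ≤ K ∧ ∀ ξ₁ ξ₂ : E n → S, Tst ξ₁ → Tst ξ₂ →
      ∫ x in closedBall 0 r, (‖ξ₁ x‖ ^ 2 + ‖ξ₂ x‖ ^ 2) ∂nu g ≤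
        K * (∫ x, ‖dir g c A ξ₁ x + F x • ξ₂ x‖ ^ 2 ∂nu g +
          ∫ x, ‖-dir g c A ξ₂ x + F x • ξ₁ x‖ ^ 2 ∂nu g))
    {Θ₁ Θ₂ : E n → S} (m₁ : MemLp Θ₁ 2 (nu g)) (m₂ : MemLp Θ₂ 2 (nu g))
    (w₁ : ∀ ξ, Tst ξ → ∫ x, ⟪Θ₁ x, dir g c A ξ x⟫_ℝ ∂nu g = ∫ x, ⟪-(F x • Θ₂ x), ξ x⟫_ℝ ∂nu g)
    (w₂ : ∀ ξ, Tst ξ → ∫ x, ⟪Θ₂ x, dir g c A ξ x⟫_ℝ ∂nu g = ∫ x, ⟪F x • Θ₁ x, ξ x⟫_ℝ ∂nu g) :
    ∫ x, (‖Θ₁ x‖ ^ 2 + ‖Θ₂ x‖ ^ 2) ∂nu g ≤ 0 := by
  have hg := hfr.riem
  have hi : Integrable (fun x => ‖Θ₁ x‖ ^ 2 + ‖Θ₂ x‖ ^ 2) (nu g) :=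
    (P2.int_normsq m₁).add (P2.int_normsq m₂)
  obtain ⟨K, hK⟩ := approx_weak hFr hfr hs
  obtain ⟨M, hM⟩ := bF.2
  have n₁ : MemLp (fun x => -(F x • Θ₂ x)) 2 (nu g) := (bF.smul_memLp m₂).neg
  have n₂ : MemLp (fun x => F x • Θ₁ x) 2 (nu g) := bF.smul_memLp m₁
  have key : ∀ r : ℝ, 0 ≤ r →
      ∫ x in closedBall 0 r, (‖Θ₁ x‖ ^ 2 + ‖Θ₂ x‖ ^ 2) ∂nu g ≤ 0 := fun r hr => by
    obtain ⟨Z, hZ0, hZ⟩ := hco r
    set N₁ := ∫ x, ‖Θ₁ x‖ ^ 2 ∂nu g
    set N₂ := ∫ x, ‖Θ₂ x‖ ^ 2 ∂nu g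
    have hlim : Tendsto (fun δ : ℝ => 2 * (Z * (3 * (δ + M ^ 2 * δ + (K * δ) ^ 2 * N₁) +
        3 * (δ + M ^ 2 * δ + (K * δ) ^ 2 * N₂))) + 2 * (δ + δ)) (𝓝[>] 0) (𝓝 0) :=
      (Continuous.tendsto' (by fun_prop) 0 0 (by simp)).mono_left nhdsWithin_le_nhds
    refine ge_of_tendsto hlim (eventually_mem_nhdsWithin.mono fun δ (hδ : 0 < δ) => ?_)
    obtain ⟨ξ₁, v₁, t₁, mv₁, a₁, b₁, c₁⟩ := hK Θ₁ _ m₁ n₁ w₁ r δ hr hδ
    obtain ⟨ξ₂, v₂, t₂, mv₂, a₂, b₂, c₂⟩ := hK Θ₂ _ m₂ n₂ w₂ r δ hr hδ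
    set η : E n → ℝ := eta (r + δ⁻¹)
    have bη : P2.Bd η := ⟨(contDiff_eta _).continuous.measurable, 1, fun x => by
      rw [abs_of_nonneg (eta_nonneg _ x)]; exact eta_le_one _ x⟩
    have d₁ : MemLp (fun x => ξ₁ x - η x • Θ₁ x) 2 (nu g) := (t₁.memLpN hg).sub (bη.smul_memLp m₁)
    have d₂ : MemLp (fun x => ξ₂ x - η x • Θ₂ x) 2 (nu g) := (t₂.memLpN hg).sub (bη.smul_memLp m₂)
    have hF : ∀ {d : E n → S}, MemLp d 2 (nu g) → ∫ x, ‖d x‖ ^ 2 ∂nu g ≤ δ →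
        ∫ x, ‖F x • d x‖ ^ 2 ∂nu g ≤ M ^ 2 * δ := fun md hd =>
      (int_sq_le_mul md fun x => by
        rw [norm_smul]; exact mul_le_mul_of_nonneg_right (hM x) (norm_nonneg _)).trans
        (mul_le_mul_of_nonneg_left hd (sq_nonneg M))
    have e₁ := int_sq_le3 (f := fun x => dir g c A ξ₁ x + F x • ξ₂ x)
      ((t₁.memLp_dir hg hs).sub ((bη.smul_memLp n₁).add mv₁)) (bF.smul_memLp d₂) mv₁
      fun x => by simp only [Pi.sub_apply, Pi.add_apply]; module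
    have e₂ := int_sq_le3 (f := fun x => -dir g c A ξ₂ x + F x • ξ₁ x)
      ((t₂.memLp_dir hg hs).sub ((bη.smul_memLp n₂).add mv₂)).neg (bF.smul_memLp d₁) mv₂.neg
      fun x => by simp only [Pi.sub_apply, Pi.add_apply, Pi.neg_apply]; module
    simp only [Pi.sub_apply, Pi.add_apply, Pi.neg_apply, norm_neg] at e₁ e₂
    have e₃ := (hZ ξ₁ ξ₂ t₁ t₂).trans (mul_le_mul_of_nonneg_left (add_le_add
      (e₁.trans (mul_le_mul_of_nonneg_left (add_le_add (add_le_add b₁ (hF d₂ a₂)) c₁) (by norm_num)))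
      (e₂.trans (mul_le_mul_of_nonneg_left (add_le_add (add_le_add b₂ (hF d₁ a₁)) c₂)
        (by norm_num)))) hZ0)
    have i₁ : Integrable (fun x => ‖ξ₁ x‖ ^ 2 + ‖ξ₂ x‖ ^ 2) (nu g) :=
      (P2.int_normsq (t₁.memLpN hg)).add (P2.int_normsq (t₂.memLpN hg))
    have i₂ : Integrable (fun x => ‖ξ₁ x - η x • Θ₁ x‖ ^ 2 + ‖ξ₂ x - η x • Θ₂ x‖ ^ 2) (nu g) :=
      (P2.int_normsq d₁).add (P2.int_normsq d₂)
    have e₄ : ∫ x in closedBall 0 r, (‖ξ₁ x - η x • Θ₁ x‖ ^ 2 + ‖ξ₂ x - η x • Θ₂ x‖ ^ 2) ∂nu g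
        ≤ δ + δ := by
      refine (setIntegral_le_integral i₂ (.of_forall fun x => by positivity)).trans ?_
      rw [integral_add (P2.int_normsq d₁) (P2.int_normsq d₂)]
      exact add_le_add a₁ a₂
    refine le_trans ?_ (add_le_add (mul_le_mul_of_nonneg_left e₃ zero_le_two)
      (mul_le_mul_of_nonneg_left e₄ zero_le_two))
    rw [← integral_const_mul, ← integral_const_mul,
      ← integral_add (i₁.integrableOn.const_mul 2) (i₂.integrableOn.const_mul 2)]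
    refine setIntegral_mono_on hi.integrableOn
      ((i₁.const_mul 2).add (i₂.const_mul 2)).integrableOn measurableSet_closedBall fun x hx => ?_
    have h1 : η x = 1 := eta_eq_one (by positivity)
      ((mem_closedBall_zero_iff.1 hx).trans (le_add_of_nonneg_right (by positivity)))
    have h2 : ∀ u v : S, ‖v‖ ^ 2 ≤ 2 * ‖u‖ ^ 2 + 2 * ‖u - v‖ ^ 2 := fun u v => by
      have : ‖v‖ ≤ ‖u‖ + ‖u - v‖ := by simpa using norm_sub_le u (u - v)
      nlinarith [pow_le_pow_left₀ (norm_nonneg _) this 2, sq_nonneg (‖u‖ - ‖u - v‖)]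
    simp only [h1, one_smul]
    linarith [h2 (ξ₁ x) (Θ₁ x), h2 (ξ₂ x) (Θ₂ x)]
  have hlim := tendsto_setIntegral_of_monotone (μ := nu g)
    (f := fun x => ‖Θ₁ x‖ ^ 2 + ‖Θ₂ x‖ ^ 2) (s := fun k : ℕ => closedBall (0 : E n) k)
    (fun _ => measurableSet_closedBall)
    (fun i j hij => closedBall_subset_closedBall (Nat.cast_le.2 hij)) hi.integrableOn
  rw [iUnion_closedBall_nat, Measure.restrict_univ] at hlim
  exact le_of_tendsto' hlim fun k => key k k.cast_nonneg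

end Crest.Agent.N346.Sp
end
end

-- ▼ part N346/Sp/Final
section

/-!
# Row 346, spinor layer (helper85): assembly of `SPStmt`.
-/

set_option autoImplicit false
open MeasureTheory Filter Topology Metric
open scoped ContDiff InnerProductSpace ENNReal
open Crest.GeometryTopology.CoordMetric
open Crest.MathPhysics.ExteriorData
open Crest.Agent.N346.Bs

noncomputable section

namespace Crest.Agent.N346.Sp

section abstract
variable {X : Type} [MeasurableSpace X] {V : Type} [NormedAddCommGroup V] [InnerProductSpace ℝ V]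
  {ν : Measure X}

/-- `K_τ` is a quadratic polynomial in `τ`. -/
theorem Kf_poly {𝒟 : P2.DClass ν V} {ρ F Y₁ Y₂ : X → ℝ} {dF β₁ β₂ G₁ G₂ : X → V} {t : ℝ}
    (bF : P2.Bd F) (iF : Integrable F ν) (idF : Integrable dF ν) (m₁ : MemLp β₁ 2 ν)
    (m₂ : MemLp β₂ 2 ν) (h : P2.IsPair 𝒟 ρ t Y₁ Y₂ G₁ G₂) (a : ℝ) : ∃ p q : ℝ, ∀ τ : ℝ,
    P2.Kf ν a τ ρ F dF β₁ β₂ Y₁ Y₂ G₁ G₂ = p + a * (τ * q - τ ^ 2 *
      ∫ x, (‖β₁ x‖ ^ 2 * Y₁ x ^ 2 + ‖β₂ x‖ ^ 2 * Y₂ x ^ 2) ∂ν) := by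
  have b₁ := P2.DClass.bd h.d₁
  have b₂ := P2.DClass.bd h.d₂
  have g₁ := 𝒟.memG h.d₁
  have g₂ := 𝒟.memG h.d₂
  have hP := P2.HI.of (((((P2.int_normsq g₁).add (P2.int_normsq g₂)).add h.int).add
    ((bF.mul (b₁.sq.add b₂.sq)).int iF)).sub (((b₁.mul b₂).cmul 2).int idF.norm))
  have hQ := P2.HI.of (((b₁.cmul 2).int (P2.int_inner m₁ g₁)).add
    ((b₂.cmul 2).int (P2.int_inner m₂ g₂)))
  have hB : P2.HI ν (fun x => ‖β₁ x‖ ^ 2 * Y₁ x ^ 2 + ‖β₂ x‖ ^ 2 * Y₂ x ^ 2) _ :=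
    .of (((b₁.sq.int (P2.int_normsq m₁)).add (b₂.sq.int (P2.int_normsq m₂))).congr
      (.of_forall fun x => by simp only [Pi.add_apply]; ring))
  refine ⟨_, _, fun τ => ((hP.add (((hQ.cmul τ).sub (hB.cmul (τ ^ 2))).cmul a)).congr
    fun x => ?_).2⟩
  simp only [Pi.add_apply, Pi.sub_apply]
  ring

variable {W T : Type} [NormedAddCommGroup W] [InnerProductSpace ℝ W] [AddCommGroup T] [Module ℝ T]

/-- a linear map with square integrable values as a map into `L²` -/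
def toL2 (Φ : T →ₗ[ℝ] X → W) (h : ∀ ξ, MemLp (Φ ξ) 2 ν) : T →ₗ[ℝ] Lp W 2 ν where
  toFun ξ := (h ξ).toLp
  map_add' ξ ζ := by
    rw [← MemLp.toLp_add]
    exact MemLp.toLp_congr _ _ (.of_eq (map_add Φ ξ ζ))
  map_smul' r ξ := by
    rw [RingHom.id_apply, ← MemLp.toLp_const_smul]
    exact MemLp.toLp_congr _ _ (.of_eq (map_smul Φ r ξ))

theorem toL2_apply (Φ : T →ₗ[ℝ] X → W) (h : ∀ ξ, MemLp (Φ ξ) 2 ν) (ξ : T) :
    toL2 Φ h ξ = (h ξ).toLp := rfl

/-- pairs of square integrable functions -/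
theorem memLp_pair {u v : X → W} (hu : MemLp u 2 ν) (hv : MemLp v 2 ν) :
    MemLp (fun x => WithLp.toLp 2 (u x, v x)) 2 ν :=
  ((WithLp.prodContinuousLinearEquiv 2 ℝ W W).symm : W × W →L[ℝ] WithLp 2 (W × W)).comp_memLp'
    (memLp_prod_iff.2 ⟨hu, hv⟩)

theorem norm_pair {u v : X → W} (hu : MemLp u 2 ν) (hv : MemLp v 2 ν) :
    ‖(memLp_pair hu hv).toLp‖ ^ 2 = ∫ x, ‖u x‖ ^ 2 ∂ν + ∫ x, ‖v x‖ ^ 2 ∂ν := by
  rw [P2.L2T.norm_toLp_sq, ← integral_add (P2.int_normsq hu) (P2.int_normsq hv)]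
  simp only [WithLp.prod_norm_sq_eq_of_L2]
  rfl

end abstract

variable {n : ℕ} {g : MetricField n} {S : Type} [NormedAddCommGroup S] [InnerProductSpace ℝ S]
  {c : Fin n → S →L[ℝ] S} {A : Fin n → E n → S →L[ℝ] S}

/-- the space of test spinors -/
def TS (n : ℕ) (S : Type) [NormedAddCommGroup S] [InnerProductSpace ℝ S] :
    Submodule ℝ (E n → S) where
  carrier := {ξ | Tst ξ}
  add_mem' {_ _} hξ hζ := ⟨hξ.1.add hζ.1, hξ.2.add hζ.2⟩
  zero_mem' := ⟨contDiff_const, .zero⟩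
  smul_mem' r _ hξ := ⟨hξ.1.const_smul r, hξ.2.smul_left (f := fun _ => r)⟩

theorem TS.diff (ξ : TS n S) (x : E n) : DifferentiableAt ℝ ξ.1 x :=
  ξ.2.1.differentiable (by simp) x

/-- the Callias operator at `τ = 0` -/
def opL (g : MetricField n) (c : Fin n → S →L[ℝ] S) (A : Fin n → E n → S →L[ℝ] S) (F : E n → ℝ) :
    TS n S × TS n S →ₗ[ℝ] E n → WithLp 2 (S × S) where
  toFun ξ x := WithLp.toLp 2
    (dir g c A ξ.1.1 x + F x • ξ.2.1 x, -dir g c A ξ.2.1 x + F x • ξ.1.1 x)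
  map_add' ξ ζ := by
    funext x
    have h1 := dir_add (g := g) (c := c) (A := A) (TS.diff ξ.1 x) (TS.diff ζ.1 x)
    have h2 := dir_add (g := g) (c := c) (A := A) (TS.diff ξ.2 x) (TS.diff ζ.2 x)
    rw [Pi.add_apply, ← WithLp.toLp_add, Prod.mk_add_mk]
    congr 2
    · exact (congrArg (· + F x • (ξ.2.1 x + ζ.2.1 x)) h1).trans (by module)
    · exact (congrArg (-· + F x • (ξ.1.1 x + ζ.1.1 x)) h2).trans (by module)
  map_smul' r ξ := by
    funext x
    have h1 := dir_smul (g := g) (c := c) (A := A) r (TS.diff ξ.1 x)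
    have h2 := dir_smul (g := g) (c := c) (A := A) r (TS.diff ξ.2 x)
    rw [RingHom.id_apply, Pi.smul_apply, ← WithLp.toLp_smul, Prod.smul_mk]
    congr 2
    · exact (congrArg (· + F x • (r • ξ.2.1 x)) h1).trans (by module)
    · exact (congrArg (-· + F x • (r • ξ.1.1 x)) h2).trans (by module)

/-- the zeroth order perturbation -/
def opB (c : Fin n → S →L[ℝ] S) (a : ℝ) (β₁ β₂ : E n → E n) :
    TS n S × TS n S →ₗ[ℝ] E n → WithLp 2 (S × S) where
  toFun ξ x := WithLp.toLp 2 (a • cv c (β₁ x) (ξ.1.1 x), -(a • cv c (β₂ x) (ξ.2.1 x)))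
  map_add' ξ ζ := by
    funext x
    rw [Pi.add_apply, ← WithLp.toLp_add, Prod.mk_add_mk]
    congr 2
    · exact (congrArg (a • ·) (cv_add_right c _ _ _)).trans (by module)
    · exact (congrArg (fun u => -(a • u)) (cv_add_right c _ _ _)).trans (by module)
  map_smul' r ξ := by
    funext x
    rw [RingHom.id_apply, Pi.smul_apply, ← WithLp.toLp_smul, Prod.smul_mk]
    congr 2
    · exact (congrArg (a • ·) (cv_smul_right c _ _ _)).trans (by module)
    · exact (congrArg (fun u => -(a • u)) (cv_smul_right c _ _ _)).trans (by module)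

theorem Tst.memLp_cv (hc : Cl c) {ξ : E n → S} (h : Tst ξ) {β : E n → E n} {ν : Measure (E n)}
    (hβ : MemLp β 2 ν) : MemLp (fun x => cv c (β x) (ξ x)) 2 ν := by
  obtain ⟨M, hM⟩ := h.1.continuous.bounded_above_of_compact_support h.2
  refine hβ.of_le_mul (c := M) (aesm_cv hβ.1 h.1.continuous.aestronglyMeasurable)
    (.of_forall fun x => ?_)
  rw [hc.norm_cv, mul_comm]
  exact mul_le_mul_of_nonneg_right (hM x) (norm_nonneg _)

/-- the constant of the coercivity hypothesis is positive -/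
theorem pos_const (hn : 3 ≤ n) (hSob : P2.SobStmt) {U : E n → ℝ} {μ : ℝ} (hE : P2.EndD n g U μ)
    {𝒟 : P2.DClass (P2.nu g) (E n)} (h𝒟 : 𝒟.D = P2.DD g (fr g)) {F : E n → ℝ}
    {dF β₁ β₂ : E n → E n} {a C : ℝ} (m₁ : MemLp β₁ 2 (nu g))
    (h0 : ∀ Y₁ Y₂ G₁ G₂, P2.IsPair 𝒟 (fun x => scalarCurv g x / 4) 0 Y₁ Y₂ G₁ G₂ →
      ∫ x, (‖G₁ x‖ ^ 2 + ‖G₂ x‖ ^ 2 + ‖β₁ x‖ ^ 2 * Y₁ x ^ 2 + ‖β₂ x‖ ^ 2 * Y₂ x ^ 2) ∂nu g
        ≤ C * P2.Kf (nu g) a 0 (fun x => scalarCurv g x / 4) F dF β₁ β₂ Y₁ Y₂ G₁ G₂)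
    (hR : Integrable (fun x => scalarCurv g x / 4) (nu g)) : 0 < C := by
  by_contra hC
  have hfr := fr_Fr hE
  obtain ⟨R, hRf⟩ := hE.R_far
  have : Nontrivial (E n) := by
    have : Nonempty (Fin n) := ⟨⟨0, by omega⟩⟩
    infer_instance
  obtain ⟨x₀, hx₀⟩ := exists_norm_eq (E n) (show 0 ≤ |R| + 2 by positivity)
  let χ : ContDiffBump x₀ := ⟨1, 2, one_pos, one_lt_two⟩
  have hχ : P2.DD g (fr g) χ 0 (P2.fgrad (fr g) χ) :=
    .of_contDiff hfr χ.contDiff (by simpa using χ.hasCompactSupport)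
  have bχ : P2.Bd χ := ⟨hχ.meas, hχ.bdd⟩
  have hp : P2.IsPair 𝒟 (fun x => scalarCurv g x / 4) 0 χ (fun _ => 0) (P2.fgrad (fr g) χ)
      fun _ => 0 :=
    ⟨h𝒟 ▸ hχ, 𝒟.const 0, fun _ => χ.nonneg, fun _ => le_rfl,
      ((bχ.sq.add (P2.Bd.const 0).sq).int hR).congr (.of_forall fun x => mul_comm _ _)⟩
  have h1 := h0 _ _ _ _ hp
  have h2 : 0 ≤ P2.Kf (nu g) a 0 (fun x => scalarCurv g x / 4) F dF β₁ β₂ χ (fun _ => 0)
      (P2.fgrad (fr g) χ) fun _ => 0 := integral_nonneg fun x => by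
    have : 0 ≤ scalarCurv g x / 4 * χ x ^ 2 := by
      by_cases hx : 2 ≤ dist x x₀
      · rw [χ.zero_of_le_dist hx]; simp
      · have h3 := abs_norm_sub_norm_le x₀ x
        rw [← dist_eq_norm, dist_comm, hx₀] at h3
        have h4 := hRf x (by linarith [le_abs_self R, le_abs_self (|R| + 2 - ‖x‖)])
        positivity
    simp only [Pi.zero_apply]
    nlinarith [sq_nonneg ‖P2.fgrad (fr g) χ x‖, sq_nonneg (F x * χ x)]
  have h3 : ∫ x, ‖P2.fgrad (fr g) χ x‖ ^ 2 ∂nu g ≤ 0 := by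
    refine le_trans ?_ (h1.trans (mul_nonpos_of_nonpos_of_nonneg (not_lt.1 hC) h2))
    refine integral_mono (P2.int_normsq hχ.memG) (((P2.int_normsq hχ.memG).add
      (bχ.sq.int (P2.int_normsq m₁))).congr (.of_forall fun x => ?_)) fun x => ?_
    · simp only [Pi.add_apply]; simp [mul_comm]
    · simp only [norm_zero]; nlinarith [sq_nonneg (‖β₁ x‖ * χ x)]
  have : IsLocallyFiniteMeasure (P2.nu g) := P2.isLocallyFinite_nu hE.riem
  have hfin : P2.nu g (closedBall x₀ 1) ≠ ⊤ := (isCompact_closedBall x₀ 1).measure_lt_top.ne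
  obtain ⟨Z, hZ0, hZ⟩ := hSob n hn g _ hfr (P2.nu g (closedBall x₀ 1)).toReal
  have h4 := (hZ _ _ _ hχ measurableSet_closedBall (ENNReal.ofReal_toReal hfin).ge).trans
    (mul_nonpos_of_nonneg_of_nonpos hZ0 h3)
  rw [setIntegral_congr_fun measurableSet_closedBall (g := fun _ => (1 : ℝ))
    fun x hx => by simp [χ.one_of_mem_closedBall hx]] at h4
  have h5 : P2.nu g (closedBall x₀ 1) ≠ 0 := fun h =>
    (measure_closedBall_pos volume x₀ one_pos).ne' (P2.ac_nu hE.riem h)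
  have := ENNReal.toReal_pos h5 hfin
  simp only [integral_const, smul_eq_mul, mul_one, Measure.real, Measure.restrict_apply_univ] at h4
  linarith

theorem sp_of (hFr : FriedStmt) (hEn : EnergyStmt) (hW : WitStmt) (hSob : P2.SobStmt) :
    P2.SPStmt := by
  intro n hn g U μ hE
  have hfr := fr_Fr hE
  have hg := hE.riem
  refine ⟨fr g, hfr, fun 𝒟 h𝒟 F dF β₁ β₂ hF _ iF idF m₁ m₂ hβ ⟨C, h0⟩ h1 η hη => ?_⟩
  obtain ⟨S, _, _, _, _, c, A, hs⟩ := exist n g hg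
  obtain ⟨ψ₀, hψ₀⟩ := exists_norm_eq S zero_le_one
  have hR : Integrable (fun x => scalarCurv g x / 4) (nu g) :=
    (hW n hn g U μ hE S c A hs ψ₀ hψ₀).1.div_const 4
  have hC : 0 < C := pos_const hn hSob hE h𝒟 m₁ h0 hR
  have bF := P2.DClass.bd hF
  have ha : 0 < P2.aa n := by
    have : (3 : ℝ) ≤ n := by exact_mod_cast hn
    exact one_div_pos.2 (by linarith)
  have hen := hEn n hn g U μ hE S c A hs F dF β₁ β₂ (h𝒟 ▸ hF) iF m₁ m₂ hβ
  have hN : ∀ ξ : E n → S, Tst ξ → 𝒟.D (fun x => ‖ξ x‖) 0 (gnorm g A ξ) := fun ξ hξ => by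
    simpa only [zero_add, norm_zero, h𝒟] using normD n g hg S c A hs 0 ξ hξ
  -- pairs of test spinors
  have hp : ∀ ξ₁ ξ₂ : E n → S, Tst ξ₁ → Tst ξ₂ → P2.IsPair 𝒟 (fun x => scalarCurv g x / 4) 0
      (fun x => ‖ξ₁ x‖) (fun x => ‖ξ₂ x‖) (gnorm g A ξ₁) (gnorm g A ξ₂) := fun ξ₁ ξ₂ t₁ t₂ =>
    ⟨hN _ t₁, hN _ t₂, fun _ => norm_nonneg _, fun _ => norm_nonneg _, by
      simpa only [zero_add, nu_eq] using (hen 0 0 (.inl rfl) ξ₁ ξ₂ t₁ t₂).2.2.1⟩
  have mL : ∀ ξ, MemLp (opL g c A F ξ) 2 (nu g) := fun ξ => memLp_pair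
    ((Tst.memLp_dir hg hs ξ.1.2).add (bF.smul_memLp (Tst.memLpN hg ξ.2.2)))
    ((Tst.memLp_dir hg hs ξ.2.2).neg.add (bF.smul_memLp (Tst.memLpN hg ξ.1.2)))
  have mB₁ : ∀ ξ : TS n S, MemLp (fun x => P2.aa n • cv c (β₁ x) (ξ.1 x)) 2 (nu g) := fun ξ =>
    (Tst.memLp_cv hs.cl ξ.2 m₁).const_smul _
  have mB₂ : ∀ ξ : TS n S, MemLp (fun x => -(P2.aa n • cv c (β₂ x) (ξ.1 x))) 2 (nu g) := fun ξ =>
    ((Tst.memLp_cv hs.cl ξ.2 m₂).const_smul _).neg
  have mB : ∀ ξ, MemLp (opB c (P2.aa n) β₁ β₂ ξ) 2 (nu g) := fun ξ => memLp_pair (mB₁ ξ.1) (mB₂ ξ.2)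
  have hK : ∀ (τ : ℝ) (ξ : TS n S × TS n S),
      P2.Kf (nu g) (P2.aa n) τ (fun x => scalarCurv g x / 4) F dF β₁ β₂ (fun x => ‖ξ.1.1 x‖)
        (fun x => ‖ξ.2.1 x‖) (gnorm g A ξ.1.1) (gnorm g A ξ.2.1) ≤
      ‖toL2 _ mL ξ + τ • toL2 _ mB ξ‖ ^ 2 := fun τ ξ => by
    obtain ⟨k₁, k₂, -, k₃⟩ := hen τ 0 (.inl rfl) _ _ ξ.1.2 ξ.2.2
    simp only [zero_add, norm_zero] at k₁ k₂ k₃
    rw [← norm_pair k₁ k₂, zero_pow two_ne_zero, zero_mul, add_zero] at k₃
    refine k₃.trans (le_of_eq ?_)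
    rw [toL2_apply, toL2_apply, ← MemLp.toLp_const_smul, ← MemLp.toLp_add]
    congr 2
    refine MemLp.toLp_congr _ _ (.of_forall fun x => ?_)
    simp only [Pi.add_apply, Pi.smul_apply, opL, opB, LinearMap.coe_mk, AddHom.coe_mk,
      ← WithLp.toLp_smul, ← WithLp.toLp_add, Prod.smul_mk, Prod.mk_add_mk, cal₁, cal₂]
    congr 2 <;> module
  have t0 : Tst (fun _ : E n => (0 : S)) := (TS n S).zero_mem
  obtain ⟨y₁, y₂, -, -⟩ := hen 1 ψ₀ (.inr hψ₀) _ _ t0 t0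
  refine (cont _ _ (toL2 _ mL) (toL2 _ mB) (P2.aa n ^ 2 * C) (fun τ hτ ξ => ?_)
    (fun Θ hΘ => ?_) (memLp_pair y₁ y₂).toLp _ (Real.sqrt_pos.2 hη)).elim fun ξ hξ => ?_
  rotate_right
  · obtain ⟨k₁, k₂, k₃, k₄⟩ := hen 1 ψ₀ (.inr hψ₀) _ _ ξ.1.2 ξ.2.2
    refine ⟨_, _, _, _, ⟨?_, hN _ ξ.2.2, fun _ => norm_nonneg _, fun _ => norm_nonneg _, k₃⟩,
      k₄.trans ?_⟩
    · simpa only [hψ₀, h𝒟] using normD n g hg S c A hs ψ₀ _ ξ.1.2
    · have e : (memLp_pair k₁ k₂).toLp = (memLp_pair y₁ y₂).toLp +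
          (toL2 _ mL ξ + toL2 _ mB ξ) := by
        rw [toL2_apply, toL2_apply, ← MemLp.toLp_add, ← MemLp.toLp_add]
        refine MemLp.toLp_congr _ _ (.of_forall fun x => ?_)
        have d1 := dir_add (g := g) (c := c) (A := A) (differentiableAt_const (x := x) ψ₀)
          (TS.diff ξ.1 x)
        have d0 : dir g c A (fun _ => (0 : S)) x = 0 := dir_of_notMem (by simp)
        simp only [Pi.add_apply, opL, opB, LinearMap.coe_mk, AddHom.coe_mk, ← WithLp.toLp_add,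
          Prod.mk_add_mk, cal₁, cal₂, add_zero, d1, d0, cv_add_right, one_mul]
        have z : cv c (β₂ x) (0 : S) = 0 := by simp [cv]
        rw [z]
        congr 2 <;> module
      rw [← norm_pair k₁ k₂, e, hψ₀]
      have := pow_le_pow_left₀ (norm_nonneg _) hξ 2
      rw [Real.sq_sqrt hη.le] at this
      linarith
  · have hq := hp _ _ ξ.1.2 ξ.2.2
    obtain ⟨p, q, hpq⟩ := Kf_poly bF iF idF m₁ m₂ hq (P2.aa n)
    have b₁ := P2.DClass.bd hq.d₁
    have b₂ := P2.DClass.bd hq.d₂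
    have iB : Integrable (fun x => ‖β₁ x‖ ^ 2 * ‖ξ.1.1 x‖ ^ 2 + ‖β₂ x‖ ^ 2 * ‖ξ.2.1 x‖ ^ 2)
        (nu g) := ((b₁.sq.int (P2.int_normsq m₁)).add (b₂.sq.int (P2.int_normsq m₂))).congr
      (.of_forall fun x => by simp only [Pi.add_apply]; ring)
    have e0 := h0 _ _ _ _ hq
    have e1 := h1 _ _ _ _ hq
    have eτ := (hpq τ).symm.trans_le (hK τ ξ)
    rw [hpq] at e0 e1
    set b := ∫ x, (‖β₁ x‖ ^ 2 * ‖ξ.1.1 x‖ ^ 2 + ‖β₂ x‖ ^ 2 * ‖ξ.2.1 x‖ ^ 2) ∂P2.nu g with hb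
    have hb0 : 0 ≤ b := integral_nonneg fun x => by positivity
    have e2 : b ≤ C * p := by
      refine le_trans (integral_mono iB ((((P2.int_normsq (𝒟.memG hq.d₁)).add
        (P2.int_normsq (𝒟.memG hq.d₂))).add iB).congr (.of_forall fun x => ?_)) fun x => ?_)
        (e0.trans (le_of_eq (by ring)))
      · simp only [Pi.add_apply]; ring
      · nlinarith [sq_nonneg ‖gnorm g A ξ.1.1 x‖, sq_nonneg ‖gnorm g A ξ.2.1 x‖]
    have e3 : ‖toL2 _ mB ξ‖ ^ 2 = P2.aa n ^ 2 * b := by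
      rw [toL2_apply, P2.L2T.norm_toLp_sq, hb, ← integral_const_mul]
      refine integral_congr_ae (.of_forall fun x => ?_)
      simp only [opB, LinearMap.coe_mk, AddHom.coe_mk, WithLp.prod_norm_sq_eq_of_L2,
        WithLp.toLp_fst, WithLp.toLp_snd, norm_neg, norm_smul, hs.cl.norm_cv, Real.norm_eq_abs,
        mul_pow, sq_abs]
      ring
    have e4 : (1 - τ) * p ≤ ‖toL2 _ mL ξ + τ • toL2 _ mB ξ‖ ^ 2 := by
      refine le_trans ?_ eτ
      nlinarith [mul_nonneg hτ.1 e1, mul_nonneg (mul_nonneg ha.le hb0)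
        (mul_nonneg hτ.1 (sub_nonneg.2 hτ.2))]
    rw [e3]
    nlinarith [mul_le_mul_of_nonneg_left e4 (mul_nonneg (sq_nonneg (P2.aa n)) hC.le),
      mul_le_mul_of_nonneg_left e2 (mul_nonneg (sq_nonneg (P2.aa n)) (sub_nonneg.2 hτ.2))]
  · have mΘ := Lp.memLp Θ
    have m1 : MemLp (fun x => (Θ x).fst) 2 (nu g) :=
      (WithLp.fstL 2 ℝ S S).comp_memLp' mΘ
    have m2 : MemLp (fun x => (Θ x).snd) 2 (nu g) :=
      (WithLp.sndL 2 ℝ S S).comp_memLp' mΘ
    have hw : ∀ ξ : TS n S × TS n S, ∫ x, (⟪(Θ x).fst, dir g c A ξ.1.1 x + F x • ξ.2.1 x⟫_ℝ +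
        ⟪(Θ x).snd, -dir g c A ξ.2.1 x + F x • ξ.1.1 x⟫_ℝ) ∂nu g = 0 := fun ξ => by
      rw [← hΘ ξ, toL2_apply, ← Lp.toLp_coeFn Θ mΘ, P2.L2T.inner_toLp, Lp.toLp_coeFn]
      rfl
    have d0 : ∀ x, dir g c A (0 : E n → S) x = 0 := fun x => dir_of_notMem (by simp)
    have key := weak_zero hFr hfr hs bF (fun r => ?_) m1 m2 (fun ξ hξ => ?_) fun ξ hξ => ?_
    · rw [← norm_eq_zero, ← pow_eq_zero_iff two_ne_zero, ← Lp.toLp_coeFn Θ mΘ,
        P2.L2T.norm_toLp_sq]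
      refine le_antisymm ?_ (integral_nonneg fun x => by positivity)
      simpa only [WithLp.prod_norm_sq_eq_of_L2] using key
    · have : IsLocallyFiniteMeasure (P2.nu g) := P2.isLocallyFinite_nu hg
      have hfin : P2.nu g (closedBall 0 r) ≠ ⊤ := (isCompact_closedBall _ r).measure_lt_top.ne
      obtain ⟨Z, hZ0, hZ⟩ := hSob n hn g _ hfr (P2.nu g (closedBall 0 r)).toReal
      refine ⟨Z * C, by positivity, fun ξ₁ ξ₂ t₁ t₂ => ?_⟩
      have hq := hp _ _ t₁ t₂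
      have z₁ := hZ _ _ _ (h𝒟 ▸ hq.d₁) measurableSet_closedBall (ENNReal.ofReal_toReal hfin).ge
      have z₂ := hZ _ _ _ (h𝒟 ▸ hq.d₂) measurableSet_closedBall (ENNReal.ofReal_toReal hfin).ge
      have g₁ := P2.int_normsq (𝒟.memG hq.d₁)
      have g₂ := P2.int_normsq (𝒟.memG hq.d₂)
      have e0 : ∫ x, ‖gnorm g A ξ₁ x‖ ^ 2 ∂P2.nu g + ∫ x, ‖gnorm g A ξ₂ x‖ ^ 2 ∂P2.nu g ≤
          C * P2.Kf (P2.nu g) (P2.aa n) 0 (fun x => scalarCurv g x / 4) F dF β₁ β₂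
            (fun x => ‖ξ₁ x‖) (fun x => ‖ξ₂ x‖) (gnorm g A ξ₁) (gnorm g A ξ₂) := by
        rw [← integral_add g₁ g₂]
        refine le_trans (integral_mono (g₁.add g₂) ((((g₁.add g₂).add
          ((P2.DClass.bd hq.d₁).sq.int (P2.int_normsq m₁))).add
          ((P2.DClass.bd hq.d₂).sq.int (P2.int_normsq m₂))).congr (.of_forall fun x => ?_))
          fun x => ?_) (h0 _ _ _ _ hq)
        · simp only [Pi.add_apply]; ring
        · nlinarith [sq_nonneg (‖β₁ x‖ * ‖ξ₁ x‖), sq_nonneg (‖β₂ x‖ * ‖ξ₂ x‖)]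
      have e1 := hK 0 (⟨ξ₁, t₁⟩, ⟨ξ₂, t₂⟩)
      rw [zero_smul, add_zero, toL2_apply] at e1
      have e2 := e1.trans (norm_pair
        ((t₁.memLp_dir hg hs).add (bF.smul_memLp (t₂.memLpN hg)))
        ((t₂.memLp_dir hg hs).neg.add (bF.smul_memLp (t₁.memLpN hg)))).le
      rw [integral_add (P2.int_normsq (t₁.memLpN hg)).integrableOn
        (P2.int_normsq (t₂.memLpN hg)).integrableOn, mul_assoc]
      refine (add_le_add z₁ z₂).trans ?_
      rw [← mul_add]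
      exact mul_le_mul_of_nonneg_left (e0.trans (mul_le_mul_of_nonneg_left e2 hC.le)) hZ0
    · have h := hw (⟨ξ, hξ⟩, 0)
      simp only [ZeroMemClass.coe_zero, Pi.zero_apply, smul_zero, add_zero, d0, neg_zero,
        zero_add] at h
      rw [integral_add (P2.int_inner m1 (hξ.memLp_dir hg hs))
        (P2.int_inner m2 (bF.smul_memLp (hξ.memLpN hg)))] at h
      simp only [inner_neg_left, integral_neg, real_inner_smul_left]
      simp only [real_inner_smul_right] at h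
      linarith
    · have h := hw (0, ⟨ξ, hξ⟩)
      simp only [ZeroMemClass.coe_zero, Pi.zero_apply, smul_zero, add_zero, d0, zero_add] at h
      rw [integral_add (P2.int_inner m1 (bF.smul_memLp (hξ.memLpN hg)))
        (P2.int_inner (H := fun x => -dir g c A ξ x) m2 (hξ.memLp_dir hg hs).neg)] at h
      simp only [real_inner_smul_left]
      simp only [real_inner_smul_right, inner_neg_right, integral_neg] at h
      linarith

end Crest.Agent.N346.Sp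
end
end

-- ▼ part N346/Sp/Wit
section

/-! # Row 346, spinor layer, L6: the Witten boundary term at infinity (helper20). -/

set_option autoImplicit false
open MeasureTheory Filter Topology Metric
open scoped ContDiff InnerProductSpace ENNReal
open Crest.GeometryTopology.CoordMetric
open Crest.MathPhysics.ExteriorData

noncomputable section

namespace Crest.Agent.N346.Sp
open Crest.Agent.N346.Bs

variable {n : ℕ}

theorem integrable_of_far {φ b : E n → ℝ} (hφ : Continuous φ) (hb : Integrable b) {R : ℝ}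
    (h : ∀ x, R < ‖x‖ → |φ x| ≤ b x) : Integrable φ := by
  rw [← integrableOn_univ, ← Set.union_compl_self (closedBall (0 : E n) R)]
  refine (hφ.continuousOn.integrableOn_compact (isCompact_closedBall _ _)).union ?_
  refine hb.integrableOn.mono' hφ.aestronglyMeasurable ?_
  filter_upwards [ae_restrict_mem measurableSet_closedBall.compl] with x hx
  exact h x (by simpa using hx)

theorem integrable_of_eta {φ : E n → ℝ} (hφ : Continuous φ) {R₁ C : ℝ}
    (h0 : ∀ x, R₁ ≤ ‖x‖ → 0 ≤ φ x) (hC : ∀ᶠ R in atTop, ∫ x, eta R x * φ x ≤ C) :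
    Integrable φ := by
  have hm : Continuous fun x => max (-φ x) 0 := by fun_prop
  have hi : Integrable fun x => max (-φ x) 0 :=
    hm.integrable_of_hasCompactSupport (hasCompactSupport_of_far (R := R₁) fun y hy =>
      max_eq_right (neg_nonpos.2 (h0 y hy.le)))
  have hp : Continuous fun x => φ x + max (-φ x) 0 := by fun_prop
  have hp0 : ∀ x, 0 ≤ φ x + max (-φ x) 0 := fun x => by linarith [le_max_left (-φ x) 0]
  have he : ∀ {R : ℝ}, 0 < R → ∀ {u : E n → ℝ}, Continuous u → Integrable fun x => eta R x * u x :=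
    fun hR _ hu => ((contDiff_eta _).continuous.mul hu).integrable_of_hasCompactSupport
      (hasCompactSupport_eta hR).mul_right
  have := (aecover_closedBall (μ := volume) (x := (0 : E n)) tendsto_id).integrable_of_integral_norm_bounded
    (C + ∫ x, max (-φ x) 0)
    (fun R => hp.continuousOn.integrableOn_compact (isCompact_closedBall _ _)) (by
      filter_upwards [hC, eventually_gt_atTop 0] with R h1 hR
      calc _ = ∫ x in closedBall (0 : E n) R, eta R x * (φ x + max (-φ x) 0) :=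
            setIntegral_congr_fun measurableSet_closedBall fun x hx => by
              simp only [eta_eq_one hR (by simpa using hx), one_mul, Real.norm_of_nonneg (hp0 x)]
        _ ≤ ∫ x, eta R x * (φ x + max (-φ x) 0) := setIntegral_le_integral (he hR hp)
            (.of_forall fun x => mul_nonneg (eta_nonneg _ _) (hp0 x))
        _ = (∫ x, eta R x * φ x) + ∫ x, eta R x * max (-φ x) 0 := by
            simp only [mul_add]; exact integral_add (he hR hφ) (he hR hm)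
        _ ≤ _ := add_le_add h1 (integral_mono (he hR hm) hi fun x =>
            mul_le_of_le_one_left (le_max_right _ _) (eta_le_one _ _)))
  exact (this.sub hi).congr (.of_forall fun x => by simp)

section
variable {S : Type} [NormedAddCommGroup S] [InnerProductSpace ℝ S] {c : Fin n → S →L[ℝ] S}
  {g : MetricField n} {A : Fin n → E n → S →L[ℝ] S}

theorem Cl.cv_c (hc : Cl c) (v : E n) (a : Fin n) (u : S) :
    cv c v (c a u) = -c a (cv c v u) - (2 * v a) • u := by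
  have h : ∀ b, v b • c b (c a u) = -(v b • c a (c b u)) - if b = a then (2 * v a) • u else 0 :=
    fun b => by
      rw [eq_sub_of_add_eq (hc.anti b a u)]
      split_ifs with e
      · subst e; module
      · module
  simp only [cv, h, Finset.sum_sub_distrib, Finset.sum_neg_distrib, map_sum, map_smul,
    Finset.sum_ite_eq', Finset.mem_univ, if_true]

theorem Cl.far_alg (hc : Cl c) (v : E n) {u : S} (hu : ‖u‖ = 1) (k : ℝ) {T : Fin n → S}
    (hT : ∀ a, T a = k • (c a (cv c v u) - cv c v (c a u))) :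
    (∀ a, ‖T a‖ ^ 2 ≤ 4 * k ^ 2 * ‖v‖ ^ 2 * 4) ∧
    ‖∑ a, c a (T a)‖ ^ 2 = 4 * k ^ 2 * ‖v‖ ^ 2 * ((n : ℝ) - 1) ^ 2 ∧
    ∀ a, ⟪u, c a (∑ b, c b (T b))⟫_ℝ = 2 * ((n : ℝ) - 1) * k * v a := by
  have hcc : ∀ a z, c a (c a z) = -z := fun a z => by
    have := hc.anti a a z
    rw [if_pos rfl, ← two_smul ℝ, neg_smul, ← smul_neg] at this
    exact smul_right_injective S two_ne_zero this
  have hs : ∑ a, c a (T a) = (-(2 * ((n : ℝ) - 1) * k)) • cv c v u := by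
    have : ∀ a, c a (T a) = (2 * k) • (v a • c a u) - (2 * k) • cv c v u := fun a => by
      rw [hT, hc.cv_c, map_smul, map_sub, map_sub, map_neg, map_smul, hcc]; module
    simp only [this, Finset.sum_sub_distrib, ← Finset.smul_sum, Finset.sum_const, Finset.card_univ,
      Fintype.card_fin, ← Nat.cast_smul_eq_nsmul ℝ]
    rw [← cv]; module
  refine ⟨fun a => ?_, ?_, fun a => ?_⟩
  · have h1 : ‖c a (cv c v u) - cv c v (c a u)‖ ≤ 2 * ‖v‖ := by
      refine (norm_sub_le _ _).trans_eq ?_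
      rw [hc.norm_c, hc.norm_cv, hc.norm_cv, hc.norm_c, hu]; ring
    rw [hT, norm_smul, mul_pow, Real.norm_eq_abs, sq_abs]
    nlinarith [mul_le_mul_of_nonneg_left (pow_le_pow_left₀ (norm_nonneg _) h1 2) (sq_nonneg k),
      mul_nonneg (sq_nonneg k) (sq_nonneg ‖v‖)]
  · rw [hs, norm_smul, mul_pow, hc.norm_cv_sq, hu, Real.norm_eq_abs, sq_abs]; ring
  · have := hc.skew a u (cv c v u)
    rw [real_inner_comm, hc.inner_cv_c, hu] at this
    rw [hs, map_smul, inner_smul_right, ← neg_eq_iff_eq_neg.2 this]; ring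

theorem contDiff_ev_wit (hg : IsRiemannianOn g Set.univ) (a : Fin n) :
    ContDiff ℝ ∞ fun x => ev g x a :=
  contDiff_euclidean.2 fun i => contDiff_frame (contDiff_g hg) (riem_posDef hg) i a

theorem SpinData.contDiff_nab' (h : SpinData g c A) (hg : IsRiemannianOn g Set.univ) {f : E n → S}
    (hf : ContDiff ℝ ∞ f) (a : Fin n) : ContDiff ℝ ∞ (nab g A a f) :=
  ((hf.fderiv_right (m := ∞) le_rfl).clm_apply (contDiff_ev_wit hg a)).add
    ((h.A_smooth a).clm_apply hf)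

theorem SpinData.contDiff_dir' (h : SpinData g c A) (hg : IsRiemannianOn g Set.univ) {f : E n → S}
    (hf : ContDiff ℝ ∞ f) : ContDiff ℝ ∞ (dir g c A f) :=
  ContDiff.sum fun a _ => (c a).contDiff.comp (h.contDiff_nab' hg hf a)

/-- the vector density of the Witten identity -/
def wv (g : MetricField n) (c : Fin n → S →L[ℝ] S) (A : Fin n → E n → S →L[ℝ] S) (f : E n → S) :
    VectorField n := fun y i => volDensity g y * ∑ a, frame (g y) i a *
  (⟪f y, nab g A a f y⟫_ℝ + ⟪f y, c a (dir g c A f y)⟫_ℝ)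

theorem SpinData.contDiff_wv (h : SpinData g c A) (hg : IsRiemannianOn g Set.univ) {f : E n → S}
    (hf : ContDiff ℝ ∞ f) (i : Fin n) : ContDiff ℝ ∞ fun x => wv g c A f x i :=
  (contDiff_volDensity hg).mul (ContDiff.sum fun a _ =>
    (contDiff_frame (contDiff_g hg) (riem_posDef hg) i a).mul
      ((hf.inner ℝ (h.contDiff_nab' hg hf a)).add
        (hf.inner ℝ ((c a).contDiff.comp (h.contDiff_dir' hg hf)))))

/-- the formulas near infinity -/
theorem SpinData.far (h : SpinData g c A) (hn : 3 ≤ n) {U : E n → ℝ} {μ : ℝ} (hE : P2.EndD n g U μ)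
    {ψ₀ : S} (hψ : ‖ψ₀‖ = 1) {f : E n → S} {R₁ : ℝ} (hf : ∀ x, R₁ < ‖x‖ → f x = ψ₀) :
    ∃ R C : ℝ, ∀ x, R < ‖x‖ →
      (∀ a, ‖nab g A a f x‖ ^ 2 * volDensity g x ≤ C * ∑ i, pderiv i U x ^ 2) ∧
      ‖dir g c A f x‖ ^ 2 * volDensity g x ≤ C * ∑ i, pderiv i U x ^ 2 ∧
      ∀ i, wv g c A f x i = -(1 + P2.aa n) * (U x * pderiv i U x) := by
  obtain ⟨R₀, hR₀⟩ := hE.g_inf
  have hn' : (3 : ℝ) ≤ n := by exact_mod_cast hn
  have hn2 : (n : ℝ) - 2 ≠ 0 := by linarith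
  set a := P2.aa n with ha
  have ha' : a * ((n : ℝ) - 2) = 1 := by rw [ha, P2.aa]; field_simp
  set w : E n → ℝ := fun y => 2 * a * Real.log (U y) with hw
  have hws : ContDiff ℝ ∞ w := contDiff_const.mul (hE.U_smooth.log fun x => (hE.U_pos x).ne')
  have hgw : ∀ y, R₀ ≤ ‖y‖ → g y = Real.exp (2 * w y) • (1 : Matrix (Fin n) (Fin n) ℝ) :=
    fun y hy => by
      rw [hR₀ y hy, Real.rpow_def_of_pos (hE.U_pos y), hw, ha, P2.aa]
      congr 2; ring
  refine ⟨max R₀ R₁, a ^ 2 * (4 + ((n : ℝ) - 1) ^ 2), fun x hx => ?_⟩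
  have hev : ∀ᶠ y in 𝓝 x, max R₀ R₁ < ‖y‖ := continuous_norm.continuousAt.eventually (lt_mem_nhds hx)
  have hfx : f x = ψ₀ := hf x ((le_max_right _ _).trans_lt hx)
  have hd : fderiv ℝ f x = 0 := by
    rw [Filter.EventuallyEq.fderiv_eq (f := fun _ => ψ₀)
      (hev.mono fun y hy => hf y ((le_max_right _ _).trans_lt hy))]
    simp
  have hnab : ∀ b, nab g A b f x = A b x ψ₀ := fun b => by simp [nab, hd, hfx]
  obtain ⟨h1, h2, h3⟩ := h.cl.far_alg (euclidGrad w x) hψ (-Real.exp (-w x) / 4)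
    (T := fun b => nab g A b f x) fun b => by
      rw [hnab, h.flat w x hws.contDiffAt
        (hev.mono fun y hy => hgw y ((le_max_left _ _).trans hy.le))]
  have hU := hE.U_pos x
  have hgx := hgw x ((le_max_left _ _).trans hx.le)
  have hvol : volDensity g x = Real.exp (n * w x) := by
    rw [volDensity, hgx, Matrix.det_smul, Matrix.det_one, mul_one, Fintype.card_fin,
      ← Real.exp_nat_mul, Real.sqrt_eq_iff_mul_self_eq (Real.exp_pos _).le (Real.exp_pos _).le,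
      ← Real.exp_add]
    congr 1; ring
  have hfr : frame (g x) = Real.exp (-w x) • (1 : Matrix (Fin n) (Fin n) ℝ) := by
    rw [hgx, frame_scalar, Real.exp_neg, two_mul, Real.exp_add,
      Real.sqrt_mul_self (Real.exp_pos _).le]
  have hUU : Real.exp (-w x) ^ 2 * Real.exp (n * w x) = U x ^ 2 := by
    rw [← Real.exp_nat_mul, ← Real.exp_add, ← Real.exp_log hU, ← Real.exp_nat_mul]
    congr 1
    simp only [hw]
    push_cast
    linear_combination 2 * Real.log (U x) * ha'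
  have hpd : ∀ i, pderiv i w x = 2 * a * (U x)⁻¹ * pderiv i U x := fun i =>
    pd_comp ((Real.hasDerivAt_log hU.ne').const_mul (2 * a)) (smooth_diff hE.U_smooth x) i
  have hgr : 4 * (-Real.exp (-w x) / 4) ^ 2 * ‖euclidGrad w x‖ ^ 2 * volDensity g x =
      a ^ 2 * ∑ i, pderiv i U x ^ 2 := by
    have e : ‖euclidGrad w x‖ ^ 2 = (2 * a * (U x)⁻¹) ^ 2 * ∑ i, pderiv i U x ^ 2 := by
      rw [norm_sq_eq, Finset.mul_sum]
      exact Finset.sum_congr rfl fun i _ => by simp only [euclidGrad, hpd]; ring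
    rw [e, hvol]
    calc _ = (Real.exp (-w x) ^ 2 * Real.exp (n * w x)) * (U x)⁻¹ ^ 2 *
          (a ^ 2 * ∑ i, pderiv i U x ^ 2) := by ring
      _ = _ := by rw [hUU]; field_simp
  have hS : 0 ≤ a ^ 2 * ∑ i, pderiv i U x ^ 2 := by positivity
  have hv := (volDensity_pos hE.riem x).le
  refine ⟨fun b => ?_, ?_, fun i => ?_⟩
  · refine (mul_le_mul_of_nonneg_right (h1 b) hv).trans ?_
    nlinarith [mul_nonneg hS (sq_nonneg ((n : ℝ) - 1))]
  · rw [dir, h2]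
    nlinarith
  · have h0 : ∀ b, ⟪ψ₀, nab g A b f x⟫_ℝ = 0 := fun b => by
      have := h.A_skew b x ψ₀ ψ₀
      rw [real_inner_comm] at this
      rw [hnab]; linarith
    simp only [wv, hfx, h0, dir, h3, hfr, hvol, zero_add, Matrix.smul_apply, Matrix.one_apply,
      smul_eq_mul, mul_ite, mul_one, mul_zero, ite_mul, zero_mul, Finset.sum_ite_eq,
      Finset.mem_univ, if_true, euclidGrad, hpd]
    calc _ = (Real.exp (-w x) ^ 2 * Real.exp (n * w x)) * (U x)⁻¹ *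
          (-(a * ((n : ℝ) - 2) + a) * pderiv i U x) := by ring
      _ = _ := by rw [hUU, ha']; field_simp

theorem SpinData.far_int (h : SpinData g c A) (hn : 3 ≤ n) {U : E n → ℝ} {μ : ℝ}
    (hE : P2.EndD n g U μ) {ψ₀ : S} (hψ : ‖ψ₀‖ = 1) {f : E n → S} (hs : ContDiff ℝ ∞ f) {R₁ : ℝ}
    (hf : ∀ x, R₁ < ‖x‖ → f x = ψ₀) :
    (∀ a, Integrable fun x => ‖nab g A a f x‖ ^ 2 * volDensity g x) ∧
    (Integrable fun x => ‖dir g c A f x‖ ^ 2 * volDensity g x) ∧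
    ∀ ε > 0, ∀ᶠ R in atTop, ∫ x, eta R x * divE (wv g c A f) x ≤ (1 + P2.aa n) * μ + ε := by
  obtain ⟨R₀, C, hR₀⟩ := h.far hn hE hψ hf
  have hv := (contDiff_volDensity hE.riem).continuous
  have hv0 := fun x => (volDensity_pos hE.riem x).le
  refine ⟨fun a => integrable_of_far
      (((h.contDiff_nab' hE.riem hs a).continuous.norm.pow 2).mul hv) (hE.U_grad.const_mul C)
      fun x hx => (abs_of_nonneg (mul_nonneg (sq_nonneg _) (hv0 x))).trans_le ((hR₀ x hx).1 a),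
    integrable_of_far (((h.contDiff_dir' hE.riem hs).continuous.norm.pow 2).mul hv)
      (hE.U_grad.const_mul C)
      fun x hx => (abs_of_nonneg (mul_nonneg (sq_nonneg _) (hv0 x))).trans_le (hR₀ x hx).2.1,
    fun ε hε => ?_⟩
  have ha : 0 < 1 + P2.aa n := by
    have hn' : (3 : ℝ) ≤ n := by exact_mod_cast hn
    have : 0 < (n : ℝ) - 2 := by linarith
    rw [P2.aa]; positivity
  have hUc := hE.U_smooth.continuous
  have hpc := continuous_pd (smooth_one hE.U_smooth)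
  have ht : Tendsto (fun R => ∑ i, ∫ x, pderiv i (eta R) x * ((U x - 1) * pderiv i U x)) atTop
      (𝓝 0) := by
    have := tendsto_finsetSum Finset.univ fun i _ => tendsto_integral_pd_eta
      (f := fun x => (U x - 1) * pderiv i U x) ((hUc.sub continuous_const).mul (hpc i)).aestronglyMeasurable
      ((hE.U_hardy.add hE.U_grad).mono' (((hUc.sub continuous_const).mul (hpc i)).div
        (by fun_prop) fun x => by positivity).aestronglyMeasurable (.of_forall fun x => by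
          have a1 : pderiv i U x ^ 2 ≤ ∑ i, pderiv i U x ^ 2 :=
            Finset.single_le_sum (f := fun i => pderiv i U x ^ 2) (fun _ _ => sq_nonneg _)
              (Finset.mem_univ i)
          have a2 : ((U x - 1) / (1 + ‖x‖)) ^ 2 ≤ (U x - 1) ^ 2 / (1 + ‖x‖ ^ 2) := by
            rw [div_pow]; gcongr; nlinarith [norm_nonneg x]
          rw [Real.norm_eq_abs, mul_div_right_comm, abs_le, Pi.add_apply]
          constructor <;> nlinarith [sq_nonneg ((U x - 1) / (1 + ‖x‖) - pderiv i U x),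
            sq_nonneg ((U x - 1) / (1 + ‖x‖) + pderiv i U x)])) i
    simpa using this
  have hε' : 0 < ε / (2 * (1 + P2.aa n)) := by positivity
  obtain ⟨R₂, hR₂⟩ := hE.mass _ hε'
  filter_upwards [ht.eventually (gt_mem_nhds hε'), eventually_ge_atTop R₂, eventually_gt_atTop 0,
    eventually_ge_atTop R₀] with R g1 g2 g3 g4
  have hi : ∀ i, ∀ {u : E n → ℝ}, Continuous u → Integrable fun x => pderiv i (eta R) x * u x :=
    fun i _ hu => ((continuous_pd (smooth_one (contDiff_eta R)) i).mul hu).integrable_of_hasCompactSupport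
      (hasCompactSupport_pd (hasCompactSupport_eta g3) i).mul_right
  have e : ∀ x, ∑ i, pderiv i (eta R) x * wv g c A f x i = -(1 + P2.aa n) *
      (∑ i, pderiv i U x * pderiv i (eta R) x +
        ∑ i, pderiv i (eta R) x * ((U x - 1) * pderiv i U x)) := fun x => by
    rw [← Finset.sum_add_distrib, Finset.mul_sum]
    refine Finset.sum_congr rfl fun i _ => ?_
    rcases le_or_gt ‖x‖ R with hx | hx
    · simp [pd_eta_of_le g3 hx]
    · rw [(hR₀ x (g4.trans_lt hx)).2.2]; ring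
  rw [integral_eta_divE g3 fun i => smooth_one (h.contDiff_wv hE.riem hs i)]
  simp only [e]
  have j1 : ∀ i, Integrable fun x => pderiv i U x * pderiv i (eta R) x := fun i => by
    simpa only [mul_comm] using hi i (hpc i)
  have j2 : ∀ i, Integrable fun x => pderiv i (eta R) x * ((U x - 1) * pderiv i U x) := fun i =>
    hi i ((hUc.sub continuous_const).mul (hpc i))
  rw [integral_const_mul, integral_add (integrable_finsetSum _ fun i _ => j1 i)
    (integrable_finsetSum _ fun i _ => j2 i), integral_finsetSum _ fun i _ => j2 i, ← flux]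
  have e2 : (1 + P2.aa n) * (ε / (2 * (1 + P2.aa n))) = ε / 2 := by field_simp
  nlinarith [mul_le_mul_of_nonneg_left (hR₂ R g2) ha.le, mul_le_mul_of_nonneg_left g1.le ha.le]

end

theorem wit : WitStmt := by
  intro n hn g U μ hE S _ _ _ c A h ψ₀ hψ
  have hg := hE.riem
  have hv := (contDiff_volDensity hg).continuous
  have hR : (Continuous fun x => scalarCurv g x / 4 * volDensity g x) ∧
      Integrable fun x => scalarCurv g x / 4 * volDensity g x := by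
    obtain ⟨h1, h2, h3⟩ := h.far_int hn hE hψ (f := fun _ => ψ₀) contDiff_const (R₁ := 0)
      fun _ _ => rfl
    have e : (fun x => scalarCurv g x / 4 * volDensity g x) = fun x =>
        divE (wv g c A fun _ => ψ₀) x + (‖dir g c A (fun _ => ψ₀) x‖ ^ 2 * volDensity g x -
          ∑ a, ‖nab g A a (fun _ => ψ₀) x‖ ^ 2 * volDensity g x) := by
      ext x
      have : divE (wv g c A fun _ => ψ₀) x = _ := h.wit _ contDiff_const x
      rw [this, hψ, ← Finset.sum_mul]; ring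
    have c1 := (contDiff_divE (h.contDiff_wv hg (f := fun _ => ψ₀) contDiff_const)).continuous
    have c2 : Continuous fun x => ‖dir g c A (fun _ => ψ₀) x‖ ^ 2 * volDensity g x -
        ∑ a, ‖nab g A a (fun _ => ψ₀) x‖ ^ 2 * volDensity g x :=
      (((h.contDiff_dir' hg contDiff_const).continuous.norm.pow 2).mul hv).sub
        (continuous_finsetSum _ fun a _ =>
          ((h.contDiff_nab' hg contDiff_const a).continuous.norm.pow 2).mul hv)
    have i2 := h2.sub (integrable_finsetSum Finset.univ fun a _ => h1 a)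
    have hc : Continuous fun x => scalarCurv g x / 4 * volDensity g x := e ▸ c1.add c2
    obtain ⟨R₁, hR₁⟩ := hE.R_far
    refine ⟨hc, integrable_of_eta hc (R₁ := R₁) (fun x hx =>
      mul_nonneg (by linarith [hR₁ x hx]) (volDensity_pos hg x).le)
      (C := (1 + P2.aa n) * μ + 1 + ((∫ x, (‖dir g c A (fun _ => ψ₀) x‖ ^ 2 * volDensity g x -
        ∑ a, ‖nab g A a (fun _ => ψ₀) x‖ ^ 2 * volDensity g x)) + 1)) ?_⟩
    filter_upwards [h3 1 one_pos, (tendsto_integral_eta i2).eventually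
      (gt_mem_nhds (lt_add_one _)), eventually_gt_atTop 0] with R g1 g2 g3
    have he : ∀ {u : E n → ℝ}, Continuous u → Integrable fun x => eta R x * u x :=
      fun hu => ((contDiff_eta _).continuous.mul hu).integrable_of_hasCompactSupport
        (hasCompactSupport_eta g3).mul_right
    simp only [congrFun e, mul_add]
    rw [integral_add (he c1) (he c2)]
    exact add_le_add g1 g2.le
  refine ⟨(P2.integrable_nu_iff' hg _).2 ((hR.2.const_mul 4).congr (.of_forall fun x => by ring)),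
    fun ξ hξ => ?_⟩
  obtain ⟨R₁, hR₁⟩ := hξ.2.isCompact.isBounded.subset_closedBall 0
  have hf : ∀ x, R₁ < ‖x‖ → ψ₀ + ξ x = ψ₀ := fun x hx => by
    rw [image_eq_zero_of_notMem_tsupport fun h => absurd (hR₁ h) (by simpa using hx), add_zero]
  have hs : ContDiff ℝ ∞ fun x => ψ₀ + ξ x := contDiff_const.add hξ.1
  obtain ⟨h1, h2, h3⟩ := h.far_int hn hE hψ hs hf
  refine ⟨fun a => (memLp_two_iff_integrable_sq_norm
    (h.contDiff_nab' hg hs a).continuous.aestronglyMeasurable).2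
      ((P2.integrable_nu_iff' hg _).2 (h1 a)), ?_⟩
  have i3 : Integrable fun x => scalarCurv g x / 4 * volDensity g x * ‖ψ₀ + ξ x‖ ^ 2 :=
    integrable_of_far (hR.1.mul (hs.continuous.norm.pow 2)) hR.2.abs (R := R₁) fun x hx => by
      simp only [hf x hx, hψ, one_pow, mul_one, le_rfl]
  have e : ∀ x, divE (wv g c A fun x => ψ₀ + ξ x) x = _ := h.wit _ hs
  have i4 : Integrable (divE (wv g c A fun x => ψ₀ + ξ x)) :=
    (((integrable_finsetSum Finset.univ fun a _ => h1 a).add i3).sub h2).congr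
      (.of_forall fun x => by
        simp only [e, Pi.sub_apply, Pi.add_apply, ← Finset.sum_mul]; ring)
  rw [← nu_eq, P2.integral_nu hg]
  simp only [mul_comm _ (volDensity g _), ← e]
  exact le_of_forall_pos_le_add fun ε hε => le_of_tendsto (tendsto_integral_eta i4) (h3 ε hε)

end Crest.Agent.N346.Sp
end
end

-- ▼ part N346/Sp/Energy
section

/-!
# Row 346, spinor layer: the energy inequality for the Callias operator (L7a).
-/

set_option autoImplicit false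
open MeasureTheory Filter Topology
open scoped ContDiff InnerProductSpace ENNReal
open Crest.GeometryTopology.CoordMetric
open Crest.MathPhysics.ExteriorData

noncomputable section

namespace Crest.Agent.N346.Sp
open Crest.Agent.N346.Bs Crest.Agent.N346.P2

namespace En

variable {n : ℕ} {S : Type} [NormedAddCommGroup S] [InnerProductSpace ℝ S]
  {g : MetricField n} {c : Fin n → S →L[ℝ] S} {A : Fin n → E n → S →L[ℝ] S} {ψ : E n → S}

theorem contDiff_ev (hg : IsRiemannianOn g Set.univ) (a : Fin n) :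
    ContDiff ℝ ∞ fun x => ev g x a :=
  contDiff_euclidean.2 fun i => contDiff_frame (contDiff_g hg) (riem_posDef hg) i a

theorem contDiff_nab (hg : IsRiemannianOn g Set.univ) (hs : SpinData g c A)
    (hψ : ContDiff ℝ ∞ ψ) (a : Fin n) : ContDiff ℝ ∞ (nab g A a ψ) :=
  ((hψ.fderiv_right (m := ∞) (by simp)).clm_apply (contDiff_ev hg a)).add
    ((hs.A_smooth a).clm_apply hψ)

theorem contDiff_dir (hg : IsRiemannianOn g Set.univ) (hs : SpinData g c A)
    (hψ : ContDiff ℝ ∞ ψ) : ContDiff ℝ ∞ (dir g c A ψ) :=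
  ContDiff.sum fun a _ => (c a).contDiff.comp (contDiff_nab hg hs hψ a)

theorem nab_of_notMem {x : E n} (hx : x ∉ tsupport ψ) (a : Fin n) : nab g A a ψ x = 0 := by
  have h := notMem_tsupport_iff_eventuallyEq.1 hx
  rw [nab, h.fderiv_eq, h.eq_of_nhds]
  simp

theorem fr_of_end {U : E n → ℝ} {μ : ℝ} (h : EndD n g U μ) : Fr g (fr g) :=
  ⟨h.riem, h.bd, contDiff_frame (contDiff_g h.riem) (riem_posDef h.riem),
    fun x => frame_orth (riem_posDef h.riem x)⟩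

theorem integral_dvf (hg : IsRiemannianOn g Set.univ) {V : E n → Fin n → ℝ}
    (hV : ∀ a, ContDiff ℝ ∞ fun x => V x a) {K : Set (E n)} (hK : IsCompact K)
    (h0 : ∀ x, x ∉ K → ∀ a, V x a = 0) : ∫ x, dvf g V x = 0 :=
  integral_divE (V := fun y i => volDensity g y * ∑ a, frame (g y) i a * V y a)
    (fun i => smooth_one ((contDiff_volDensity hg).mul (ContDiff.sum fun a _ =>
      (contDiff_frame (contDiff_g hg) (riem_posDef hg) i a).mul (hV a))))
    fun i => .intro hK fun x hx => by simp [h0 x hx]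

/-- the Lichnerowicz integrand -/
def hh (g : MetricField n) (c : Fin n → S →L[ℝ] S) (A : Fin n → E n → S →L[ℝ] S) (ψ : E n → S)
    (x : E n) : ℝ :=
  (∑ a, ‖nab g A a ψ x‖ ^ 2) + scalarCurv g x / 4 * ‖ψ x‖ ^ 2 - ‖dir g c A ψ x‖ ^ 2

/-- what is used about one component -/
structure One (g : MetricField n) (c : Fin n → S →L[ℝ] S) (A : Fin n → E n → S →L[ℝ] S)
    (ψ : E n → S) (r : ℝ) : Prop where
  smooth : ContDiff ℝ ∞ ψ
  bd : Bd fun x => ‖ψ x‖
  nab2 : ∀ a, MemLp (nab g A a ψ) 2 (nu g)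
  le : ∫ x, hh g c A ψ x ∂nu g ≤ r

theorem bd_norm {ξ : E n → S} (hξ : Tst ξ) (ψ₀ : S) : Bd fun x => ‖ψ₀ + ξ x‖ := by
  obtain ⟨M, hM⟩ := hξ.1.continuous.bounded_above_of_compact_support hξ.2
  refine ⟨(continuous_const.add hξ.1.continuous).norm.measurable, ‖ψ₀‖ + M, fun x => ?_⟩
  rw [abs_norm]
  exact (norm_add_le _ _).trans (add_le_add_right (hM x) _)

theorem one_tst {F : MetricField n} (hF : Fr g F) (hs : SpinData g c A) {ξ : E n → S}
    (hξ : Tst ξ) : One g c A ξ 0 := by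
  have hg := hF.riem
  refine ⟨hξ.1, by simpa using bd_norm hξ 0, fun a => hF.memLp_of_cs
    (contDiff_nab hg hs hξ.1 a).continuous (.intro hξ.2 fun x hx => nab_of_notMem hx a) 2, ?_⟩
  rw [← nu_eq, integral_nu hg]
  refine le_of_eq ?_
  rw [← integral_dvf hg (V := fun y a => ⟪ξ y, nab g A a ξ y⟫_ℝ + ⟪ξ y, c a (dir g c A ξ y)⟫_ℝ)
    (fun a => (hξ.1.inner ℝ (contDiff_nab hg hs hξ.1 a)).add
      (hξ.1.inner ℝ ((c a).contDiff.comp (contDiff_dir hg hs hξ.1)))) hξ.2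
    fun x hx a => by simp [image_eq_zero_of_notMem_tsupport hx]]
  refine integral_congr_ae (.of_forall fun x => ?_)
  beta_reduce
  rw [hs.wit ξ hξ.1 x, mul_comm]; rfl

theorem One.dir2 {r : ℝ} (h : One g c A ψ r) : MemLp (dir g c A ψ) 2 (nu g) :=
  memLp_finsetSum _ fun a _ => (c a).comp_memLp' (h.nab2 a)

theorem One.int_R {r : ℝ} (h : One g c A ψ r) (hR : Integrable (scalarCurv g) (nu g)) :
    Integrable (fun x => scalarCurv g x / 4 * ‖ψ x‖ ^ 2) (nu g) :=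
  (h.bd.sq.int (hR.div_const 4)).congr (.of_forall fun _ => mul_comm _ _)

theorem One.int_hh {r : ℝ} (h : One g c A ψ r) (hR : Integrable (scalarCurv g) (nu g)) :
    Integrable (hh g c A ψ) (nu g) :=
  ((integrable_finsetSum _ fun a _ => int_normsq (h.nab2 a)).add (h.int_R hR)).sub
    (int_normsq h.dir2)

theorem One.cv2 {r : ℝ} (h : One g c A ψ r) (hc : Cl c) {β : E n → E n}
    (hβ : MemLp β 2 (nu g)) : MemLp (fun x => cv c (β x) (ψ x)) 2 (nu g) := by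
  obtain ⟨-, M, hM⟩ := h.bd
  refine hβ.of_le_mul (c := M) ?_ (.of_forall fun x => ?_)
  · refine Finset.aestronglyMeasurable_fun_sum _ fun a _ => AEStronglyMeasurable.smul ?_
      ((c a).continuous.comp h.smooth.continuous).aestronglyMeasurable
    exact (EuclideanSpace.proj (𝕜 := ℝ) a).continuous.comp_aestronglyMeasurable hβ.1
  · rw [hc.norm_cv, mul_comm]
    exact mul_le_mul_of_nonneg_right ((le_abs_self _).trans (hM x)) (norm_nonneg _)

theorem One.smul2 {r : ℝ} (h : One g c A ψ r) {F : E n → ℝ} (hF : MemLp F 2 (nu g)) :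
    MemLp (fun x => F x • ψ x) 2 (nu g) := by
  obtain ⟨-, M, hM⟩ := h.bd
  refine hF.of_le_mul (c := M) (hF.1.smul h.smooth.continuous.aestronglyMeasurable)
    (.of_forall fun x => ?_)
  rw [norm_smul, mul_comm]
  exact mul_le_mul_of_nonneg_right ((le_abs_self _).trans (hM x)) (norm_nonneg _)

/-- the pointwise inequality -/
theorem pt (hc : Cl c) {a τ F ρ d N₁ N₂ : ℝ} {f₁ f₂ D₁ D₂ : S} {β₁ β₂ G₁ G₂ : E n}
    (hβ : F • (β₁ + β₂) = 0)
    (k₁ : ‖G₁‖ ^ 2 + a * (2 * ‖f₁‖ * ⟪τ • β₁, G₁⟫_ℝ - ‖τ • β₁‖ ^ 2 * ‖f₁‖ ^ 2) ≤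
      N₁ - ‖D₁‖ ^ 2 + ‖D₁ + a • cv c (τ • β₁) f₁‖ ^ 2)
    (k₂ : ‖G₂‖ ^ 2 + a * (2 * ‖f₂‖ * ⟪τ • β₂, G₂⟫_ℝ - ‖τ • β₂‖ ^ 2 * ‖f₂‖ ^ 2) ≤
      N₂ - ‖D₂‖ ^ 2 + ‖D₂ + a • cv c (τ • β₂) f₂‖ ^ 2) :
    ‖G₁‖ ^ 2 + ‖G₂‖ ^ 2 + (ρ + F ^ 2) * (‖f₁‖ ^ 2 + ‖f₂‖ ^ 2)
      + a * (τ * (2 * ‖f₁‖ * ⟪β₁, G₁⟫_ℝ + 2 * ‖f₂‖ * ⟪β₂, G₂⟫_ℝ)
        - τ ^ 2 * (‖β₁‖ ^ 2 * ‖f₁‖ ^ 2 + ‖β₂‖ ^ 2 * ‖f₂‖ ^ 2)) - 2 * d * ‖f₁‖ * ‖f₂‖ ≤
    ‖D₁ + (τ * a) • cv c β₁ f₁ + F • f₂‖ ^ 2 + ‖-(D₂ + (τ * a) • cv c β₂ f₂) + F • f₁‖ ^ 2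
      + (N₁ + ρ * ‖f₁‖ ^ 2 - ‖D₁‖ ^ 2) + (N₂ + ρ * ‖f₂‖ ^ 2 - ‖D₂‖ ^ 2)
      - 2 * (F * (⟪f₂, D₁⟫_ℝ - ⟪D₂, f₁⟫_ℝ) + d * (‖f₁‖ * ‖f₂‖)) := by
  rw [cv_smul, smul_smul, mul_comm a τ, real_inner_smul_left, norm_smul, mul_pow,
    Real.norm_eq_abs, sq_abs] at k₁ k₂
  have h0 : F * (⟪cv c β₁ f₁, f₂⟫_ℝ - ⟪cv c β₂ f₂, f₁⟫_ℝ) = 0 := by
    have : ⟪cv c (F • (β₁ + β₂)) f₁, f₂⟫_ℝ = 0 := by rw [hβ, cv_zero, inner_zero_left]
    rw [cv_smul, cv_add, real_inner_smul_left, inner_add_left] at this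
    rw [hc.cv_skew β₂, real_inner_comm (cv c β₂ f₁), ← this]; ring
  rw [norm_add_sq_real _ (F • f₂), norm_add_sq_real _ (F • f₁), norm_neg, inner_neg_left,
    real_inner_smul_right, real_inner_smul_right, inner_add_left, inner_add_left,
    real_inner_smul_left, real_inner_smul_left, norm_smul, norm_smul, mul_pow, mul_pow,
    Real.norm_eq_abs, sq_abs, real_inner_comm D₁ f₂]
  linear_combination k₁ + k₂ - 2 * τ * a * h0

end En
open En

theorem energy (hK : KatoStmt) (hN : NormStmt) (hI : IbpStmt) (hW : WitStmt) : EnergyStmt := by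
  intro n hn g U μ hE S _ _ _ _ c A hs F dF β₁ β₂ hF hFi h₁ h₂ hβ τ ψ₀ h0 ξ₁ ξ₂ t₁ t₂
  have hfr := fr_of_end hE
  have hg := hE.riem
  have hR : Integrable (scalarCurv g) (nu g) := by
    obtain ⟨u, hu⟩ := exists_norm_eq S zero_le_one
    exact (hW n hn g U μ hE S c A hs u hu).1
  have o₂ := one_tst hfr hs t₂
  have o₁ : One g c A (fun x => ψ₀ + ξ₁ x) (‖ψ₀‖ ^ 2 * ((1 + aa n) * μ)) := by
    rcases h0 with rfl | h0
    · simpa using one_tst hfr hs t₁
    · obtain ⟨w1, w2⟩ := (hW n hn g U μ hE S c A hs ψ₀ h0).2 ξ₁ t₁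
      exact ⟨contDiff_const.add t₁.1, bd_norm t₁ ψ₀, w1, by rw [h0, one_pow, one_mul]; exact w2⟩
  set f₁ : E n → S := fun x => ψ₀ + ξ₁ x with hf₁
  have bF : Bd F := ⟨hF.meas, hF.bdd⟩
  have F2 : MemLp F 2 (nu g) := bF.memLp_two hFi
  have c₁ : MemLp (cal₁ g c A (τ * aa n) F β₁ f₁ ξ₂) 2 (nu g) :=
    (o₁.dir2.add ((o₁.cv2 hs.cl h₁).const_smul (τ * aa n))).add (o₂.smul2 F2)
  have c₂ : MemLp (cal₂ g c A (τ * aa n) F β₂ f₁ ξ₂) 2 (nu g) :=
    (o₂.dir2.add ((o₂.cv2 hs.cl h₂).const_smul (τ * aa n))).neg.add (o₁.smul2 F2)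
  have iR : Integrable (fun x => scalarCurv g x / 4 * (‖f₁ x‖ ^ 2 + ‖ξ₂ x‖ ^ 2)) (nu g) :=
    ((o₁.int_R hR).add (o₂.int_R hR)).congr (.of_forall fun x => (mul_add _ _ _).symm)
  refine ⟨c₁, c₂, iR, ?_⟩
  have g₁ : MemLp (gnorm g A f₁) 2 (nu g) := (hN n g hg S c A hs ψ₀ ξ₁ t₁).memG
  have g₂ : MemLp (gnorm g A ξ₂) 2 (nu g) := by
    simpa only [zero_add, nu_eq] using (hN n g hg S c A hs 0 ξ₂ t₂).memG
  have ξ2 : MemLp ξ₂ 2 (nu g) := hfr.memLp_of_cs t₂.1.continuous t₂.2 2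
  have b₁ := o₁.bd
  have b₂ := o₂.bd
  have iD : Integrable (fun x => ‖dF x‖ * (‖f₁ x‖ * ‖ξ₂ x‖)) (nu g) :=
    (b₁.int (MemLp.integrable_mul hF.memG.norm ξ2.norm)).congr (.of_forall fun x => by
      simp only [Pi.mul_apply]; ring)
  have iK : Integrable (fun x => ‖gnorm g A f₁ x‖ ^ 2 + ‖gnorm g A ξ₂ x‖ ^ 2
      + (scalarCurv g x / 4 + F x ^ 2) * (‖f₁ x‖ ^ 2 + ‖ξ₂ x‖ ^ 2)
      + aa n * (τ * (2 * ‖f₁ x‖ * ⟪β₁ x, gnorm g A f₁ x⟫_ℝ + 2 * ‖ξ₂ x‖ * ⟪β₂ x, gnorm g A ξ₂ x⟫_ℝ)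
        - τ ^ 2 * (‖β₁ x‖ ^ 2 * ‖f₁ x‖ ^ 2 + ‖β₂ x‖ ^ 2 * ‖ξ₂ x‖ ^ 2))
      - 2 * ‖dF x‖ * ‖f₁ x‖ * ‖ξ₂ x‖) (nu g) := by
    refine ((((((int_normsq g₁).add (int_normsq g₂)).add iR).add
      ((bF.mul (b₁.sq.add b₂.sq)).int hFi)).add
      ((((((b₁.cmul 2).int (int_inner h₁ g₁)).add ((b₂.cmul 2).int (int_inner h₂ g₂))).const_mul
        τ).sub (((b₁.sq.int (int_normsq h₁)).add (b₂.sq.int (int_normsq h₂))).const_mul
        (τ ^ 2))).const_mul (aa n))).sub (iD.const_mul 2)).congr (ae_of_all _ fun x => ?_)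
    simp only [Pi.add_apply, Pi.sub_apply]
    ring
  have iX : Integrable (fun x => F x * (⟪ξ₂ x, dir g c A f₁ x⟫_ℝ - ⟪dir g c A ξ₂ x, f₁ x⟫_ℝ))
      (nu g) :=
    ((bF.int (int_inner ξ2 o₁.dir2)).sub (int_inner o₂.dir2 (o₁.smul2 F2))).congr
      (.of_forall fun x => by simp only [Pi.sub_apply, real_inner_smul_right]; ring)
  -- the cross term
  have hX : 0 ≤ ∫ x, (F x * (⟪ξ₂ x, dir g c A f₁ x⟫_ℝ - ⟪dir g c A ξ₂ x, f₁ x⟫_ℝ)
      + ‖dF x‖ * (‖f₁ x‖ * ‖ξ₂ x‖)) ∂nu g := by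
    have e := hI n g hg F dF hF (fun y a => ⟪ξ₂ y, c a (f₁ y)⟫_ℝ)
      (fun a => t₂.1.inner ℝ ((c a).contDiff.comp o₁.smooth))
      (.intro t₂.2 fun x hx => by funext a; simp [image_eq_zero_of_notMem_tsupport hx])
    have e2 : ∀ x, ∑ a, dF x a * ⟪ξ₂ x, c a (f₁ x)⟫_ℝ = ⟪ξ₂ x, cv c (dF x) (f₁ x)⟫_ℝ := fun x => by
      simp only [cv, inner_sum, real_inner_smul_right]
    have e3 : ∫ x, F x * (⟪ξ₂ x, dir g c A f₁ x⟫_ℝ - ⟪dir g c A ξ₂ x, f₁ x⟫_ℝ) ∂nu g =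
        -∫ x, ⟪ξ₂ x, cv c (dF x) (f₁ x)⟫_ℝ ∂nu g := by
      simp only [← e2]
      rw [← e, ← nu_eq, integral_nu hg]
      refine integral_congr_ae (.of_forall fun x => ?_)
      beta_reduce
      rw [hs.sa ξ₂ f₁ t₂.1 o₁.smooth x]; ring
    rw [integral_add iX iD, e3, neg_add_eq_sub, sub_nonneg]
    refine integral_mono (int_inner ξ2 (o₁.cv2 hs.cl hF.memG)) iD fun x => ?_
    refine (real_inner_le_norm _ _).trans (le_of_eq ?_)
    rw [hs.cl.norm_cv]; ring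
  have key := (HI.of iK).mono ((((HI.of (int_normsq c₁)).add (HI.of (int_normsq c₂))).add
    (HI.of (o₁.int_hh hR))).add (HI.of (o₂.int_hh hR)) |>.sub ((HI.of (iX.add iD)).cmul 2))
    fun x => pt hs.cl (hβ x)
      (hK n hn S c hs.cl (fun a => nab g A a f₁ x) (f₁ x) (τ • β₁ x) _ fun a => rfl)
      (hK n hn S c hs.cl (fun a => nab g A a ξ₂ x) (ξ₂ x) (τ • β₂ x) _ fun a => rfl)
  have l₁ := o₁.le
  have l₂ := o₂.le
  simp only [Pi.add_apply] at key
  unfold Kf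
  linarith

end Crest.Agent.N346.Sp

end
end

-- ▼ part N346/Sp/Main
section

/-!
# Row 346, spinor layer (helper85): `SPStmt`.
-/

namespace Crest.Agent.N346.Sp

theorem sp : P2.SPStmt := sp_of fried (energy kato normD ibpD wit) wit P2.sob

end Crest.Agent.N346.Sp
end

-- ▼ part N346/Fin/P2
section

/-!
Row 346, P2 (helper11): the assembly of `P2/Asm.lean` (helper89), `P2/All.lean` and `P2/Done.lean`
again, in the namespace `P2.Fin` and without the second declaration of `P2.cn_pos`, which collides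
with the one of `P2/IsoFlat.lean` in the kernel check.
-/

set_option autoImplicit false
open MeasureTheory Filter Topology Set
open scoped ContDiff ENNReal InnerProductSpace
open Crest.GeometryTopology.CoordMetric
open Crest.MathPhysics.ExteriorData

noncomputable section
namespace Crest.Agent.N346.P2.Fin
open Crest.Agent.N346.Bs

theorem eSq_nonneg' {n : ℕ} {g : MetricField n} (hg : IsRiemannianOn g Set.univ)
    (EE : VectorField n) (x : E n) : 0 ≤ eSq g EE x :=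
  div_nonneg (qb_nonneg (riem_posDef hg x) _) (det_pos hg x).le

theorem aa_pos {n : ℕ} (hn : 3 ≤ n) : 0 < aa n := by
  have : (3 : ℝ) ≤ n := by exact_mod_cast hn
  exact one_div_pos.2 (by linarith)

theorem aa_le {n : ℕ} (hn : 3 ≤ n) : aa n ≤ 1 := by
  have : (3 : ℝ) ≤ n := by exact_mod_cast hn
  exact (div_le_one (by linarith)).2 (by linarith)

theorem cn_mul {n : ℕ} (hn : 3 ≤ n) {x : ℝ} (hx : 0 ≤ x) :
    cn n * (1 + 2 * aa n) * ((((n : ℝ) - 2) * unitSphereArea n) * x) ^ (2 + 2 * aa n)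
      = unitSphereArea n ^ 2 * x ^ (2 + 2 * aa n) := by
  have h3 : (3 : ℝ) ≤ n := by exact_mod_cast hn
  have h := unitSphereArea_pos (n := n) (by omega)
  have hc : 0 < ((n : ℝ) - 2) * unitSphereArea n := mul_pos (by linarith) h
  have e : (((n : ℝ) - 2) * unitSphereArea n) ^ (-(1 + 2 * aa n)) *
      (((n : ℝ) - 2) * unitSphereArea n) ^ (2 + 2 * aa n) = ((n : ℝ) - 2) * unitSphereArea n := by
    rw [← Real.rpow_add hc, show -(1 + 2 * aa n) + (2 + 2 * aa n) = 1 by ring, Real.rpow_one]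
  have h2 : (n : ℝ) - 2 ≠ 0 := by linarith
  have h0 : (n : ℝ) ≠ 0 := by linarith
  rw [Real.mul_rpow hc.le hx, cn]
  calc _ = unitSphereArea n / n * (1 + 2 * aa n) * ((((n : ℝ) - 2) * unitSphereArea n) ^
        (-(1 + 2 * aa n)) * (((n : ℝ) - 2) * unitSphereArea n) ^ (2 + 2 * aa n)) *
        x ^ (2 + 2 * aa n) := by ring
    _ = _ := by rw [e, aa]; field_simp; ring

/-- the right hand side of `TopStmt` -/
def rhs (n : ℕ) (μ Q η : ℝ) : ℝ := (1 + η) * (cn n * (1 + 2 * aa n)) *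
  (2 * (μ + η + Real.sqrt ((μ + η) ^ 2 - qq n η η Q ^ 2))) ^ (2 + 2 * aa n)

theorem continuousAt_qq {n : ℕ} (hn : 3 ≤ n) (Q : ℝ) : ContinuousAt (fun η => qq n η η Q) 0 := by
  have := aa_pos hn
  unfold qq
  refine ContinuousAt.mul (ContinuousAt.sqrt (ContinuousAt.div (by fun_prop) (by fun_prop) ?_))
    continuousAt_const
  positivity

theorem continuousAt_rhs {n : ℕ} (hn : 3 ≤ n) (μ Q : ℝ) : ContinuousAt (rhs n μ Q) 0 := by
  have := aa_pos hn
  have h := continuousAt_qq hn Q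
  unfold rhs
  refine ContinuousAt.mul (by fun_prop) (ContinuousAt.rpow_const ?_ (Or.inr (by positivity)))
  exact continuousAt_const.mul ((continuousAt_const.add continuousAt_id).add
    (((continuousAt_const.add continuousAt_id).pow 2).sub (h.pow 2)).sqrt)

theorem exists_eta {P : ℝ → Prop} (h : ∀ᶠ η in 𝓝 (0 : ℝ), P η) : ∃ η, 0 < η ∧ η ≤ 1 ∧ P η := by
  have h1 : ∀ᶠ η in 𝓝[>] (0 : ℝ), P η := h.filter_mono nhdsWithin_le_nhds
  have h2 : ∀ᶠ η in 𝓝[>] (0 : ℝ), η ∈ Ioc (0 : ℝ) 1 := Ioc_mem_nhdsGT zero_lt_one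
  obtain ⟨η, h3, h4⟩ := (h2.and h1).exists
  exact ⟨η, h3.1, h3.2, h4⟩

section
variable (hS : SPStmt) (hI : IsoStmt) (hsob : SobStmt) (hC : CptStmt) (hcut : CutStmt)
  (hN : NeckStmt) (hT : TopStmt)
include hS hI hsob hC hcut hN hT

theorem neck_top {n : ℕ} (hn : 3 ≤ n) {m Q η : ℝ} (hm : 0 < m) (hQ : 0 ≤ Q) (hη : 0 < η)
    (hη1 : η ≤ 1) (N : ℕ) : ∃ ℓ0 : ℝ, ∀ ℓ ≥ ℓ0, ∀ A : ℝ, 0 ≤ A →
      ∀ (g : MetricField n) (d U : E n → ℝ) (EE : VectorField n),
      N346.Neck n η (ℓ ^ N) ℓ m A Q g d U EE →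
      qq n η η Q ≤ ((n : ℝ) - 2) * unitSphereArea n * m / 2 ∧
        A ^ 2 ≤ rhs n (((n : ℝ) - 2) * unitSphereArea n * m / 2) Q η := by
  have h3 : (3 : ℝ) ≤ n := by exact_mod_cast hn
  have hω := unitSphereArea_pos (n := n) (by omega)
  have hμ : 0 < ((n : ℝ) - 2) * unitSphereArea n * m / 2 :=
    half_pos (mul_pos (mul_pos (by linarith) hω) hm)
  have hq : 0 ≤ qq n η η Q := mul_nonneg (Real.sqrt_nonneg _) (mul_nonneg hω.le hQ)
  obtain ⟨C, hC1, hN⟩ := hN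
  obtain ⟨ω₀, hω₀, hT⟩ := hT (aa n) _ _ η η (cn n) (aa_pos hn) (aa_le hn) hμ hq hη hη (cn_pos hn)
  have ev1 : ∀ᶠ ℓ : ℝ in atTop, C * (1 + Real.log (ℓ ^ N)) ≤ ℓ := by
    have hc : 0 < 1 / (2 * C * (N + 1)) := by positivity
    filter_upwards [Real.isLittleO_log_id_atTop.bound hc, eventually_ge_atTop (2 * C),
      eventually_ge_atTop 1] with ℓ h1 h2 h4
    have h5 := Real.log_nonneg h4
    rw [Real.norm_of_nonneg h5, id, Real.norm_of_nonneg (by linarith), one_div,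
      ← div_eq_inv_mul, le_div_iff₀ (by positivity)] at h1
    rw [Real.log_pow]
    nlinarith [mul_nonneg h5 (show 0 ≤ C by linarith)]
  have ev2 : ∀ᶠ ℓ : ℝ in atTop, C / ℓ ≤ ω₀ :=
    (tendsto_const_nhds.div_atTop tendsto_id).eventually (ge_mem_nhds hω₀)
  obtain ⟨ℓ0, hℓ0⟩ := eventually_atTop.1 ((ev1.and ev2).and (eventually_ge_atTop 1))
  refine ⟨ℓ0, fun ℓ hℓ A hA g d U EE h => ?_⟩
  obtain ⟨⟨l1, l2⟩, l3⟩ := hℓ0 ℓ hℓ
  have hΛ : 1 ≤ ℓ ^ N := one_le_pow₀ l3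
  have hE : EndD n g U (((n : ℝ) - 2) * unitSphereArea n * m / 2) :=
    ⟨h.riem, ⟨_, hΛ, h.g_lo, h.g_hi⟩, h.U_smooth, h.U_pos, h.g_inf, h.U_lim, h.U_grad, h.U_hardy,
      h.mass, ℓ ^ N, fun x hx => le_trans (mul_nonneg (by linarith) (eSq_nonneg' h.riem EE x))
        (h.R_out x (by rw [h.d_far x hx]; linarith))⟩
  obtain ⟨F, hF, hsp⟩ := hS n hn g U _ hE
  have hne := hN n hn η η _ ℓ m A Q g F d U EE h hF hη1 hη hη1 hΛ l1 (dclass hF) rfl
  choose u₀ G₀ Q₀ hu hu' hnk using hne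
  exact hT (E n) (E n) (nu g) (dclass hF) (C / ℓ) A (by positivity) l2 hA
    { ρ := fun x => scalarCurv g x / 4
      Z := {x | ℓ - 1 / 2 ≤ d x}
      Z' := Metric.closedBall 0 (ℓ ^ N)
      Z_sub := fun x hx => by
        by_contra hc
        rw [mem_closedBall_zero_iff, not_le] at hc
        have := h.d_far x hc.le
        rw [mem_setOf_eq, this] at hx
        linarith
      sp := hsp _ rfl
      u₀ := u₀
      G₀ := G₀
      Q₀ := Q₀
      u₀_D := hu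
      u₀_mem := hu'
      neck := hnk
      iso := hI n hn g F U _ hE hF
      sob := hsob n hn g F hF
      cpt := hC n hn g F hF
      cut := hcut n hn g F hF d _ ℓ A h.d_smooth h.d_far l3 h.area }

theorem p2u_of : P2UStmt := by
  intro n hn m A hm hA hlt
  have h3 : (3 : ℝ) ≤ n := by exact_mod_cast hn
  have hω := unitSphereArea_pos (n := n) (by omega)
  have ha := aa_pos hn
  have h0 : rhs n (((n : ℝ) - 2) * unitSphereArea n * m / 2) 0 0 < A ^ 2 := by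
    have hμ : 0 ≤ ((n : ℝ) - 2) * unitSphereArea n * m / 2 :=
      (half_pos (mul_pos (mul_pos (by linarith) hω) hm)).le
    simp only [rhs, qq, mul_zero, add_zero, one_mul, ne_eq, OfNat.ofNat_ne_zero, not_false_eq_true,
      zero_pow, sub_zero, Real.sqrt_sq hμ]
    rw [show 2 * (((n : ℝ) - 2) * unitSphereArea n * m / 2 +
      ((n : ℝ) - 2) * unitSphereArea n * m / 2) = ((n : ℝ) - 2) * unitSphereArea n * (2 * m) by ring,
      cn_mul hn (by positivity)]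
    have h1 : 2 * m < (A / unitSphereArea n) ^ (((n : ℝ) - 2) / ((n : ℝ) - 1)) := by
      unfold PB at hlt; linarith
    have h2 := Real.rpow_lt_rpow (by positivity) h1 (show 0 < 2 + 2 * aa n by positivity)
    have h4 : ((n : ℝ) - 2) / ((n : ℝ) - 1) * (2 + 2 * aa n) = (2 : ℕ) := by
      have : (n : ℝ) - 2 ≠ 0 := by linarith
      have : (n : ℝ) - 1 ≠ 0 := by linarith
      rw [aa]; field_simp; push_cast; ring
    rw [← Real.rpow_mul (by positivity), h4, Real.rpow_natCast, div_pow,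
      lt_div_iff₀ (by positivity)] at h2
    linarith
  obtain ⟨η, h1, h2, h4⟩ := exists_eta ((continuousAt_rhs hn _ 0).eventually (gt_mem_nhds h0))
  refine ⟨η, h1, fun N => ?_⟩
  obtain ⟨ℓ0, hℓ⟩ := neck_top hS hI hsob hC hcut hN hT hn hm le_rfl h1 h2 N
  exact ⟨ℓ0, fun ℓ hl g d U h => absurd (hℓ ℓ hl A hA.le g d U _ h).2 (not_le.2 h4)⟩

theorem p2c_of : P2CStmt := by
  intro m A Q hm hA hQ hlt
  have hω := unitSphereArea_pos (n := 3) (by omega)
  have hω4 : unitSphereArea 3 = 4 * Real.pi := by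
    have h1 : Real.Gamma ((3 : ℕ) / 2 : ℝ) = √Real.pi / 2 := by
      rw [show ((3 : ℕ) / 2 : ℝ) = 1 / 2 + 1 by norm_num, Real.Gamma_add_one (by norm_num),
        Real.Gamma_one_half_eq]; ring
    have h2 : Real.pi ^ ((3 : ℕ) / 2 : ℝ) = Real.pi * √Real.pi := by
      rw [show ((3 : ℕ) / 2 : ℝ) = 1 + 1 / 2 by norm_num, Real.rpow_add Real.pi_pos,
        Real.rpow_one, Real.sqrt_eq_rpow]
    have h3 := (Real.sqrt_pos.2 Real.pi_pos).ne'
    rw [unitSphereArea, h1, h2]; field_simp; ring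
  have ha : aa 3 = 1 := by norm_num [aa]
  have hq0 : qq 3 0 0 Q = unitSphereArea 3 * Q / 2 := by
    rw [qq, ha, show ((1 : ℝ) - 0) / (2 * (1 + 1 + 0)) = (1 / 2) ^ 2 by norm_num,
      Real.sqrt_sq (by norm_num)]; ring
  have key : ∃ η, 0 < η ∧ η ≤ 1 ∧ ¬ (qq 3 η η Q ≤ (((3 : ℕ) : ℝ) - 2) * unitSphereArea 3 * m / 2 ∧
      A ^ 2 ≤ rhs 3 ((((3 : ℕ) : ℝ) - 2) * unitSphereArea 3 * m / 2) Q η) := by
    rcases hlt with hlt | hlt
    · have h0 : (((3 : ℕ) : ℝ) - 2) * unitSphereArea 3 * m / 2 < qq 3 0 0 Q := by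
        rw [hq0]; push_cast; nlinarith
      exact exists_eta (((continuousAt_qq le_rfl Q).eventually (lt_mem_nhds h0)).mono
        fun η h h' => absurd h'.1 (not_le.2 h))
    · have h0 : rhs 3 ((((3 : ℕ) : ℝ) - 2) * unitSphereArea 3 * m / 2) Q 0 < A ^ 2 := by
        have hs := Real.sqrt_nonneg (m ^ 2 - Q ^ 2)
        have e : 2 * ((((3 : ℕ) : ℝ) - 2) * unitSphereArea 3 * m / 2 + 0 +
            √(((((3 : ℕ) : ℝ) - 2) * unitSphereArea 3 * m / 2 + 0) ^ 2 - qq 3 0 0 Q ^ 2))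
            = (((3 : ℕ) : ℝ) - 2) * unitSphereArea 3 * (m + √(m ^ 2 - Q ^ 2)) := by
          rw [hq0, show ((((3 : ℕ) : ℝ) - 2) * unitSphereArea 3 * m / 2 + 0) ^ 2 -
            (unitSphereArea 3 * Q / 2) ^ 2 = (unitSphereArea 3 / 2) ^ 2 * (m ^ 2 - Q ^ 2) by
              push_cast; ring, Real.sqrt_mul (sq_nonneg _), Real.sqrt_sq (by positivity)]
          push_cast; ring
        rw [rhs, e, add_zero, one_mul, cn_mul le_rfl (by positivity), ha,
          show (2 : ℝ) + 2 * 1 = (4 : ℕ) by norm_num, Real.rpow_natCast, hω4]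
        have hp : 0 < 4 * Real.pi := by positivity
        have h1 : (m + √(m ^ 2 - Q ^ 2)) ^ 2 < A / (4 * Real.pi) :=
          Real.lt_sqrt (by positivity) |>.1 hlt
        rw [lt_div_iff₀ hp] at h1
        calc (4 * Real.pi) ^ 2 * (m + √(m ^ 2 - Q ^ 2)) ^ 4
            = ((m + √(m ^ 2 - Q ^ 2)) ^ 2 * (4 * Real.pi)) ^ 2 := by ring
          _ < A ^ 2 := by gcongr
      exact exists_eta (((continuousAt_rhs le_rfl _ Q).eventually (gt_mem_nhds h0)).mono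
        fun η h h' => absurd h'.2 (not_le.2 h))
  obtain ⟨η, h1, h2, h4⟩ := key
  refine ⟨η, h1, fun N => ?_⟩
  obtain ⟨ℓ0, hℓ⟩ := neck_top hS hI hsob hC hcut hN hT le_rfl hm hQ h1 h2 N
  exact ⟨ℓ0, fun ℓ hl g d U EE h => h4 (hℓ ℓ hl A hA.le g d U EE h)⟩

end

theorem topAll : TopStmt := top prof (core fields) zero comp area var

theorem p2U : P2UStmt := p2u_of Sp.sp iso' sob cpt' cut (neck shield) topAll

theorem p2C : P2CStmt := p2c_of Sp.sp iso' sob cpt' cut (neck shield) topAll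

end Crest.Agent.N346.P2.Fin

end
end

-- ▼ part N346/P1/SetupA
section

/-! Row 346, P1-S (helper41), part A: the barrier `y = -κ √(ρ - s)` and its Jang operator. -/

set_option autoImplicit false

open Filter Topology Set
open scoped ContDiff
open Crest.GeometryTopology.CoordMetric Crest.MathPhysics.ExteriorData
open Crest.Agent.R202.Tens Crest.Agent.R247.Bo84 Crest.Agent.N346.Id

noncomputable section

namespace Crest.Agent.N346.P1.St

variable {n : ℕ} {g K : MetricField n} {s : E n → ℝ} {x : E n}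

/-- `Hess s (∇s, ∇s)` -/
def Hss (g : MetricField n) (s : E n → ℝ) (x : E n) : ℝ := hess g s x (grad g s x) (grad g s x)
/-- `K (∇s, ∇s)` -/
def Kss (g K : MetricField n) (s : E n → ℝ) (x : E n) : ℝ := bil (K x) (grad g s x) (grad g s x)

theorem levelExp_eq (hg : IsRiemannianOn g univ) (hs : ContDiff ℝ ∞ s) (ha : 0 < gam g s s x) :
    levelExp g K s x = laplaceBeltrami g s x / √(gam g s s x) - Hss g s x / √(gam g s s x) ^ 3
      - traceK g K x + Kss g K s x / √(gam g s s x) ^ 2 := by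
  have hx : x ∈ (univ : Set (E n)) := trivial
  have hs2 : ContDiffAt ℝ 2 s x := hs.contDiffAt.of_le (by norm_cast)
  have hr : 0 < √(gam g s s x) := Real.sqrt_pos.2 ha
  have e : (fun y => (WithLp.toLp 2 (levelNormal g s y) : E n))
      = fun y => (√(gam g s s y))⁻¹ • grad g s y := by
    funext y; ext i
    simp [levelNormal, grad_apply, gradSq_eq_gam, div_eq_inv_mul]
  have hd : DifferentiableAt ℝ (gam g s s) x :=
    (contDiffAt_gam hg hx hs.contDiffAt hs.contDiffAt (by simp) le_rfl).differentiableAt (by simp)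
  have h1 : HasFDerivAt (fun y => (√(gam g s s y))⁻¹) _ x :=
    (hasDerivAt_inv hr.ne').comp_hasFDerivAt x (hd.hasFDerivAt.sqrt ha.ne')
  have h2 : gDiv g (levelNormal g s) x
      = laplaceBeltrami g s x / √(gam g s s x) - Hss g s x / √(gam g s s x) ^ 3 := by
    rw [gDiv_eq_divg, e, divg_smul hg hx h1.differentiableAt (differentiableAt_grad hg hx hs2),
      h1.fderiv, divg_grad]
    simp only [smul_apply, fderiv_gam hg hx hs2 hs2, smul_eq_mul, Hss]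
    field_simp
    ring
  rw [levelExp, h2]
  simp only [sub_mul, Finset.sum_sub_distrib, Kss, bil_apply, traceK, levelNormal, grad_apply,
    gradSq_eq_gam, Finset.sum_div]
  have : ∀ i j, (∑ k, inverseField g x i k * pderiv k s x / √(gam g s s x)) *
      (∑ k, inverseField g x j k * pderiv k s x / √(gam g s s x)) * K x i j =
      K x i j * (∑ k, inverseField g x i k * pderiv k s x) *
        (∑ k, inverseField g x j k * pderiv k s x) / √(gam g s s x) ^ 2 := fun i j => by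
    rw [← Finset.sum_div, ← Finset.sum_div]; field_simp
  simp only [this]
  ring

/-- the barrier profile -/
def bf (κ ρ t : ℝ) : ℝ := -κ * √(ρ - t)

theorem hasDerivAt_bf (κ : ℝ) {ρ t : ℝ} (h : t < ρ) :
    HasDerivAt (bf κ ρ) (κ / (2 * √(ρ - t))) t := by
  have := (((hasDerivAt_id' t).const_sub ρ).sqrt (by linarith)).const_mul (-κ)
  refine this.congr_deriv ?_
  ring

theorem deriv2_bf {κ ρ t : ℝ} (_hκ : κ ≠ 0) (h : t < ρ) :
    deriv (deriv (bf κ ρ)) t = 2 * (κ / (2 * √(ρ - t))) ^ 3 / κ ^ 2 := by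
  have e : deriv (bf κ ρ) =ᶠ[𝓝 t] fun t => κ / (2 * √(ρ - t)) :=
    (gt_mem_nhds h).mono fun _ hu => (hasDerivAt_bf κ hu).deriv
  have hr : 0 < √(ρ - t) := Real.sqrt_pos.2 (by linarith)
  have := (hasDerivAt_const t κ).fun_div
    ((((hasDerivAt_id' t).const_sub ρ).sqrt (by linarith)).const_mul 2) (by positivity)
  rw [e.deriv_eq, this.deriv]
  field_simp
  ring

theorem contDiffAt_bf (κ : ℝ) {ρ t : ℝ} (h : t < ρ) : ContDiffAt ℝ ∞ (bf κ ρ) t :=
  contDiffAt_const.mul ((contDiffAt_const.sub contDiffAt_id).sqrt (by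
    simp only [id]; linarith))

theorem jd_bf (hg : IsRiemannianOn g univ) (hs : ContDiff ℝ ∞ s) (κ ρ : ℝ) :
    Jd g (fun _ => 1) (fun y => bf κ ρ (s y)) {y | s y < ρ} :=
  ⟨⟨isOpen_lt hs.continuous continuous_const, fun i j => (hg.contDiffOn i j).mono (subset_univ _),
    fun y _ => hg.posDef y trivial⟩, contDiffOn_const,
    fun _ hy => ((contDiffAt_bf κ hy).comp _ hs.contDiffAt).contDiffWithinAt, fun _ _ => one_pos⟩

/-- The Jang operator of the barrier. -/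
theorem Th_bf (hg : IsRiemannianOn g univ) (hs : ContDiff ℝ ∞ s) {κ ρ : ℝ} (hκ : 0 < κ)
    (hx : s x < ρ) : ∃ u : ℝ, 0 ≤ u ∧ u ≤ κ / (2 * √(ρ - s x)) ∧ u ^ 2 * gam g s s x ≤ 1 ∧
      (1 - u ^ 2 * gam g s s x) * (κ ^ 2 * gam g s s x) ≤ 4 * (ρ - s x) ∧
      pp g (fun _ => 1) (fun y => bf κ ρ (s y)) x = u ^ 2 * gam g s s x ∧
      ∀ K : MetricField n, Th g (fun _ => 1) (fun y => bf κ ρ (s y)) K x =
        u * laplaceBeltrami g s x - u ^ 3 * Hss g s x + 2 * u ^ 3 * gam g s s x / κ ^ 2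
          - traceK g K x + u ^ 2 * Kss g K s x := by
  have hd := jd_bf hg hs κ ρ
  have hxU : x ∈ {y | s y < ρ} := hx
  have hu : x ∈ (univ : Set (E n)) := trivial
  have hs2 : ContDiffAt ℝ 2 s x := hs.contDiffAt.of_le (by norm_cast)
  have hsd : DifferentiableAt ℝ s x := hs2.differentiableAt (by norm_num)
  have hb2 : ContDiffAt ℝ 2 (bf κ ρ) (s x) := (contDiffAt_bf κ hx).of_le (by norm_cast)
  have hbd := hasDerivAt_bf κ hx
  have hr : 0 < √(ρ - s x) := Real.sqrt_pos.2 (by linarith)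
  have hr2 : √(ρ - s x) ^ 2 = ρ - s x := Real.sq_sqrt (by linarith)
  set β := κ / (2 * √(ρ - s x)) with hβ
  have hβ0 : 0 < β := by positivity
  have ha := gam_self_nonneg hg hu s
  have hγ := hd.gm_pos hxU
  have hγ1 := hd.one_le_gm hxU
  have hsq : Id.sq g (fun _ => 1) (fun y => bf κ ρ (s y)) x = β ^ 2 * gam g s s x := by
    unfold Id.sq
    rw [gam_comp_left hbd.differentiableAt hsd, gam_comp_right hbd.differentiableAt hsd,
      hbd.deriv]
    ring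
  have hγ2 := hd.gm_sq hxU
  have hpp := hd.gm_sq_mul_pp hxU
  rw [hsq] at hγ2 hpp
  have hw : wv g (fun _ => 1) (fun y => bf κ ρ (s y)) x
      = (β / gm g (fun _ => 1) (fun y => bf κ ρ (s y)) x) • grad g s x := by
    rw [wv, grad_comp hbd.differentiableAt hsd, hbd.deriv, smul_smul]
    congr 1; ring
  have haa : aa g (fun _ => 1) (fun y => bf κ ρ (s y)) x = 0 := by
    have : lv (fun _ : E n => (1 : ℝ)) = fun _ => 0 := by funext y; simp [lv]
    simp [aa, this]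
  have hT : ∀ K : MetricField n, Th g (fun _ => 1) (fun y => bf κ ρ (s y)) K x =
      H0 g (fun _ => 1) (fun y => bf κ ρ (s y)) x
        - traceK (gb g (fun _ => 1) fun y => bf κ ρ (s y)) K x := fun K => traceK_sub _ _ _ _
  simp only [hT, hd.H0_eq hxU, haa, hd.traceK_gb hxU, ← lap_eq_traceK hg hu (hd.cf2 hxU),
    bil_hessM, hw, map_smul, smul_apply, smul_eq_mul, lap_comp hg hu hb2 hs2,
    hess_comp hb2 hs2, hbd.deriv, deriv2_bf hκ.ne' hx, ← hβ, ← gam_eq_fderiv_grad]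
  generalize gm g (fun _ => 1) (fun y => bf κ ρ (s y)) x = γ at *
  generalize pp g (fun _ => 1) (fun y => bf κ ρ (s y)) x = p at *
  have e1 : (β / γ) ^ 2 * gam g s s x = 1 - (γ ^ 2)⁻¹ := by
    field_simp; linarith
  refine ⟨β / γ, by positivity, div_le_self hβ0.le hγ1, ?_, ?_, ?_, fun K => ?_⟩
  · rw [e1]; have : 0 < (γ ^ 2)⁻¹ := by positivity
    linarith
  · have e2 : κ ^ 2 = 4 * (ρ - s x) * β ^ 2 := by
      rw [hβ, div_pow, mul_pow, hr2]
      have : ρ - s x ≠ 0 := by linarith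
      field_simp; ring
    rw [e1, e2, sub_sub_cancel, inv_mul_le_iff₀ (by positivity), hγ2]
    nlinarith
  · field_simp; linarith
  · have e3 : gam g s s x - (β / γ) ^ 2 * gam g s s x * gam g s s x = gam g s s x / γ ^ 2 := by
      rw [e1]; field_simp; ring
    simp only [Hss, Kss]
    have e4 : 2 * (β / γ) ^ 3 * gam g s s x / κ ^ 2
        = 1 / γ * (2 * β ^ 3 / κ ^ 2) * (gam g s s x / γ ^ 2) := by field_simp
    rw [e4, ← e3]
    field_simp
    ring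

/-- adding `k g` to `K` -/
theorem Th_add (hg : IsRiemannianOn g univ) {f : E n → ℝ} {U : Set (E n)}
    (hd : Jd g (fun _ => 1) f U) (hx : x ∈ U) (k : E n → ℝ) :
    Th g (fun _ => 1) f (fun y => K y + k y • g y) x =
      Th g (fun _ => 1) f K x - k x * (n - pp g (fun _ => 1) f x) := by
  have hT : ∀ K : MetricField n, Th g (fun _ => 1) f K x =
      H0 g (fun _ => 1) f x - traceK (gb g (fun _ => 1) f) K x := fun K => traceK_sub _ _ _ _
  have h1 : traceK g (fun y => k y • g y) x = k x * n := by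
    rw [traceK_eq hg trivial, shp_smul, shp_self hg trivial, map_smul, trL_id, smul_eq_mul]
  rw [hT, hT, traceK_add, hd.traceK_gb hx (fun y => k y • g y), h1, bil_smul, hd.bil_wv_wv hx]
  ring

theorem alg_aux {w ε D L H Q : ℝ} (hw0 : 0 ≤ w) (hw1 : w ≤ 1) (hε : 1 - w ^ 2 ≤ ε)
    (hL : |L| ≤ D) (hH : |H| ≤ D) (hQ : |Q| ≤ D) :
    w * L - w ^ 3 * H + w ^ 2 * Q ≤ L - H + Q + 4 * ε * D := by
  have hD : 0 ≤ D := (abs_nonneg _).trans hL
  have a0 : w ^ 2 ≤ w := by nlinarith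
  have a1 : 0 ≤ 1 - w := by linarith
  have a2 : 1 - w ≤ ε := by linarith
  have a3 : 0 ≤ 1 - w ^ 3 := sub_nonneg.2 (pow_le_one₀ hw0 hw1)
  have a4 : 1 - w ^ 3 ≤ 2 * ε := by nlinarith
  have a5 : 0 ≤ 1 - w ^ 2 := by linarith
  have key : ∀ {c e X : ℝ}, 0 ≤ c → c ≤ e → |X| ≤ D → |c * X| ≤ e * D := fun h1 h2 h3 => by
    rw [abs_mul, abs_of_nonneg h1]
    exact mul_le_mul h2 h3 (abs_nonneg _) (h1.trans h2)
  have b1 := (abs_le.1 (key a1 a2 hL)).1
  have b2 := (abs_le.1 (key a3 a4 hH)).2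
  have b3 := (abs_le.1 (key a5 hε hQ)).1
  linarith

/-- the pointwise comparison with the expansion of the level set -/
theorem alg_bound {u r L H T Q κ D : ℝ} (hu : 0 ≤ u) (hr : 0 < r) (hκ : 0 < κ)
    (h1 : u ^ 2 * r ^ 2 ≤ 1) (h2 : (1 - u ^ 2 * r ^ 2) * (κ ^ 2 * r ^ 2) ≤ 8)
    (hL : |L / r| ≤ D) (hH : |H / r ^ 3| ≤ D) (hQ : |Q / r ^ 2| ≤ D) (hD : r⁻¹ ≤ D) :
    u * L - u ^ 3 * H + 2 * u ^ 3 * r ^ 2 / κ ^ 2 - T + u ^ 2 * Q
      ≤ L / r - H / r ^ 3 - T + Q / r ^ 2 + (32 * D ^ 3 + 2 * D) / κ ^ 2 := by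
  have hD0 : 0 < D := lt_of_lt_of_le (by positivity) hD
  obtain ⟨w, hw⟩ : ∃ w, w = u * r := ⟨_, rfl⟩
  have hw0 : 0 ≤ w := by rw [hw]; positivity
  have e : u ^ 2 * r ^ 2 = w ^ 2 := by rw [hw]; ring
  rw [e] at h1 h2
  have hw1 : w ≤ 1 := by nlinarith
  have hε : 1 - w ^ 2 ≤ 8 * D ^ 2 / κ ^ 2 := by
    have h3 : 1 ≤ r * D := by rwa [inv_le_iff_one_le_mul₀' hr] at hD
    rw [le_div_iff₀ (by positivity)]
    have h4 : 0 ≤ (1 - w ^ 2) * κ ^ 2 := mul_nonneg (by linarith) (sq_nonneg _)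
    have h5 : 1 ≤ (r * D) ^ 2 := one_le_pow₀ h3
    calc (1 - w ^ 2) * κ ^ 2 ≤ (1 - w ^ 2) * κ ^ 2 * (r * D) ^ 2 := le_mul_of_one_le_right h4 h5
      _ = (1 - w ^ 2) * (κ ^ 2 * r ^ 2) * D ^ 2 := by ring
      _ ≤ _ := by gcongr
  have e1 : u * L - u ^ 3 * H + 2 * u ^ 3 * r ^ 2 / κ ^ 2 - T + u ^ 2 * Q
      = w * (L / r) - w ^ 3 * (H / r ^ 3) + 2 * (w ^ 3 * r⁻¹) / κ ^ 2 - T + w ^ 2 * (Q / r ^ 2) := by
    rw [hw]; field_simp
  have h6 : w ^ 3 * r⁻¹ ≤ D := (mul_le_of_le_one_left (by positivity) (pow_le_one₀ hw0 hw1)).trans hD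
  have h7 : 2 * (w ^ 3 * r⁻¹) / κ ^ 2 ≤ 2 * D / κ ^ 2 := by gcongr
  have e2 : (32 * D ^ 3 + 2 * D) / κ ^ 2 = 4 * (8 * D ^ 2 / κ ^ 2) * D + 2 * D / κ ^ 2 := by ring
  rw [e1, e2]
  have := alg_aux hw0 hw1 hε hL hH hQ
  linarith

theorem continuous_grad (hg : IsRiemannianOn g univ) (hs : ContDiff ℝ ∞ s) :
    ContDiff ℝ ∞ (grad g s) :=
  contDiff_iff_contDiffAt.2 fun _ => contDiffAt_grad hg trivial hs.contDiffAt (by simp) le_rfl

theorem continuous_Hss (hg : IsRiemannianOn g univ) (hs : ContDiff ℝ ∞ s) :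
    Continuous (Hss g s) := by
  have : Hss g s = fun x => bil (hessM g s x) (grad g s x) (grad g s x) :=
    funext fun x => (bil_hessM _ _ _ _ _).symm
  rw [this]
  exact continuous_iff_continuousAt.2 fun x => (contDiffAt_bil_apply
    (contDiffAt_hessM hg trivial hs.contDiffAt) (continuous_grad hg hs).contDiffAt
    (continuous_grad hg hs).contDiffAt).continuousAt

theorem continuous_Kss (hg : IsRiemannianOn g univ) (hs : ContDiff ℝ ∞ s)
    (hK : ∀ i j, ContDiff ℝ ∞ fun x => K x i j) : Continuous (Kss g K s) :=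
  continuous_iff_continuousAt.2 fun _ => (contDiffAt_bil_apply
    (fun i j => (hK i j).contDiffAt) (continuous_grad hg hs).contDiffAt
    (continuous_grad hg hs).contDiffAt).continuousAt

theorem continuous_traceK (hg : IsRiemannianOn g univ)
    (hK : ∀ i j, ContDiff ℝ ∞ fun x => K x i j) : Continuous (traceK g K) :=
  continuous_iff_continuousAt.2 fun _ =>
    (contDiffAt_traceK hg trivial le_rfl fun i j => (hK i j).contDiffAt).continuousAt

/-- steepness of the barrier at the boundary -/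
theorem steep (hs : DifferentiableAt ℝ s x) (hd : fderiv ℝ s x ≠ 0) {κ : ℝ} (hκ : 0 < κ) (L : ℝ) :
    ∃ x', s x' < s x ∧ bf κ (s x) (s x') + L * ‖x' - x‖ < bf κ (s x) (s x) := by
  obtain ⟨v, hv⟩ : ∃ v, fderiv ℝ s x v < 0 := by
    by_contra h
    push Not at h
    refine hd (ContinuousLinearMap.ext fun v => le_antisymm ?_ (h v))
    have := h (-v)
    rw [map_neg] at this
    simpa using this
  set a := -fderiv ℝ s x v with ha
  have ha0 : 0 < a := by linarith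
  have h1 : HasDerivAt (fun τ : ℝ => s (x + τ • v)) (fderiv ℝ s x v) 0 := by
    have h2 : HasDerivAt (fun τ : ℝ => x + τ • v) v 0 := by
      simpa using ((hasDerivAt_id (0 : ℝ)).smul_const v).const_add x
    have h3 : HasFDerivAt s (fderiv ℝ s x) (x + (0 : ℝ) • v) := by simpa using hs.hasFDerivAt
    exact h3.comp_hasDerivAt 0 h2
  have h4 := (hasDerivAt_iff_tendsto_slope_zero.1 h1).mono_left (nhdsGT_le_nhdsNE 0)
  have h5 := h4.eventually (gt_mem_nhds (show fderiv ℝ s x v < -(a / 2) by linarith))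
  have h6 : ∀ᶠ τ in 𝓝[>] (0 : ℝ), (L * ‖v‖) ^ 2 * τ < κ ^ 2 * (a / 2) := by
    have : Tendsto (fun τ : ℝ => (L * ‖v‖) ^ 2 * τ) (𝓝 0) (𝓝 ((L * ‖v‖) ^ 2 * 0)) :=
      tendsto_id.const_mul _
    exact (this.eventually (gt_mem_nhds (by rw [mul_zero]; positivity))).filter_mono
      nhdsWithin_le_nhds
  obtain ⟨τ, ⟨t1, t2⟩, hτ⟩ := ((h5.and h6).and self_mem_nhdsWithin).exists
  have hτ0 : 0 < τ := hτ
  simp only [zero_add, zero_smul, add_zero, smul_eq_mul] at t1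
  rw [inv_mul_lt_iff₀ hτ0] at t1
  refine ⟨x + τ • v, by nlinarith, ?_⟩
  simp only [bf, sub_self, Real.sqrt_zero, mul_zero, add_sub_cancel_left, norm_smul,
    Real.norm_of_nonneg hτ0.le]
  have h7 : L * (τ * ‖v‖) < κ * √(s x - s (x + τ • v)) := by
    refine lt_of_le_of_lt (le_abs_self _) (abs_lt_of_sq_lt_sq ?_ (by positivity))
    rw [mul_pow κ, Real.sq_sqrt (by nlinarith)]
    have : (L * (τ * ‖v‖)) ^ 2 = (L * ‖v‖) ^ 2 * τ * τ := by ring
    rw [this]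
    have h8 := mul_lt_mul_of_pos_right t2 hτ0
    have h9 : κ ^ 2 * (a / 2 * τ) ≤ κ ^ 2 * (s x - s (x + τ • v)) := by gcongr; linarith
    linarith
  linarith

end Crest.Agent.N346.P1.St
end
end

-- ▼ part N346/P1/SetupB
section

/-! Row 346, P1-S (helper41), part B: weights, curvature bounds, modification of `K`. -/

set_option autoImplicit false

open Filter Topology Set
open scoped ContDiff
open Crest.GeometryTopology.CoordMetric Crest.MathPhysics.ExteriorData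
open Crest.Agent.R202.Tens Crest.Agent.R247.Bo84 Crest.Agent.N346.Id

noncomputable section

namespace Crest.Agent.N346.P1.St

variable {n : ℕ} {m A Q : ℝ} {g K : MetricField n} {EE : VectorField n} {ψ s : E n → ℝ}
  {R0 C c0 e0 θ0 r1 : ℝ} {x : E n}

theorem wt_le {r k : ℝ} (hr : 0 ≤ r) (hk : 0 ≤ k) : (1 + r) ^ (-k) ≤ (1 + r ^ 2) ^ (-k / 2) := by
  have h := Real.rpow_le_rpow_of_nonpos (show 0 < 1 + r ^ 2 by positivity)
    (show 1 + r ^ 2 ≤ (1 + r) ^ 2 by nlinarith) (show -k / 2 ≤ 0 by linarith)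
  rwa [← Real.rpow_natCast (1 + r), ← Real.rpow_mul (by positivity),
    show ((2 : ℕ) : ℝ) * (-k / 2) = -k by push_cast; ring] at h

theorem le_wt {r k : ℝ} (hr : 0 ≤ r) (hk : 0 ≤ k) :
    (2 : ℝ) ^ (-k / 2) * (1 + r ^ 2) ^ (-k / 2) ≤ (1 + r) ^ (-k) := by
  have h := Real.rpow_le_rpow_of_nonpos (show 0 < (1 + r) ^ 2 by positivity)
    (show (1 + r) ^ 2 ≤ 2 * (1 + r ^ 2) by nlinarith [sq_nonneg (r - 1)])
    (show -k / 2 ≤ 0 by linarith)
  rwa [← Real.rpow_natCast (1 + r), ← Real.rpow_mul (by positivity),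
    show ((2 : ℕ) : ℝ) * (-k / 2) = -k by push_cast; ring,
    Real.mul_rpow (by positivity) (by positivity)] at h

theorem wt_anti {r R k : ℝ} (hr : 0 ≤ r) (h : r ≤ R) (hk : k ≤ 0) :
    (1 + R ^ 2) ^ k ≤ (1 + r ^ 2) ^ k :=
  Real.rpow_le_rpow_of_nonpos (by positivity) (by gcongr) hk

theorem contDiff_ricci (hg : IsRiemannianOn g univ) (i j : Fin n) :
    ContDiff ℝ ∞ fun x => ricci g x i j := by
  have h1 : ∀ k i j, ContDiff ℝ ∞ fun x => christoffel g x k i j := fun k i j =>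
    contDiff_const.mul (ContDiff.sum fun l _ => (Bs.contDiff_inv hg k l).mul
      (((Bs.contDiff_pd (Bs.contDiff_g hg j l) i).add (Bs.contDiff_pd (Bs.contDiff_g hg i l) j)).sub
        (Bs.contDiff_pd (Bs.contDiff_g hg i j) l)))
  exact (((ContDiff.sum fun k _ => Bs.contDiff_pd (h1 k i j) k).sub
    (Bs.contDiff_pd (ContDiff.sum fun k _ => h1 k k i) j)).add
    (ContDiff.sum fun k _ => ContDiff.sum fun l _ => (h1 k k l).mul (h1 l i j))).sub
    (ContDiff.sum fun k _ => ContDiff.sum fun l _ => (h1 k j l).mul (h1 l k i))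

theorem continuous_bil2 {M : MetricField n} (h : ∀ i j, Continuous fun x => M x i j) :
    Continuous fun p : E n × E n => bil (M p.1) p.2 p.2 := by
  simp only [bil_apply]
  exact continuous_finsetSum _ fun i _ => continuous_finsetSum _ fun j _ =>
    (((h i j).comp continuous_fst).mul (by fun_prop)).mul (by fun_prop)

/-- Adding `k g` to `K`, with `k ≥ 0` vanishing on `1 ≤ s`, and enlarging `R0`. -/
theorem good_add (h : Good n m A Q g K EE ψ s R0 C c0 e0 θ0 r1) {k : E n → ℝ}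
    (hk : ContDiff ℝ ∞ k) (hk0 : ∀ x, 0 ≤ k x) (hk1 : ∀ x, 1 ≤ s x → k x = 0) {R : ℝ}
    (hR : R0 ≤ R) : Good n m A Q g (fun y => K y + k y • g y) EE ψ s R C c0 e0 θ0 r1 := by
  have hg := h.riem
  have e : ∀ x, 1 ≤ s x → K x + k x • g x = K x := fun x hx => by rw [hk1 x hx, zero_smul, add_zero]
  have hd : ∀ x, 1 ≤ s x → ∀ i, pderiv i k x = 0 := fun x hx i => by
    have : IsLocalMin k x := .of_forall fun y => (hk1 x hx).le.trans (hk0 y)
    simp [pderiv, this.fderiv_eq_zero]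
  refine { h with
    R0_ge := h.R0_ge.trans hR
    K_smooth := fun i j => (h.K_smooth i j).add (hk.mul (Bs.contDiff_g hg i j))
    K_symm := fun x i j => ?_
    K_far := fun x hx => ?_
    g_far := fun x hx => h.g_far x (hR.trans hx)
    s_far := fun x hx => h.s_far x (hR.trans hx)
    dec := fun x hx w hw => ?_
    trap := fun x hx hx' => ?_ }
  · simp only [Matrix.add_apply, Matrix.smul_apply, h.K_symm x i j, Bs.riem_symm hg x i j]
  · rw [e x (by linarith [h.s_far x (hR.trans hx)]), h.K_far x (hR.trans hx)]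
  · have h1 : energyDensity g (fun y => K y + k y • g y) x = energyDensity g K x := by
      simp only [energyDensity, traceK, normSqK, e x hx]
    have h2 : ∀ l i j, pderiv l (fun y => (K y + k y • g y) i j) x
        = pderiv l (fun y => K y i j) x := fun l i j => by
      simp only [Matrix.add_apply, Matrix.smul_apply, smul_eq_mul]
      rw [Bs.pd_add (Bs.smooth_diff (h.K_smooth i j) x)
        (Bs.smooth_diff (hk.mul (Bs.contDiff_g hg i j)) x),
        Bs.pd_mul (Bs.smooth_diff hk x) (Bs.smooth_diff (Bs.contDiff_g hg i j) x), hd x hx,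
        hk1 x hx]
      simp
    have h3 : traceK g (fun y => K y + k y • g y) = fun y => traceK g K y + k y * n := by
      funext y
      rw [traceK_add, traceK_eq hg trivial (fun y => k y • g y), shp_smul, shp_self hg trivial,
        map_smul, trL_id, smul_eq_mul]
    have h4 : ∀ i, momentumDensity g (fun y => K y + k y • g y) x i
        = momentumDensity g K x i := fun i => by
      have hT : DifferentiableAt ℝ (traceK g K) x := (contDiffAt_traceK hg trivial le_rfl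
        fun i j => (h.K_smooth i j).contDiffAt).differentiableAt (by simp)
      simp only [momentumDensity, covDerivK, h2, e x hx, h3]
      rw [Bs.pd_add hT ((Bs.smooth_diff hk x).mul_const _), Bs.pd_mul_const, hd x hx]
      simp
    simp only [h1, h4]
    exact h.dec x hx w hw
  · have := h.trap x hx hx'
    simp only [levelExp, e x hx] at this ⊢
    exact this

theorem norm_sq_le (h : Good n m A Q g K EE ψ s R0 C c0 e0 θ0 r1) {w : E n}
    (hw : quadForm g x w ≤ 1) : ‖w‖ ^ 2 ≤ C := by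
  have hC : 0 < C := by linarith [h.C_ge]
  have := (h.g_lo x w).trans hw
  rwa [inv_mul_le_iff₀ hC, mul_one] at this

theorem curv_far (hn : 3 ≤ n) (h : Good n m A Q g K EE ψ s R0 C c0 e0 θ0 r1) :
    ∃ D : ℝ, 0 ≤ D ∧ ∀ x w : E n, R0 < ‖x‖ → quadForm g x w ≤ 1 →
      |scalarCurv g x| + 2 * |bil (ricM g x) w w| ≤ D * (1 + ‖x‖) ^ (-(n : ℝ)) := by
  have hN : (3 : ℝ) ≤ n := by exact_mod_cast hn
  have hC := h.C_ge
  have hc : Conf (fun _ => 1) g ψ {y | R0 < ‖y‖} :=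
    ⟨⟨isOpen_lt continuous_const continuous_norm, fun _ _ => contDiffOn_const,
      fun _ _ => Matrix.PosDef.one⟩, h.ψ_smooth.contDiffOn, fun y hy => h.g_far y (le_of_lt hy)⟩
  refine ⟨Real.exp (2 * C) * (2 * n * C + n * n * C ^ 2)
    + 2 * (n * (C * C + C ^ 2 * C) + (C + n * C ^ 2) * C), by positivity, fun x w hx hw => ?_⟩
  have hχ : ∀ l i j, christoffel (fun _ : E n => (1 : Matrix (Fin n) (Fin n) ℝ)) x l i j = 0 :=
    fun l i j => by simp [christoffel]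
  have hχ' : ∀ (y : E n) l i j,
      christoffel (fun _ : E n => (1 : Matrix (Fin n) (Fin n) ℝ)) y l i j = 0 :=
    fun y l i j => by simp [christoffel]
  have f1 : ricM (fun _ : E n => (1 : Matrix (Fin n) (Fin n) ℝ)) x = 0 := by
    ext i j; simp [ricM, ricci, hχ']
  have f2 : scalarCurv (fun _ : E n => (1 : Matrix (Fin n) (Fin n) ℝ)) x = 0 := by
    simp [scalarCurv, ricci, hχ']
  have f3 : hess (fun _ : E n => (1 : Matrix (Fin n) (Fin n) ℝ)) ψ x w w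
      = iteratedFDeriv ℝ 2 ψ x ![w, w] := by
    have : Gam (fun _ : E n => (1 : Matrix (Fin n) (Fin n) ℝ)) x w w = 0 := by
      ext k; simp [Gam_apply, hχ]
    rw [hess_apply, this, map_zero, sub_zero, iteratedFDeriv_two_apply]
    rfl
  have f4 : laplaceBeltrami (fun _ : E n => (1 : Matrix (Fin n) (Fin n) ℝ)) ψ x = lap ψ x := by
    simp [laplaceBeltrami, inverseField, Matrix.one_apply, lap]
  have f5 : gam (fun _ : E n => (1 : Matrix (Fin n) (Fin n) ℝ)) ψ ψ x = ‖fderiv ℝ ψ x‖ ^ 2 := by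
    rw [← Bs.sum_pd_sq]
    simp [gam, inverseField, Matrix.one_apply]
  have f6 : bil (1 : Matrix (Fin n) (Fin n) ℝ) w w = ‖w‖ ^ 2 := by
    rw [Bs.norm_sq_eq]
    simp [bil_apply, Matrix.one_apply]
  have hr : 1 ≤ 1 + ‖x‖ := by linarith [norm_nonneg x]
  set σ := (1 + ‖x‖) ^ (-(n : ℝ)) with hσ
  have hσ0 : 0 ≤ σ := by positivity
  have hw2 := norm_sq_le h hw
  have b0 : Real.exp (-(2 * ψ x)) ≤ Real.exp (2 * C) := by
    have h1 := h.ψ_decay 0 (by norm_num) x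
    rw [norm_iteratedFDeriv_zero, Real.norm_eq_abs] at h1
    have h2 : (1 + ‖x‖) ^ (2 - (n : ℝ) - ((0 : ℕ) : ℝ)) ≤ 1 :=
      Real.rpow_le_one_of_one_le_of_nonpos hr (by push_cast; linarith)
    have h3 := (abs_le.1 (h1.trans (mul_le_of_le_one_right (by linarith) h2))).1
    exact Real.exp_le_exp.2 (by linarith)
  have b1 : |lap ψ x| ≤ C * σ := (h.ψ_lap x).trans (by
    gcongr
    exact Real.rpow_le_rpow_of_exponent_le hr (by linarith [h.e0_pos]))
  have b2 : ‖fderiv ℝ ψ x‖ ^ 2 ≤ C ^ 2 * σ := by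
    have h1 := h.ψ_decay 1 (by norm_num) x
    rw [norm_iteratedFDeriv_one] at h1
    refine (pow_le_pow_left₀ (norm_nonneg _) h1 2).trans ?_
    rw [mul_pow, ← Real.rpow_natCast (_ ^ _), ← Real.rpow_mul (by linarith)]
    gcongr
    exact Real.rpow_le_rpow_of_exponent_le hr (by push_cast; linarith)
  have b3 : |iteratedFDeriv ℝ 2 ψ x ![w, w]| ≤ C * C * σ := by
    have h1 := h.ψ_decay 2 le_rfl x
    rw [show 2 - (n : ℝ) - ((2 : ℕ) : ℝ) = -n by push_cast; ring] at h1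
    have h2 := (iteratedFDeriv ℝ 2 ψ x).le_opNorm ![w, w]
    simp only [Fin.prod_univ_two, Matrix.cons_val_zero, Matrix.cons_val_one, ← _root_.sq,
      Real.norm_eq_abs] at h2
    calc _ ≤ _ := h2
      _ ≤ C * σ * C := by gcongr
      _ = _ := by ring
  have b4 : |fderiv ℝ ψ x w * fderiv ℝ ψ x w| ≤ C ^ 2 * C * σ := by
    rw [← _root_.sq, abs_pow]
    calc |fderiv ℝ ψ x w| ^ 2 ≤ (‖fderiv ℝ ψ x‖ * ‖w‖) ^ 2 := by
          gcongr; exact (fderiv ℝ ψ x).le_opNorm w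
      _ = ‖fderiv ℝ ψ x‖ ^ 2 * ‖w‖ ^ 2 := by ring
      _ ≤ C ^ 2 * σ * C := by gcongr
      _ = _ := by ring
  have hxU : x ∈ {y : E n | R0 < ‖y‖} := hx
  rw [hc.scalar_eq hxU, hc.ric_eq hxU, f1, f2, f3, f4, f5, f6]
  have hG := sq_nonneg ‖fderiv ℝ ψ x‖
  generalize ‖fderiv ℝ ψ x‖ ^ 2 = G at *
  have c1 : |Real.exp (-(2 * ψ x)) * (0 - 2 * (n - 1) * lap ψ x - (n - 1) * (n - 2) * G)|
      ≤ Real.exp (2 * C) * (2 * n * C + n * n * C ^ 2) * σ := by
    rw [abs_mul, abs_of_pos (Real.exp_pos _), mul_assoc (Real.exp (2 * C))]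
    refine mul_le_mul b0 ((abs_sub _ _).trans ?_) (abs_nonneg _) (Real.exp_pos _).le
    rw [zero_sub, abs_neg, abs_mul, abs_mul ((n - 1 : ℝ) * _), abs_of_nonneg hG,
      abs_of_nonneg (by linarith : (0 : ℝ) ≤ 2 * (n - 1)),
      abs_of_nonneg (mul_nonneg (by linarith) (by linarith) : (0 : ℝ) ≤ (n - 1) * (n - 2)), add_mul,
      mul_assoc _ C σ, mul_assoc _ (C ^ 2) σ]
    gcongr <;> linarith
  have c2 : |bil (0 : Matrix (Fin n) (Fin n) ℝ) w w - (n - 2) * (iteratedFDeriv ℝ 2 ψ x ![w, w]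
      - fderiv ℝ ψ x w * fderiv ℝ ψ x w) - (lap ψ x + (n - 2) * G) * ‖w‖ ^ 2|
      ≤ (n * (C * C + C ^ 2 * C) + (C + n * C ^ 2) * C) * σ := by
    have z : bil (0 : Matrix (Fin n) (Fin n) ℝ) w w = 0 := by simp [bil_apply]
    refine (abs_sub _ _).trans ?_
    rw [z, zero_sub, abs_neg, abs_mul, abs_mul, abs_of_nonneg (by linarith : (0 : ℝ) ≤ n - 2),
      abs_of_nonneg (sq_nonneg ‖w‖)]
    have d1 := (abs_sub _ _).trans (add_le_add b3 b4)
    have d2 : |lap ψ x + (n - 2) * G| ≤ C * σ + n * (C ^ 2 * σ) := by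
      refine (abs_add_le _ _).trans (add_le_add b1 ?_)
      rw [abs_of_nonneg (mul_nonneg (by linarith) hG)]
      gcongr; linarith
    calc _ ≤ n * (C * C * σ + C ^ 2 * C * σ) + (C * σ + n * (C ^ 2 * σ)) * C := by
          gcongr; linarith
      _ = _ := by ring
  linarith

theorem exists_C0 (hn : 3 ≤ n) (h : Good n m A Q g K EE ψ s R0 C c0 e0 θ0 r1) :
    ∃ C0 : ℝ, ∀ x w, quadForm g x w ≤ 1 → |scalarCurv g x| + 2 * |bil (ricM g x) w w|
      + ((n : ℝ) - 1) * (traceK g K x - bil (K x) w w) ^ 2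
        ≤ C0 * (1 + ‖x‖ ^ 2) ^ (-(n : ℝ) / 2) := by
  obtain ⟨D, hD, hf⟩ := curv_far hn h
  have hg := h.riem
  have hric : ∀ i j, ContDiff ℝ ∞ fun x => ricM g x i j := contDiff_ricci hg
  have hcont : Continuous fun p : E n × E n => |scalarCurv g p.1| + 2 * |bil (ricM g p.1) p.2 p.2|
      + ((n : ℝ) - 1) * (traceK g K p.1 - bil (K p.1) p.2 p.2) ^ 2 :=
    (((continuous_traceK hg hric).comp continuous_fst).abs.add (continuous_const.mul
      (continuous_bil2 fun i j => (hric i j).continuous).abs)).add (continuous_const.mul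
      ((((continuous_traceK hg h.K_smooth).comp continuous_fst).sub
        (continuous_bil2 fun i j => (h.K_smooth i j).continuous)).pow 2))
  obtain ⟨B, hB⟩ := ((isCompact_closedBall (0 : E n) R0).prod
    (isCompact_closedBall (0 : E n) C)).exists_bound_of_continuousOn hcont.continuousOn
  have hn0 : -(n : ℝ) / 2 ≤ 0 := by have : (0 : ℝ) ≤ n := n.cast_nonneg; linarith
  have hpos : 0 < (1 + R0 ^ 2) ^ (-(n : ℝ) / 2) := by positivity
  refine ⟨max D (|B| / (1 + R0 ^ 2) ^ (-(n : ℝ) / 2)), fun x w hw => ?_⟩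
  rcases lt_or_ge R0 ‖x‖ with hx | hx
  · have z : traceK g K x - bil (K x) w w = 0 := by
      simp [traceK, h.K_far x hx.le, bil_apply]
    rw [z, zero_pow two_ne_zero, mul_zero, add_zero]
    exact (hf x w hx hw).trans (mul_le_mul (le_max_left _ _)
      (wt_le (norm_nonneg x) n.cast_nonneg) (by positivity) (hD.trans (le_max_left _ _)))
  · have hw2 := norm_sq_le h hw
    have hw1 : ‖w‖ ≤ C := by nlinarith [h.C_ge, norm_nonneg w]
    have := (le_abs_self _).trans ((hB (x, w) ⟨mem_closedBall_zero_iff.2 hx,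
      mem_closedBall_zero_iff.2 hw1⟩).trans (le_abs_self B))
    calc _ ≤ |B| := this
      _ = |B| / (1 + R0 ^ 2) ^ (-(n : ℝ) / 2) * (1 + R0 ^ 2) ^ (-(n : ℝ) / 2) := by field_simp
      _ ≤ _ := mul_le_mul (le_max_right _ _) (wt_anti (norm_nonneg x) hx hn0) hpos.le
          (hD.trans (le_max_left _ _))

theorem exists_E_far (h : Good n m A Q g K EE ψ s R0 C c0 e0 θ0 r1) {c1 : ℝ} (hc : 0 < c1) :
    ∃ R : ℝ, ∀ x : E n, R ≤ ‖x‖ →
      2 * eSq g EE x ≤ c1 * (1 + ‖x‖ ^ 2) ^ (-((n : ℝ) + e0) / 2) := by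
  have hC : 0 < C := by linarith [h.C_ge]
  have he := h.e0_lt
  have he0 := h.e0_pos
  have ht := (tendsto_rpow_neg_atTop (show 0 < (n : ℝ) - 2 - e0 by linarith)).comp
    (tendsto_atTop_add_const_left atTop 1 tendsto_id)
  set D := 2 * (C * (n * C ^ 2)) * C ^ n + 1 with hD
  have hD0 : 0 < D := by positivity
  obtain ⟨R, hR⟩ := eventually_atTop.1 (ht.eventually (gt_mem_nhds (div_pos hc hD0)))
  refine ⟨R, fun x hx => ?_⟩
  have h1 : (1 + ‖x‖) ^ (-((n : ℝ) - 2 - e0)) < c1 / D := hR _ hx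
  have hr : 0 < 1 + ‖x‖ := by positivity
  have h2 : vecNormSq g EE x ≤ C * (n * (C * (1 + ‖x‖) ^ (1 - (n : ℝ))) ^ 2) := by
    refine (h.g_hi x (WithLp.toLp 2 (EE x))).trans ?_
    gcongr
    rw [EuclideanSpace.real_norm_sq_eq]
    refine (Finset.sum_le_card_nsmul _ _ _ fun i _ => ?_).trans (by simp; rfl)
    rw [← sq_abs]
    exact pow_le_pow_left₀ (abs_nonneg _) (h.EE_decay x i) 2
  have h3 : (C ^ n)⁻¹ ≤ (g x).det := by
    rw [← inv_pow]; exact Bs.le_det h.riem (inv_pos.2 hC).le (h.g_lo x)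
  have h4 : eSq g EE x ≤ C * (n * (C * (1 + ‖x‖) ^ (1 - (n : ℝ))) ^ 2) * C ^ n := by
    rw [eSq]
    refine (div_le_div₀ (by positivity) h2 (by positivity) h3).trans (le_of_eq ?_)
    rw [div_inv_eq_mul]
  have h5 : ((1 + ‖x‖) ^ (1 - (n : ℝ))) ^ 2
      = (1 + ‖x‖) ^ (-((n : ℝ) - 2 - e0)) * (1 + ‖x‖) ^ (-((n : ℝ) + e0)) := by
    rw [← Real.rpow_natCast, ← Real.rpow_mul hr.le, ← Real.rpow_add hr]
    congr 1; push_cast; ring
  have h6 := wt_le (norm_nonneg x) (show 0 ≤ (n : ℝ) + e0 by positivity)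
  rw [mul_pow, h5] at h4
  rw [lt_div_iff₀ hD0] at h1
  have h7 : 0 ≤ (1 + ‖x‖) ^ (-((n : ℝ) + e0)) := by positivity
  have h8 : 0 ≤ (1 + ‖x‖) ^ (-((n : ℝ) - 2 - e0)) := by positivity
  calc 2 * eSq g EE x ≤ ((1 + ‖x‖) ^ (-((n : ℝ) - 2 - e0)) * (D - 1)) *
        (1 + ‖x‖) ^ (-((n : ℝ) + e0)) := by rw [hD]; linarith
    _ ≤ c1 * (1 + ‖x‖) ^ (-((n : ℝ) + e0)) := by gcongr; linarith
    _ ≤ _ := by gcongr

end Crest.Agent.N346.P1.St
end
end

-- ▼ part N346/P1/Setup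

/-! Row 346, P1-S (helper41): `setup : SetupStmt`. -/

set_option autoImplicit false

open Filter Topology Set
open scoped ContDiff
open Crest.GeometryTopology.CoordMetric Crest.MathPhysics.ExteriorData
open Crest.Agent.R202.Tens Crest.Agent.R247.Bo84 Crest.Agent.N346.Id

noncomputable section

namespace Crest.Agent.N346.P1

namespace St

variable {n : ℕ} {m A Q : ℝ} {g K : MetricField n} {EE : VectorField n} {ψ s : E n → ℝ}
  {R0 C c0 e0 θ0 r1 : ℝ} {x : E n}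

theorem isCompact_shell (h : Good n m A Q g K EE ψ s R0 C c0 e0 θ0 r1) (a : ℝ) {b : ℝ}
    (hb : b < 2) : IsCompact {x | a ≤ s x ∧ s x ≤ b} :=
  (isCompact_closedBall (0 : E n) R0).of_isClosed_subset
    ((isClosed_le continuous_const h.s_smooth.continuous).inter
      (isClosed_le h.s_smooth.continuous continuous_const)) fun x hx =>
    mem_closedBall_zero_iff.2 (le_of_not_ge fun h' => by linarith [h.s_far x h', hx.2])

/-- the barrier family is a supersolution after adding `k g` to `K` -/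
theorem exists_barrier (hn : 3 ≤ n) (h : Good n m A Q g K EE ψ s R0 C c0 e0 θ0 r1) :
    ∃ (κ : ℝ) (k : E n → ℝ), 0 < κ ∧ ContDiff ℝ ∞ k ∧ (∀ x, 0 ≤ k x) ∧ (∀ x, 1 ≤ s x → k x = 0) ∧
      ∀ ρ ∈ Icc (3 / 16 : ℝ) r1, ∀ x, s x < ρ →
        Th g (fun _ => 1) (fun y => bf κ ρ (s y)) (fun y => K y + k y • g y) x
          ≤ -2 * min 1 (θ0 / 8) := by
  have hg := h.riem
  have hs := h.s_smooth
  have hθ := h.θ0_pos
  have hN : (3 : ℝ) ≤ n := by exact_mod_cast hn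
  have ha : ∀ x, 1 / 8 ≤ s x → 0 < gam g s s x := fun x hx =>
    Bs.gradSq_pos hg (h.s_reg x (by linarith))
  have cL : Continuous (laplaceBeltrami g s) := (Bs.contDiff_laplaceBeltrami hg hs).continuous
  have ca : Continuous (gam g s s) := (Bs.contDiff_gradSq hg hs).continuous
  have cH := continuous_Hss hg hs
  have cQ := continuous_Kss hg hs h.K_smooth
  have cT := continuous_traceK hg h.K_smooth
  have hS := isCompact_shell h (1 / 8) h.r1_lt
  have hr : ∀ x ∈ {x | 1 / 8 ≤ s x ∧ s x ≤ r1}, 0 < √(gam g s s x) := fun x hx =>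
    Real.sqrt_pos.2 (ha x hx.1)
  have c1 := cL.continuousOn.div ca.sqrt.continuousOn fun x hx => (hr x hx).ne'
  have c2 := cH.continuousOn.div (ca.sqrt.pow 3).continuousOn fun x hx => (pow_pos (hr x hx) 3).ne'
  have c3 := cQ.continuousOn.div (ca.sqrt.pow 2).continuousOn fun x hx => (pow_pos (hr x hx) 2).ne'
  have c4 := ca.sqrt.continuousOn.inv₀ fun x hx => (hr x hx).ne'
  obtain ⟨D, hD⟩ := hS.exists_bound_of_continuousOn (((c1.abs.add c2.abs).add c3.abs).add c4)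
  have hD' : ∀ x, 1 / 8 ≤ s x → s x ≤ r1 →
      |laplaceBeltrami g s x / √(gam g s s x)| ≤ D ∧ |Hss g s x / √(gam g s s x) ^ 3| ≤ D ∧
      |Kss g K s x / √(gam g s s x) ^ 2| ≤ D ∧ (√(gam g s s x))⁻¹ ≤ D := fun x h1 h2 => by
    have h3 := (le_abs_self _).trans (hD x ⟨h1, h2⟩)
    have h4 := inv_pos.2 (hr x ⟨h1, h2⟩)
    simp only [Pi.add_apply, Pi.div_apply, Pi.inv_apply, Pi.pow_apply] at h3
    have p1 := abs_nonneg (laplaceBeltrami g s x / √(gam g s s x))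
    have p2 := abs_nonneg (Hss g s x / √(gam g s s x) ^ 3)
    have p3 := abs_nonneg (Kss g K s x / √(gam g s s x) ^ 2)
    exact ⟨by linarith, by linarith, by linarith, by linarith⟩
  set κ := max 1 (4 * (32 * D ^ 3 + 2 * D) / θ0) with hκ
  have hκ1 : 1 ≤ κ := le_max_left _ _
  have hκ0 : 0 < κ := by linarith
  have hκ2 : (32 * D ^ 3 + 2 * D) / κ ^ 2 ≤ θ0 / 4 := by
    have h1 : 4 * (32 * D ^ 3 + 2 * D) / θ0 ≤ κ := le_max_right _ _
    rw [div_le_iff₀ hθ] at h1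
    rw [div_le_iff₀ (by positivity)]
    nlinarith [mul_le_mul_of_nonneg_left hκ1 (mul_pos hκ0 hθ).le]
  -- the expansion stays negative slightly inside `s = 1`
  have cE : ContinuousOn (levelExp g K s) {x | 1 / 8 ≤ s x ∧ s x ≤ r1} :=
    (((c1.sub c2).sub cT.continuousOn).add c3).congr fun x hx => levelExp_eq hg hs (ha x hx.1)
  have hZ : IsCompact ({x | 1 / 8 ≤ s x ∧ s x ≤ r1} ∩ levelExp g K s ⁻¹' Ici (-θ0 / 2)) :=
    hS.of_isClosed_subset (cE.preimage_isClosed_of_isClosed hS.isClosed isClosed_Ici)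
      inter_subset_left
  obtain ⟨δ, hδ, hδZ⟩ := hZ.exists_forall_le' (f := fun x => 1 - s x) (a := 0)
    (continuous_const.sub hs.continuous).continuousOn fun x hx => by
      by_contra h'
      have h1 := h.trap x (by linarith) hx.1.2
      have h2 : -θ0 / 2 ≤ levelExp g K s x := hx.2
      linarith
  set σ := 1 - min δ (1 / 2) / 2 with hσ
  have hm0 : 0 < min δ (1 / 2) := lt_min hδ (by norm_num)
  have hσ1 : σ < 1 := by linarith
  have hE : ∀ x, σ ≤ s x → s x ≤ r1 → 1 / 8 ≤ s x ∧ levelExp g K s x ≤ -θ0 / 2 := fun x h1 h2 => by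
    have h3 : 1 / 8 ≤ s x := by linarith [min_le_right δ (1 / 2)]
    refine ⟨h3, le_of_not_ge fun h4 => ?_⟩
    have := hδZ x ⟨⟨h3, h2⟩, h4⟩
    linarith [min_le_left δ (1 / 2)]
  -- a bound in the inner region
  have cG : Continuous fun p : ℝ × E n => p.1 * laplaceBeltrami g s p.2 - p.1 ^ 3 * Hss g s p.2
      + 2 * p.1 ^ 3 * gam g s s p.2 / κ ^ 2 - traceK g K p.2 + p.1 ^ 2 * Kss g K s p.2 := by
    fun_prop
  obtain ⟨B, hB⟩ := ((isCompact_Icc (a := (0 : ℝ)) (b := max (2 * κ) D)).prod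
    (isCompact_shell h 0 one_lt_two)).exists_bound_of_continuousOn cG.continuousOn
  have hk0 : ∀ x, 0 ≤ (|B| + 2) * (1 - cut σ 1 (s x)) := fun x =>
    mul_nonneg (by positivity) (sub_nonneg.2 (Real.smoothTransition.le_one _))
  refine ⟨κ, fun x => (|B| + 2) * (1 - cut σ 1 (s x)), hκ0,
    contDiff_const.mul (contDiff_const.sub (Real.smoothTransition.contDiff.comp
      ((hs.sub contDiff_const).div_const _))), hk0, fun x hx => ?_, fun ρ hρ x hx => ?_⟩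
  · have : cut σ 1 (s x) = 1 := Real.smoothTransition.one_of_one_le (by
      rw [le_div_iff₀ (by linarith)]; linarith)
    simp only [this, sub_self, mul_zero]
  obtain ⟨u, u0, u1, u2, u3, u4, u5⟩ := Th_bf hg hs hκ0 hx
  rw [Th_add hg (jd_bf hg hs κ ρ) hx, u4, u5]
  have hs0 := h.s_nonneg x
  have hρ2 : ρ < 2 := hρ.2.trans_lt h.r1_lt
  have hsr : s x ≤ r1 := hx.le.trans hρ.2
  rcases le_total σ (s x) with hσx | hσx
  · obtain ⟨h1, h2⟩ := hE x hσx hsr
    obtain ⟨d1, d2, d3, d4⟩ := hD' x h1 hsr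
    have hsq : √(gam g s s x) ^ 2 = gam g s s x := Real.sq_sqrt (ha x h1).le
    have := alg_bound (T := traceK g K x) u0 (hr x ⟨h1, hsr⟩) hκ0 (by rwa [hsq])
      (by rw [hsq]; linarith) d1 d2 d3 d4
    rw [← levelExp_eq hg hs (ha x h1), hsq] at this
    have h3 := mul_nonneg (hk0 x) (show 0 ≤ n - u ^ 2 * gam g s s x by linarith)
    linarith [min_le_right 1 (θ0 / 8)]
  · have hu : u ≤ max (2 * κ) D := by
      rcases le_total (1 / 8) (s x) with h1 | h1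
      · have hr' := hr x ⟨h1, hsr⟩
        have hsq : √(gam g s s x) ^ 2 = gam g s s x := Real.sq_sqrt (ha x h1).le
        refine le_trans ?_ ((hD' x h1 hsr).2.2.2.trans (le_max_right _ _))
        rw [← one_div, le_div_iff₀ hr']
        rw [← hsq, ← mul_pow] at u2
        exact (sq_le_one_iff₀ (by positivity)).1 u2
      · refine u1.trans (le_trans ?_ (le_max_left _ _))
        have h2 : 1 / 4 ≤ √(ρ - s x) := Real.le_sqrt_of_sq_le (by linarith [hρ.1])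
        rw [div_le_iff₀ (by positivity)]
        nlinarith
    have h1 := (le_abs_self _).trans ((hB (u, x) ⟨⟨u0, hu⟩, hs0, by linarith⟩).trans (le_abs_self B))
    have h2 : cut σ 1 (s x) = 0 := Real.smoothTransition.zero_of_nonpos
      (div_nonpos_of_nonpos_of_nonneg (by linarith) (by linarith))
    simp only [h2, sub_zero, mul_one] at h1 ⊢
    have h3 : (|B| + 2) * 1 ≤ (|B| + 2) * (n - u ^ 2 * gam g s s x) := by gcongr; linarith
    linarith [min_le_left 1 (θ0 / 8)]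

theorem exists_t0 (h : Good n m A Q g K EE ψ s R0 C c0 e0 θ0 r1) {c1 t1 : ℝ} (hc : 0 < c1)
    (ht : 0 < t1) : ∃ t0 : ℝ, 0 < t0 ∧ 4 * t0 ≤ t1 ∧ ∀ x : E n,
      4 * t0 * |traceK g K x| ≤ c1 * (1 + ‖x‖ ^ 2) ^ (-((n : ℝ) + e0) / 2) := by
  obtain ⟨B, hB⟩ := (isCompact_closedBall (0 : E n) R0).exists_bound_of_continuousOn
    (continuous_traceK h.riem h.K_smooth).continuousOn
  set mu := c1 * (1 + R0 ^ 2) ^ (-((n : ℝ) + e0) / 2) with hmu
  have hmu0 : 0 < mu := by positivity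
  refine ⟨min (t1 / 4) (mu / (4 * (|B| + 1))), by positivity,
    by linarith [min_le_left (t1 / 4) (mu / (4 * (|B| + 1)))], fun x => ?_⟩
  rcases le_total R0 ‖x‖ with hx | hx
  · have : traceK g K x = 0 := by simp [traceK, h.K_far x hx]
    rw [this, abs_zero, mul_zero]
    positivity
  · have h1 : |traceK g K x| ≤ |B| + 1 :=
      ((hB x (mem_closedBall_zero_iff.2 hx)).trans (le_abs_self B)).trans (by linarith)
    have he : -((n : ℝ) + e0) / 2 ≤ 0 := by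
      have : (0 : ℝ) ≤ n := n.cast_nonneg
      linarith [h.e0_pos]
    calc _ ≤ 4 * (mu / (4 * (|B| + 1))) * (|B| + 1) := by gcongr; exact min_le_right _ _
      _ = mu := by field_simp
      _ ≤ _ := mul_le_mul_of_nonneg_left (wt_anti (norm_nonneg x) hx he) hc.le

end St

open St in
theorem setup : SetupStmt := by
  intro n hn m A Q g K EE ψ s R0 C c0 e0 θ0 r1 h θ hθ hθ1
  obtain ⟨κ, k, hκ, hk, hk0, hk1, hsup⟩ := exists_barrier hn h
  have hc0 := h.c0_pos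
  have hne : 0 ≤ (n : ℝ) + e0 := by have := h.e0_pos; positivity
  set c1 := c0 * (2 : ℝ) ^ (-((n : ℝ) + e0) / 2) / 2 with hc1
  have hc1p : 0 < c1 := by positivity
  obtain ⟨R, hR⟩ := exists_E_far h hc1p
  have h' := good_add h hk hk0 hk1 (le_max_left R0 R)
  obtain ⟨C0, hC0⟩ := exists_C0 hn h'
  have ht1 : 0 < min 1 (θ0 / 8) := lt_min one_pos (by linarith [h.θ0_pos])
  obtain ⟨t0, ht0, ht01, ht0s⟩ := exists_t0 h' hc1p ht1
  have hr1 := h.r1_gt
  have hr2 := h.r1_lt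
  refine ⟨⟨m, A, Q, g, fun y => K y + k y • g y, EE, ψ, s, max R0 R, C, c0, e0, θ0, r1, θ, t0,
    min 1 (θ0 / 8), 1 + (r1 - 1) / 3, 1 + 2 * (r1 - 1) / 3, C0, c1, 2 * κ,
    fun ρ x => bf κ ρ (s x)⟩, ⟨h', ⟨hθ, hθ1, ht0, ht01, min_le_left _ _⟩, ?_, ?_, ?_, hc1p,
    fun x => ?_, ht0s, fun x hx => hR x ((le_max_right _ _).trans hx), hC0, ?_,
    fun ρ _ => (jd_bf h.riem h.s_smooth κ ρ).f_smooth, fun ρ hρ x hx => ?_, fun ρ hρ x hx L => ?_,
    fun ρ hρ x hx => hsup ρ ⟨hρ.1, hρ.2.trans ?_⟩ x hx⟩, rfl, rfl, rfl, rfl, rfl⟩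
  · show 1 < 1 + (r1 - 1) / 3
    linarith
  · show 1 + (r1 - 1) / 3 < 1 + 2 * (r1 - 1) / 3
    linarith
  · show 1 + 2 * (r1 - 1) / 3 < 2
    linarith
  · show 2 * (c1 * (1 + ‖x‖ ^ 2) ^ (-((n : ℝ) + e0) / 2)) ≤ c0 * (1 + ‖x‖) ^ (-(n : ℝ) - e0)
    have := mul_le_mul_of_nonneg_left (le_wt (norm_nonneg x) hne) hc0.le
    rw [show -(n : ℝ) - e0 = -(n + e0) by ring, hc1]
    linarith
  · have := h.s_smooth.continuous
    exact (by unfold bf; fun_prop : Continuous fun p : ℝ × E n => bf κ p.1 (s p.2)).continuousOn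
  · have h1 : ρ ≤ 1 + (r1 - 1) / 3 := hρ.2
    have h2 : √(ρ - s x) ≤ 2 := Real.sqrt_le_iff.2 ⟨by norm_num, by linarith [h.s_nonneg x]⟩
    have h3 := Real.sqrt_nonneg (ρ - s x)
    show bf κ ρ (s x) ∈ Icc (-(2 * κ)) 0
    unfold bf
    constructor <;> nlinarith
  · have hx' : s x = ρ := hx
    subst hx'
    exact steep (Bs.smooth_diff h.s_smooth x) (h.s_reg x (by linarith [hρ.1])) hκ L
  · show 1 + (r1 - 1) / 3 ≤ r1
    linarith

end Crest.Agent.N346.P1
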